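import Mathlib
import Crest.Agent.R167.Defs
import Crest.Agent.R167.PCalc

-- ▼ part R167/Mom1
section

/-!
Row 167, node MOMENTS (helper287), part 1: rotations in coordinate planes of `EuclideanSpace ℝ (Fin n)`,
their generators, and the quadratic remainder bounds.
-/

set_option autoImplicit false

namespace Crest.Agent.R167.MomR

open Real

variable {n : ℕ}

/-- infinitesimal rotation in the `(i,j)` plane: `(gen i j s) i = - s j`, `(gen i j s) j = s i`. -/
noncomputable def gen (i j : Fin n) (s : EuclideanSpace ℝ (Fin n)) : EuclideanSpace ℝ (Fin n) :=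
  EuclideanSpace.single i (-(s j)) + EuclideanSpace.single j (s i)

/-- rotation by the angle `t` in the `(i,j)` plane (`= exp (t * gen i j)` for `i ≠ j`). -/
noncomputable def rot (i j : Fin n) (t : ℝ) (s : EuclideanSpace ℝ (Fin n)) :
    EuclideanSpace ℝ (Fin n) :=
  s + (EuclideanSpace.single i ((cos t - 1) * s i - sin t * s j)
    + EuclideanSpace.single j (sin t * s i + (cos t - 1) * s j))





theorem rot_apply_left {i j : Fin n} (h : i ≠ j) (t : ℝ) (s : EuclideanSpace ℝ (Fin n)) :
    rot i j t s i = cos t * s i - sin t * s j := by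
  simp [rot, h]; ring

theorem rot_apply_right {i j : Fin n} (h : i ≠ j) (t : ℝ) (s : EuclideanSpace ℝ (Fin n)) :
    rot i j t s j = sin t * s i + cos t * s j := by
  simp [rot, h.symm]; ring

theorem rot_apply_of_ne {i j k : Fin n} (hi : k ≠ i) (hj : k ≠ j) (t : ℝ)
    (s : EuclideanSpace ℝ (Fin n)) : rot i j t s k = s k := by
  simp [rot, hi, hj]

theorem inner_single_right' (i : Fin n) (a : ℝ) (u : EuclideanSpace ℝ (Fin n)) :
    inner ℝ u (EuclideanSpace.single i a) = a * u i := by
  simp [EuclideanSpace.inner_single_right]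

theorem inner_single_left' (i : Fin n) (a : ℝ) (u : EuclideanSpace ℝ (Fin n)) :
    inner ℝ (EuclideanSpace.single i a) u = a * u i := by
  simp [EuclideanSpace.inner_single_left]

theorem inner_gen (i j : Fin n) (u v : EuclideanSpace ℝ (Fin n)) :
    inner ℝ u (gen i j v) = u j * v i - u i * v j := by
  rw [gen, inner_add_right, inner_single_right', inner_single_right']; ring

theorem inner_rot (i j : Fin n) (t : ℝ) (u v : EuclideanSpace ℝ (Fin n)) :
    inner ℝ u (rot i j t v) = inner ℝ u v + (u i * ((cos t - 1) * v i - sin t * v j)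
      + u j * (sin t * v i + (cos t - 1) * v j)) := by
  rw [rot, inner_add_right, inner_add_right, inner_single_right', inner_single_right']; ring

theorem inner_rot_left (i j : Fin n) (t : ℝ) (u v : EuclideanSpace ℝ (Fin n)) :
    inner ℝ (rot i j t u) v = inner ℝ u v + (((cos t - 1) * u i - sin t * u j) * v i
      + (sin t * u i + (cos t - 1) * u j) * v j) := by
  rw [rot, inner_add_left, inner_add_left, inner_single_left', inner_single_left']

/-- moving a rotation from one side of the inner product to the other -/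
theorem inner_rot_rot {i j : Fin n} (h : i ≠ j) (t t' : ℝ) (u v : EuclideanSpace ℝ (Fin n)) :
    inner ℝ (rot i j t u) (rot i j t' v) = inner ℝ u (rot i j (t' - t) v) := by
  rw [inner_rot_left, rot_apply_left h, rot_apply_right h, inner_rot, inner_rot, cos_sub, sin_sub]
  ring




theorem norm_two {i j : Fin n} (h : i ≠ j) (a b : ℝ) :
    ‖(EuclideanSpace.single i a + EuclideanSpace.single j b : EuclideanSpace ℝ (Fin n))‖ ^ 2
      = a ^ 2 + b ^ 2 := by
  rw [← real_inner_self_eq_norm_sq, inner_add_left, inner_single_left', inner_single_left']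
  simp [h, h.symm]; ring

theorem two_le {i j : Fin n} (h : i ≠ j) (v : EuclideanSpace ℝ (Fin n)) :
    v i ^ 2 + v j ^ 2 ≤ ‖v‖ ^ 2 := by
  rw [EuclideanSpace.norm_sq_eq]
  have : ∑ k ∈ ({i, j} : Finset (Fin n)), ‖v k‖ ^ 2 ≤ ∑ k, ‖v k‖ ^ 2 :=
    Finset.sum_le_sum_of_subset_of_nonneg (Finset.subset_univ _) (fun _ _ _ => by positivity)
  rw [Finset.sum_pair h] at this
  simpa using this


/-- `|e^{it} - 1 - it| ≤ t²/2` -/
theorem trig_two (t : ℝ) : (cos t - 1) ^ 2 + (sin t - t) ^ 2 ≤ (t ^ 2 / 2) ^ 2 := by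
  have key : ∀ x : ℝ, 0 ≤ x → 0 ≤ x ^ 4 / 4 - (2 - 2 * cos x + x ^ 2 - 2 * x * sin x) := by
    intro x hx
    have hmono : MonotoneOn (fun y : ℝ => y ^ 4 / 4 - (2 - 2 * cos y + y ^ 2 - 2 * y * sin y))
        (Set.Ici 0) := by
      apply monotoneOn_of_deriv_nonneg (convex_Ici 0)
      · fun_prop
      · fun_prop
      · intro y hy
        rw [interior_Ici] at hy
        have hy0 : (0 : ℝ) < y := hy
        have hd : HasDerivAt (fun y : ℝ => y ^ 4 / 4 - (2 - 2 * cos y + y ^ 2 - 2 * y * sin y))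
            (y * (y ^ 2 - 2 * (1 - cos y))) y := by
          have h1 : HasDerivAt (fun y : ℝ => y ^ 4 / 4) (y ^ 3) y := by
            have := (hasDerivAt_pow 4 y).div_const 4
            refine this.congr_deriv ?_
            norm_num
          have h2 : HasDerivAt (fun y : ℝ => 2 * cos y) (2 * -sin y) y :=
            (hasDerivAt_cos y).const_mul 2
          have h3 : HasDerivAt (fun y : ℝ => y ^ 2) (2 * y) y := by
            simpa using hasDerivAt_pow 2 y
          have h4 : HasDerivAt (fun y : ℝ => 2 * y * sin y) (2 * sin y + 2 * y * cos y) y := by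
            have h5 : HasDerivAt (fun y : ℝ => 2 * y) (2 * 1) y := (hasDerivAt_id y).const_mul 2
            have := h5.mul (hasDerivAt_sin y)
            refine this.congr_deriv ?_
            ring
          have h6 := h1.sub (((h2.const_sub 2).add h3).sub h4)
          refine h6.congr_deriv ?_
          ring
        rw [hd.deriv]
        have := Real.one_sub_sq_div_two_le_cos (x := y)
        have h7 : 0 ≤ y ^ 2 - 2 * (1 - cos y) := by linarith
        positivity
    have h0 := hmono (Set.mem_Ici.2 le_rfl) (Set.mem_Ici.2 hx) hx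
    simpa using h0
  have h1 : 0 ≤ t ^ 4 / 4 - (2 - 2 * cos t + t ^ 2 - 2 * t * sin t) := by
    rcases le_total 0 t with ht | ht
    · exact key t ht
    · have := key (-t) (by linarith)
      rw [cos_neg, sin_neg] at this
      have e : (-t) ^ 4 / 4 - (2 - 2 * cos t + (-t) ^ 2 - 2 * (-t) * -sin t)
        = t ^ 4 / 4 - (2 - 2 * cos t + t ^ 2 - 2 * t * sin t) := by ring
      rwa [e] at this
  nlinarith [sin_sq_add_cos_sq t]



theorem norm_rot_sub_sub_le {i j : Fin n} (h : i ≠ j) (t : ℝ) (v : EuclideanSpace ℝ (Fin n)) :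
    ‖rot i j t v - v - t • gen i j v‖ ≤ t ^ 2 / 2 * ‖v‖ := by
  have h1 : ‖rot i j t v - v - t • gen i j v‖ ^ 2 ≤ (t ^ 2 / 2 * ‖v‖) ^ 2 := by
    have e0 : rot i j t v - v - t • gen i j v
      = EuclideanSpace.single i ((cos t - 1) * v i - (sin t - t) * v j)
        + EuclideanSpace.single j ((sin t - t) * v i + (cos t - 1) * v j) := by
      rw [rot, add_sub_cancel_left, gen, smul_add]
      ext k
      by_cases hi : k = i
      · subst hi; simp [h]; ring
      · by_cases hj : k = j
        · subst hj; simp [hi]; ring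
        · simp [hi, hj]
    rw [e0, norm_two h, mul_pow]
    have h2 := two_le h v
    have h3 := trig_two t
    have e : ((cos t - 1) * v i - (sin t - t) * v j) ^ 2
        + ((sin t - t) * v i + (cos t - 1) * v j) ^ 2
      = ((cos t - 1) ^ 2 + (sin t - t) ^ 2) * (v i ^ 2 + v j ^ 2) := by ring
    rw [e]
    exact mul_le_mul h3 h2 (by positivity) (by positivity)
  exact (sq_le_sq₀ (norm_nonneg _) (by positivity)).1 h1


/-- one plane: lower bound for an edge -/
theorem edge_one {i j : Fin n} (h : i ≠ j) (a c : ℝ) (u v : EuclideanSpace ℝ (Fin n))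
    (hu : ‖u‖ = 1) (hv : ‖v‖ = 1) :
    inner ℝ u v + (c - a) * inner ℝ u (gen i j v) - (c - a) ^ 2 / 2
      ≤ inner ℝ (rot i j a u) (rot i j c v) := by
  rw [inner_rot_rot h]
  have h1 := norm_rot_sub_sub_le h (c - a) v
  have h2 := abs_real_inner_le_norm u (rot i j (c - a) v - v - (c - a) • gen i j v)
  rw [hu, one_mul] at h2
  rw [hv, mul_one] at h1
  have h3 := (abs_le.1 (h2.trans h1)).1
  rw [inner_sub_right, inner_sub_right, inner_smul_right] at h3
  linarith


end Crest.Agent.R167.MomR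
end

-- ▼ part R167/MomEdge
section

/-!
Row 167, node MOMENTS (helper287): lower bounds of the interaction after a rotation field, on the
frozen definitions of `Defs.lean`.
-/

set_option autoImplicit false
open MeasureTheory Crest.ProbabilityR.SpinModel

namespace Crest.Agent.R167.MomE

variable {ι E : Type} [Fintype ι] [Fintype E] {n : ℕ}

theorem rotV_eq_rot {k l : Fin n} (h : k ≠ l) (θ : ℝ) (x : EuclideanSpace ℝ (Fin n)) :
    rotV k l θ x = MomR.rot k l θ x := by
  ext i
  by_cases hk : i = k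
  · subst hk; rw [MomR.rot_apply_left h]; simp [rotV]
  · by_cases hl : i = l
    · subst hl; rw [MomR.rot_apply_right h]; simp [rotV, hk]
    · rw [MomR.rot_apply_of_ne hk hl]; simp [rotV, hk, hl]

theorem cur_eq_inner (k l : Fin n) (x y : EuclideanSpace ℝ (Fin n)) :
    cur k l x y = inner ℝ x (MomR.gen k l y) := by
  rw [MomR.inner_gen]; rfl

theorem norm_sp (x : Sp n) : ‖(x : EuclideanSpace ℝ (Fin n))‖ = 1 := by simp

/-- edge bound, one plane. -/
theorem edge_one_ge {k l : Fin n} (h : k ≠ l) (a c : ℝ) (x y : Sp n) :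
    inner ℝ (x : EuclideanSpace ℝ (Fin n)) y + (c - a) * cur k l x y - (c - a) ^ 2 / 2
      ≤ inner ℝ (rotS h a x : EuclideanSpace ℝ (Fin n)) (rotS h c y) := by
  have := MomR.edge_one h a c (x : EuclideanSpace ℝ (Fin n)) y (norm_sp x) (norm_sp y)
  rw [← cur_eq_inner, ← rotV_eq_rot h, ← rotV_eq_rot h] at this
  exact this


/-- (M1), deterministic part. -/
theorem I_flow_ge {G : Gr ι E} (hb : ∀ e, 0 ≤ G.b e) {k l : Fin n} (h : k ≠ l) (f : ι → ℝ) (t : ℝ)
    (s : Cf ι n) : G.I s + t * XI G k l f s - t ^ 2 * G.En f / 2 ≤ G.I (Flow h f t s) := by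
  unfold Gr.I XI Gr.En
  rw [Finset.mul_sum, Finset.mul_sum, Finset.sum_div, ← Finset.sum_add_distrib,
    ← Finset.sum_sub_distrib]
  refine Finset.sum_le_sum fun e _ => ?_
  have h1 := mul_le_mul_of_nonneg_left
    (edge_one_ge h (t * f (G.src e)) (t * f (G.tgt e)) (s (G.src e)) (s (G.tgt e))) (hb e)
  refine le_trans (le_of_eq ?_) h1
  ring







end Crest.Agent.R167.MomE
end

-- ▼ part R167/MA
section

set_option autoImplicit false
open MeasureTheory Crest.ProbabilityR.SpinModel

/-!
# Row 167, block M, part A: rotations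

`rotV` is linear, isometric, a one-parameter group; `rotS` preserves `unif`, vertexwise
maps preserve `nu`.
-/

namespace Crest.Agent.R167

variable {n : ℕ}

namespace M

/-- the vector with `k`-th entry `a`, `l`-th entry `b`, other entries `0`. -/
noncomputable def pl (k l : Fin n) (a b : ℝ) : EuclideanSpace ℝ (Fin n) :=
  WithLp.toLp 2 fun i => if i = k then a else if i = l then b else 0








lemma rotV_apply (k l : Fin n) (θ : ℝ) (x : EuclideanSpace ℝ (Fin n)) (i : Fin n) :
    rotV k l θ x i = if i = k then Real.cos θ * x k - Real.sin θ * x l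
      else if i = l then Real.sin θ * x k + Real.cos θ * x l else x i := rfl

lemma rotV_k (k l : Fin n) (θ : ℝ) (x : EuclideanSpace ℝ (Fin n)) :
    rotV k l θ x k = Real.cos θ * x k - Real.sin θ * x l := by simp [rotV_apply]

lemma rotV_l {k l : Fin n} (h : k ≠ l) (θ : ℝ) (x : EuclideanSpace ℝ (Fin n)) :
    rotV k l θ x l = Real.sin θ * x k + Real.cos θ * x l := by
  simp [rotV_apply, Ne.symm h]



lemma rotV_add (k l : Fin n) (θ : ℝ) (x y : EuclideanSpace ℝ (Fin n)) :
    rotV k l θ (x + y) = rotV k l θ x + rotV k l θ y := by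
  ext i
  simp only [rotV_apply, PiLp.add_apply]
  split_ifs <;> ring

lemma rotV_smul (k l : Fin n) (θ c : ℝ) (x : EuclideanSpace ℝ (Fin n)) :
    rotV k l θ (c • x) = c • rotV k l θ x := by
  ext i
  simp only [rotV_apply, PiLp.smul_apply, smul_eq_mul]
  split_ifs <;> ring

lemma rotV_rotV {k l : Fin n} (h : k ≠ l) (a b : ℝ) (x : EuclideanSpace ℝ (Fin n)) :
    rotV k l a (rotV k l b x) = rotV k l (a + b) x := by
  ext i
  rw [rotV_apply, rotV_k, rotV_l h, rotV_apply, rotV_apply, Real.cos_add, Real.sin_add]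
  split_ifs with h1 h2
  · ring
  · ring
  · rfl

lemma rotV_zero (k l : Fin n) (x : EuclideanSpace ℝ (Fin n)) : rotV k l 0 x = x := by
  ext i
  rw [rotV_apply, Real.cos_zero, Real.sin_zero]
  split_ifs with h1 h2
  · subst h1; ring
  · subst h2; ring
  · rfl

/-- `rotV` as a linear isometry equivalence. -/
noncomputable def rotE {k l : Fin n} (h : k ≠ l) (θ : ℝ) :
    EuclideanSpace ℝ (Fin n) ≃ₗᵢ[ℝ] EuclideanSpace ℝ (Fin n) where
  toFun := rotV k l θ
  invFun := rotV k l (-θ)
  left_inv x := by rw [rotV_rotV h, neg_add_cancel, rotV_zero]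
  right_inv x := by rw [rotV_rotV h, add_neg_cancel, rotV_zero]
  map_add' := rotV_add k l θ
  map_smul' c x := by simp [rotV_smul]
  norm_map' x := norm_rotV h θ x

@[simp] lemma rotE_apply {k l : Fin n} (h : k ≠ l) (θ : ℝ) (x : EuclideanSpace ℝ (Fin n)) :
    rotE h θ x = rotV k l θ x := rfl


/-- the restriction of a linear isometry equivalence to the sphere. -/
noncomputable def sphMap (T : EuclideanSpace ℝ (Fin n) ≃ₗᵢ[ℝ] EuclideanSpace ℝ (Fin n))
    (s : Sp n) : Sp n :=
  ⟨T s, by
    have h1 : ‖(s : EuclideanSpace ℝ (Fin n))‖ = 1 := by simp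
    simp [T.norm_map]⟩

@[simp] lemma sphMap_coe (T : EuclideanSpace ℝ (Fin n) ≃ₗᵢ[ℝ] EuclideanSpace ℝ (Fin n))
    (s : Sp n) : ((sphMap T s : Sp n) : EuclideanSpace ℝ (Fin n)) = T s := rfl


lemma rotS_coe {k l : Fin n} (h : k ≠ l) (θ : ℝ) (s : Sp n) :
    ((rotS h θ s : Sp n) : EuclideanSpace ℝ (Fin n)) = rotV k l θ s := rfl

lemma continuous_sphMap (T : EuclideanSpace ℝ (Fin n) ≃ₗᵢ[ℝ] EuclideanSpace ℝ (Fin n)) :
    Continuous (sphMap T) :=
  (T.continuous.comp continuous_subtype_val).subtype_mk _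

open scoped Pointwise in
lemma measurePreserving_toSphere (T : EuclideanSpace ℝ (Fin n) ≃ₗᵢ[ℝ] EuclideanSpace ℝ (Fin n)) :
    MeasurePreserving (sphMap T) ((volume : Measure (EuclideanSpace ℝ (Fin n))).toSphere)
      ((volume : Measure (EuclideanSpace ℝ (Fin n))).toSphere) := by
  refine ⟨(continuous_sphMap T).measurable, ?_⟩
  ext s hs
  rw [Measure.map_apply (continuous_sphMap T).measurable hs, Measure.toSphere_apply' _ hs,
    Measure.toSphere_apply' _ ((continuous_sphMap T).measurable hs)]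
  congr 1
  have h1 : (Set.Ioo (0 : ℝ) 1 • ((↑) '' (sphMap T ⁻¹' s) : Set (EuclideanSpace ℝ (Fin n))))
      = T ⁻¹' (Set.Ioo (0 : ℝ) 1 • ((↑) '' s : Set (EuclideanSpace ℝ (Fin n)))) := by
    ext x
    constructor
    · rintro ⟨r, hr, y, ⟨z, hz, rfl⟩, rfl⟩
      refine ⟨r, hr, T z, ⟨sphMap T z, hz, rfl⟩, ?_⟩
      simp
    · rintro ⟨r, hr, y, ⟨z, hz, rfl⟩, hx⟩
      have hx' : r • (z : EuclideanSpace ℝ (Fin n)) = T x := hx
      refine ⟨r, hr, T.symm z, ⟨sphMap T.symm z, ?_, rfl⟩, ?_⟩
      · have : sphMap T (sphMap T.symm z) = z := by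
          apply Subtype.ext; simp
        simpa [this] using hz
      · show r • T.symm (z : EuclideanSpace ℝ (Fin n)) = x
        rw [← map_smul, hx', T.symm_apply_apply]
  rw [h1]
  exact T.measurePreserving.measure_preimage_equiv
    (f := T.toHomeomorph.toMeasurableEquiv) _

lemma measurePreserving_unif (T : EuclideanSpace ℝ (Fin n) ≃ₗᵢ[ℝ] EuclideanSpace ℝ (Fin n)) :
    MeasurePreserving (sphMap T) (unif n) (unif n) := by
  unfold unif
  exact (measurePreserving_toSphere T).smul_measure _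

instance isFiniteMeasure_unif : IsFiniteMeasure (unif n) := by
  unfold unif
  by_cases h : (volume : Measure (EuclideanSpace ℝ (Fin n))).toSphere Set.univ = 0
  · have : (volume : Measure (EuclideanSpace ℝ (Fin n))).toSphere = 0 := by
      rwa [Measure.measure_univ_eq_zero] at h
    rw [this]; simp; infer_instance
  · refine ⟨?_⟩
    rw [Measure.smul_apply, smul_eq_mul, ENNReal.inv_mul_cancel h (measure_ne_top _ _)]
    exact ENNReal.one_lt_top

lemma measurePreserving_nu {ι : Type} [Fintype ι]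
    (T : ι → (EuclideanSpace ℝ (Fin n) ≃ₗᵢ[ℝ] EuclideanSpace ℝ (Fin n))) :
    MeasurePreserving (fun (s : Cf ι n) v => sphMap (T v) (s v)) (nu ι n) (nu ι n) := by
  unfold nu
  exact measurePreserving_pi _ _ fun v => measurePreserving_unif (T v)

end M

end Crest.Agent.R167
end

-- ▼ part R167/MomM1

set_option autoImplicit false
open MeasureTheory Crest.ProbabilityR.SpinModel

/-!
# Row 167, node MOM, (M1): exponential, second and fourth moments of `X_f I`
-/

namespace Crest.Agent.R167

variable {ι E : Type} [Fintype ι] [Fintype E] {n : ℕ}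

namespace M

lemma mp_Flow_M {k l : Fin n} (h : k ≠ l) (f : ι → ℝ) (t : ℝ) :
    MeasurePreserving (Flow h f t) (nu ι n) (nu ι n) :=
  measurePreserving_nu (fun v => rotE h (t * f v))

lemma continuous_Flow_M {k l : Fin n} (h : k ≠ l) (f : ι → ℝ) (t : ℝ) :
    Continuous (Flow h f t : Cf ι n → Cf ι n) :=
  continuous_pi fun v => (continuous_sphMap (rotE h (t * f v))).comp (continuous_apply v)

lemma rotS_zero_M {k l : Fin n} (h : k ≠ l) (s : Sp n) : rotS h 0 s = s := by
  apply Subtype.ext
  rw [rotS_coe, rotV_zero]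

lemma Flow_glue {k l : Fin n} (h : k ≠ l) {f : ι → ℝ} {F0 : Set ι} (hf : ∀ v ∈ F0, f v = 0)
    (t : ℝ) (τ s : Cf ι n) : Flow h f t (glue F0 τ s) = glue F0 τ (Flow h f t s) := by
  funext v
  unfold Flow glue
  by_cases hv : v ∈ F0
  · simp [hv, hf v hv, rotS_zero_M]
  · simp [hv]

/-- the density of the rotated Gibbs measure has expectation `1`. -/
lemma expI_flow [NeZero n] (G : Gr ι E) {k l : Fin n} (h : k ≠ l) {f : ι → ℝ} {F0 : Set ι}
    (hf : ∀ v ∈ F0, f v = 0) (t : ℝ) (τ : Cf ι n) :
    P G F0 (fun s => Real.exp (G.I (Flow h f t s) - G.I s)) τ = 1 := by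
  have hZ := Zf_pos G F0 τ
  unfold Zf at hZ
  unfold P
  rw [div_eq_one_iff_eq hZ.ne']
  have hc : Continuous fun s' : Cf ι n => Real.exp (G.I (glue F0 τ s')) :=
    (continuous_w G).comp (continuous_glue_right F0 τ)
  have h1 : (fun s' => Real.exp (G.I (Flow h f t (glue F0 τ s')) - G.I (glue F0 τ s'))
      * Real.exp (G.I (glue F0 τ s')))
      = fun s' => Real.exp (G.I (glue F0 τ (Flow h f t s'))) := by
    funext s'
    rw [← Real.exp_add, Flow_glue h hf]
    congr 1; ring
  rw [h1]
  have h2 := integral_map (μ := nu ι n) (mp_Flow_M h f t).aemeasurable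
    (f := fun s' => Real.exp (G.I (glue F0 τ s'))) hc.aestronglyMeasurable
  rw [(mp_Flow_M h f t).map_eq] at h2
  exact h2.symm

lemma sq_le_exp_add (y : ℝ) : y ^ 2 + 2 ≤ Real.exp y + Real.exp (-y) := by
  have h := sum_le_hasSum (Finset.range 2)
    (fun i _ => by
      have : 0 ≤ y ^ (2 * i) := by rw [pow_mul]; positivity
      positivity) (Real.hasSum_cosh y)
  rw [Real.cosh_eq] at h
  simp only [Finset.sum_range_succ, Finset.sum_range_zero] at h
  norm_num at h
  linarith

lemma four_le_exp_add (y : ℝ) : y ^ 4 / 12 ≤ Real.exp y + Real.exp (-y) := by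
  have h := sum_le_hasSum (Finset.range 3)
    (fun i _ => by
      have : 0 ≤ y ^ (2 * i) := by rw [pow_mul]; positivity
      positivity) (Real.hasSum_cosh y)
  rw [Real.cosh_eq] at h
  simp only [Finset.sum_range_succ, Finset.sum_range_zero, Nat.factorial] at h
  norm_num at h
  nlinarith [sq_nonneg y]

end M

section Mom
variable [NeZero n] (G : Gr ι E) {k l m : Fin n} {F0 : Set ι}

lemma M.continuous_exp_XI (k l : Fin n) (f : ι → ℝ) (t : ℝ) :
    Continuous fun s : Cf ι n => Real.exp (t * XI G k l f s) :=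
  Real.continuous_exp.comp (continuous_const.mul (continuous_XI G k l f))

theorem E_exp_XI (hb : ∀ e, 0 ≤ G.b e) (h : k ≠ l) {f : ι → ℝ} (hf : ∀ v ∈ F0, f v = 0)
    (t : ℝ) (τ : Cf ι n) :
    P G F0 (fun s => Real.exp (t * XI G k l f s)) τ ≤ Real.exp (t ^ 2 * G.En f / 2) := by
  have hc2 : Continuous fun s : Cf ι n => Real.exp (G.I (Flow h f t s) - G.I s) :=
    Real.continuous_exp.comp (((continuous_I G).comp (M.continuous_Flow_M h f t)).sub
      (continuous_I G))
  have h1 : P G F0 (fun s => Real.exp (t * XI G k l f s)) τ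
      ≤ P G F0 (fun s => Real.exp (t ^ 2 * G.En f / 2)
        * Real.exp (G.I (Flow h f t s) - G.I s)) τ := by
    refine P_mono G (M.continuous_exp_XI G k l f t) (c_smul _ hc2) (fun s => ?_) τ
    show Real.exp (t * XI G k l f s)
      ≤ Real.exp (t ^ 2 * G.En f / 2) * Real.exp (G.I (Flow h f t s) - G.I s)
    rw [← Real.exp_add]
    apply Real.exp_le_exp.2
    have := MomE.I_flow_ge hb h f t s
    linarith
  rw [P_const_mul, M.expI_flow G h hf, mul_one] at h1
  exact h1

lemma M.E_exp_XI' (hb : ∀ e, 0 ≤ G.b e) (h : k ≠ l) {f : ι → ℝ} (hf : ∀ v ∈ F0, f v = 0)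
    (t : ℝ) (τ : Cf ι n) :
    P G F0 (fun s => Real.exp (t * XI G k l f s) + Real.exp (-(t * XI G k l f s))) τ
      ≤ 2 * Real.exp (t ^ 2 * G.En f / 2) := by
  have h1 := E_exp_XI G hb h hf t τ
  have h2 := E_exp_XI G hb h hf (-t) τ
  have h3 : (fun s : Cf ι n => Real.exp (-t * XI G k l f s))
      = fun s => Real.exp (-(t * XI G k l f s)) := by
    funext s; rw [neg_mul]
  rw [h3, neg_sq] at h2
  have hc2 : Continuous fun s : Cf ι n => Real.exp (-(t * XI G k l f s)) := by
    rw [← h3]; exact M.continuous_exp_XI G k l f (-t)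
  rw [P_add G (M.continuous_exp_XI G k l f t) hc2]
  linarith

lemma M.En_nonneg {G : Gr ι E} (hb : ∀ e, 0 ≤ G.b e) (f : ι → ℝ) : 0 ≤ G.En f :=
  Finset.sum_nonneg fun e _ => mul_nonneg (hb e) (sq_nonneg _)

theorem E_sq_XI (hb : ∀ e, 0 ≤ G.b e) (h : k ≠ l) {f : ι → ℝ} (hf : ∀ v ∈ F0, f v = 0)
    (τ : Cf ι n) : P G F0 (fun s => XI G k l f s ^ 2) τ ≤ G.En f := by
  set e := G.En f with he
  have he0 : 0 ≤ e := M.En_nonneg hb f
  set V := P G F0 (fun s => XI G k l f s ^ 2) τ with hV
  have hX := continuous_XI G k l (n := n) f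
  -- for all `t > 0`: `V ≤ e * exp (t ^ 2 * e / 2)`
  have key : ∀ t : ℝ, 0 < t → V ≤ e * Real.exp (t ^ 2 * e / 2) := by
    intro t ht
    have h1 := M.E_exp_XI' G hb h hf t τ
    have hcc : Continuous fun s : Cf ι n =>
        Real.exp (t * XI G k l f s) + Real.exp (-(t * XI G k l f s)) :=
      (M.continuous_exp_XI G k l f t).add
        (Real.continuous_exp.comp (continuous_const.mul hX).neg)
    have hc4 : Continuous fun s : Cf ι n => t ^ 2 * XI G k l f s ^ 2 := c_smul _ (c_sq hX)
    have h2 : P G F0 (fun s => t ^ 2 * XI G k l f s ^ 2 + 2) τ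
        ≤ P G F0 (fun s => Real.exp (t * XI G k l f s) + Real.exp (-(t * XI G k l f s))) τ := by
      refine P_mono G (c_add hc4 continuous_const) hcc (fun s => ?_) τ
      have := M.sq_le_exp_add (t * XI G k l f s)
      rw [mul_pow] at this
      exact this
    rw [P_add G hc4 continuous_const, P_const_mul, P_const] at h2
    have h3 : t ^ 2 * V ≤ 2 * (Real.exp (t ^ 2 * e / 2) - 1) := by
      have := h2.trans h1
      linarith
    -- `exp x - 1 ≤ x exp x`
    have h4 : Real.exp (t ^ 2 * e / 2) - 1 ≤ (t ^ 2 * e / 2) * Real.exp (t ^ 2 * e / 2) := by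
      have h5 := Real.add_one_le_exp (-(t ^ 2 * e / 2))
      have h6 : Real.exp (-(t ^ 2 * e / 2)) * Real.exp (t ^ 2 * e / 2) = 1 := by
        rw [← Real.exp_add]; simp
      have h7 := Real.exp_pos (t ^ 2 * e / 2)
      nlinarith [mul_le_mul_of_nonneg_right h5 h7.le]
    have h5 : t ^ 2 * V ≤ t ^ 2 * (e * Real.exp (t ^ 2 * e / 2)) := by nlinarith
    exact le_of_mul_le_mul_left h5 (by positivity)
  have hlim : Filter.Tendsto (fun t : ℝ => e * Real.exp (t ^ 2 * e / 2))
      (nhdsWithin 0 (Set.Ioi 0)) (nhds e) := by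
    have hcont : Continuous fun t : ℝ => e * Real.exp (t ^ 2 * e / 2) := by fun_prop
    have := hcont.tendsto 0
    simp only [ne_eq, OfNat.ofNat_ne_zero, not_false_eq_true, zero_pow, zero_mul, zero_div,
      Real.exp_zero, mul_one] at this
    exact this.mono_left nhdsWithin_le_nhds
  refine ge_of_tendsto hlim ?_
  filter_upwards [self_mem_nhdsWithin] with t ht
  exact key t ht

theorem E_four_XI (hb : ∀ e, 0 ≤ G.b e) (h : k ≠ l) {f : ι → ℝ} (hf : ∀ v ∈ F0, f v = 0)
    (τ : Cf ι n) : P G F0 (fun s => XI G k l f s ^ 4) τ ≤ 40 * G.En f ^ 2 := by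
  set e := G.En f with he
  have he0 : 0 ≤ e := M.En_nonneg hb f
  set V := P G F0 (fun s => XI G k l f s ^ 4) τ with hV
  have hX := continuous_XI G k l (n := n) f
  have key : ∀ t : ℝ, 0 < t → t ^ 4 * V ≤ 24 * Real.exp (t ^ 2 * e / 2) := by
    intro t ht
    have h1 := M.E_exp_XI' G hb h hf t τ
    have hcc : Continuous fun s : Cf ι n =>
        Real.exp (t * XI G k l f s) + Real.exp (-(t * XI G k l f s)) :=
      (M.continuous_exp_XI G k l f t).add
        (Real.continuous_exp.comp (continuous_const.mul hX).neg)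
    have hc4 : Continuous fun s : Cf ι n => t ^ 4 / 12 * XI G k l f s ^ 4 :=
      continuous_const.mul (hX.pow 4)
    have h2 : P G F0 (fun s => t ^ 4 / 12 * XI G k l f s ^ 4) τ
        ≤ P G F0 (fun s => Real.exp (t * XI G k l f s) + Real.exp (-(t * XI G k l f s))) τ := by
      refine P_mono G hc4 hcc (fun s => ?_) τ
      have := M.four_le_exp_add (t * XI G k l f s)
      rw [mul_pow] at this
      show t ^ 4 / 12 * XI G k l f s ^ 4
        ≤ Real.exp (t * XI G k l f s) + Real.exp (-(t * XI G k l f s))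
      linarith
    rw [P_const_mul] at h2
    have := h2.trans h1
    linarith
  rcases he0.eq_or_lt with h0 | h0
  · -- `e = 0`
    rw [← h0] at key ⊢
    have h1 : ∀ t : ℝ, 0 < t → t ^ 4 * V ≤ 24 := by
      intro t ht
      have := key t ht
      simpa using this
    by_contra hcon
    push Not at hcon
    have hVpos : 0 < V := by simpa using hcon
    have h2 := h1 (1 + 24 / V) (by positivity)
    have h3 : (1 + 24 / V) ≤ (1 + 24 / V) ^ 4 := by
      have : (1 : ℝ) ≤ 1 + 24 / V := by
        have : 0 ≤ 24 / V := by positivity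
        linarith
      exact le_self_pow₀ this (by norm_num)
    have h4 : (1 + 24 / V) * V ≤ 24 := (mul_le_mul_of_nonneg_right h3 hVpos.le).trans h2
    have h5 : (1 + 24 / V) * V = V + 24 := by field_simp
    linarith
  · have h1 := key (Real.sqrt (1 / e)) (Real.sqrt_pos.2 (by positivity))
    have h2 : Real.sqrt (1 / e) ^ 2 = 1 / e := Real.sq_sqrt (by positivity)
    have h3 : Real.sqrt (1 / e) ^ 4 = 1 / e ^ 2 := by
      have : Real.sqrt (1 / e) ^ 4 = (Real.sqrt (1 / e) ^ 2) ^ 2 := by ring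
      rw [this, h2]; field_simp
    rw [h2, h3] at h1
    have h4 : 1 / e * e / 2 = 1 / 2 := by field_simp
    rw [h4] at h1
    have h5 : Real.exp (1 / 2) ≤ 5 / 3 := by
      have h6 : Real.exp (1 / 2) ^ 2 = Real.exp 1 := by
        rw [← Real.exp_nat_mul]; norm_num
      have h7 := Real.exp_one_lt_d9
      have h8 := Real.exp_pos (1 / 2)
      nlinarith
    have h6 : V = e ^ 2 * (1 / e ^ 2 * V) := by field_simp
    rw [h6]
    have h7 : 1 / e ^ 2 * V ≤ 40 := by linarith
    nlinarith [mul_le_mul_of_nonneg_left h7 (sq_nonneg e)]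

end Mom

end Crest.Agent.R167
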