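import Crest.Agent.R167.Iface
import Crest.Agent.R167.PCalc
import Crest.Agent.R167.Sph
import Crest.Agent.R167.MomM1

set_option autoImplicit false
open MeasureTheory Crest.ProbabilityR.SpinModel

/-!
# Row 167, NODE STEP, (S1)-(S5): bilinear facts

`BB G F0 S k l g h τ = E[P_S X_g I * P_S X_h I]`.
-/

namespace Crest.Agent.R167

set_option linter.unusedSectionVars false

variable {ι E : Type} [Fintype ι] [Fintype E] {n : ℕ}

/-! ### linearity of `XI` in the speed -/

section XI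

variable (G : Gr ι E) (k l : Fin n)

theorem XI_add (f g : ι → ℝ) (s : Cf ι n) :
    XI G k l (fun v => f v + g v) s = XI G k l f s + XI G k l g s := by
  unfold XI
  rw [← Finset.sum_add_distrib]
  exact Finset.sum_congr rfl fun e _ => by ring

theorem XI_sub (f g : ι → ℝ) (s : Cf ι n) :
    XI G k l (fun v => f v - g v) s = XI G k l f s - XI G k l g s := by
  unfold XI
  rw [← Finset.sum_sub_distrib]
  exact Finset.sum_congr rfl fun e _ => by ring

theorem XI_const_mul (c : ℝ) (f : ι → ℝ) (s : Cf ι n) :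
    XI G k l (fun v => c * f v) s = c * XI G k l f s := by
  unfold XI
  rw [Finset.mul_sum]
  exact Finset.sum_congr rfl fun e _ => by ring

theorem XI_sum {κ : Type} (T : Finset κ) (f : κ → ι → ℝ) (s : Cf ι n) :
    XI G k l (fun v => ∑ z ∈ T, f z v) s = ∑ z ∈ T, XI G k l (f z) s := by
  unfold XI
  rw [Finset.sum_comm]
  refine Finset.sum_congr rfl fun e _ => ?_
  rw [← Finset.sum_sub_distrib, Finset.mul_sum, Finset.sum_mul]



end XI

/-! ### locality of `XI` -/

section DepXI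

variable (G : Gr ι E) (k l : Fin n) {S Q Qo : Set ι}


lemma dep_XI (hcl : ∀ e, (G.src e ∈ Qo ∨ G.tgt e ∈ Qo) → G.src e ∈ Q ∧ G.tgt e ∈ Q)
    {ψ : ι → ℝ} (hψ : ∀ v, v ∉ Qo → ψ v = 0) : Dep Q (XI G k l ψ : Cf ι n → ℝ) := by
  intro s t hst
  unfold XI
  refine Finset.sum_congr rfl fun e _ => ?_
  by_cases he : G.src e ∈ Qo ∨ G.tgt e ∈ Qo
  · obtain ⟨h1, h2⟩ := hcl e he
    rw [hst _ h1, hst _ h2]
  · push Not at he
    rw [hψ _ he.1, hψ _ he.2]
    simp

/-- if the speed is constant on `Q` then `XI` does not see the spins in `Qo`. -/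
lemma dep_XI_compl (hcl : ∀ e, (G.src e ∈ Qo ∨ G.tgt e ∈ Qo) → G.src e ∈ Q ∧ G.tgt e ∈ Q)
    {f : ι → ℝ} {c : ℝ} (hf : ∀ v ∈ Q, f v = c) : Dep Qoᶜ (XI G k l f : Cf ι n → ℝ) := by
  intro s t hst
  unfold XI
  refine Finset.sum_congr rfl fun e _ => ?_
  by_cases he : G.src e ∈ Qo ∨ G.tgt e ∈ Qo
  · obtain ⟨h1, h2⟩ := hcl e he
    rw [hf _ h1, hf _ h2]
    simp
  · push Not at he
    rw [hst _ he.1, hst _ he.2]

/-- decomposition needed by `gain`. -/
theorem XI_decomp (hcl : ∀ e, (G.src e ∈ Qo ∨ G.tgt e ∈ Qo) → G.src e ∈ Q ∧ G.tgt e ∈ Q)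
    (f : ι → ℝ) : ∃ F1 F2 : Cf ι n → ℝ, Continuous F1 ∧ Continuous F2 ∧ Dep Q F1 ∧
      Dep Qoᶜ F2 ∧ ∀ s, XI G k l f s = F1 s + F2 s := by
  classical
  let c : E → ℝ := fun e => G.b e * (f (G.tgt e) - f (G.src e))
  let T : Finset E := Finset.univ.filter fun e => G.src e ∈ Qo ∨ G.tgt e ∈ Qo
  refine ⟨fun s => ∑ e ∈ T, c e * cur k l (s (G.src e)) (s (G.tgt e)),
    fun s => ∑ e ∈ Tᶜ, c e * cur k l (s (G.src e)) (s (G.tgt e)),
    continuous_finsetSum _ fun e _ => (continuous_cur _ _ _ _).const_mul _,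
    continuous_finsetSum _ fun e _ => (continuous_cur _ _ _ _).const_mul _, ?_, ?_, ?_⟩
  · intro s t hst
    refine Finset.sum_congr rfl fun e he => ?_
    obtain ⟨h1, h2⟩ := hcl e (Finset.mem_filter.1 he).2
    rw [hst _ h1, hst _ h2]
  · intro s t hst
    refine Finset.sum_congr rfl fun e he => ?_
    have he' : ¬ (G.src e ∈ Qo ∨ G.tgt e ∈ Qo) := fun h =>
      (Finset.mem_compl.1 he) (Finset.mem_filter.2 ⟨Finset.mem_univ _, h⟩)
    push Not at he'
    rw [hst _ he'.1, hst _ he'.2]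
  · intro s
    show XI G k l f s = _
    unfold XI
    exact (Finset.sum_add_sum_compl T _).symm

end DepXI

/-! ### rotation invariance -/

section Rot

variable {k l : Fin n}

lemma bil_rotV_apply_left (k l : Fin n) (θ : ℝ) (x : EuclideanSpace ℝ (Fin n)) :
    rotV k l θ x k = Real.cos θ * x k - Real.sin θ * x l := by simp [rotV]

lemma bil_rotV_apply_right (h : k ≠ l) (θ : ℝ) (x : EuclideanSpace ℝ (Fin n)) :
    rotV k l θ x l = Real.sin θ * x k + Real.cos θ * x l := by simp [rotV, Ne.symm h]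

lemma bil_rotV_add_vec (k l : Fin n) (θ : ℝ) (x y : EuclideanSpace ℝ (Fin n)) :
    rotV k l θ (x + y) = rotV k l θ x + rotV k l θ y := by
  ext i
  by_cases hk : i = k
  · subst hk; simp [rotV]; ring
  · by_cases hl : i = l
    · subst hl; simp [rotV, hk]; ring
    · simp [rotV, hk, hl]

lemma bil_inner_rotV_rotV (h : k ≠ l) (θ : ℝ) (x y : EuclideanSpace ℝ (Fin n)) :
    inner ℝ (rotV k l θ x) (rotV k l θ y) = (inner ℝ x y : ℝ) := by
  rw [real_inner_eq_norm_add_mul_self_sub_norm_mul_self_sub_norm_mul_self_div_two,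
    real_inner_eq_norm_add_mul_self_sub_norm_mul_self_sub_norm_mul_self_div_two,
    ← bil_rotV_add_vec, norm_rotV h, norm_rotV h, norm_rotV h]

lemma bil_cur_rotV_rotV (h : k ≠ l) (θ : ℝ) (x y : EuclideanSpace ℝ (Fin n)) :
    cur k l (rotV k l θ x) (rotV k l θ y) = cur k l x y := by
  unfold cur
  rw [bil_rotV_apply_left, bil_rotV_apply_left, bil_rotV_apply_right h, bil_rotV_apply_right h]
  linear_combination (x l * y k - x k * y l) * (Real.sin_sq_add_cos_sq θ)

/-- the simultaneous rotation of all spins. -/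
lemma Flow_one_apply (h : k ≠ l) (t : ℝ) (s : Cf ι n) (v : ι) :
    Flow h (fun _ : ι => (1 : ℝ)) t s v = rotS h t (s v) := by
  unfold Flow; simp

lemma bil_I_inv (G : Gr ι E) (h : k ≠ l) (t : ℝ) (s : Cf ι n) :
    G.I (Flow h (fun _ => 1) t s) = G.I s := by
  unfold Gr.I
  refine Finset.sum_congr rfl fun e _ => ?_
  rw [Flow_one_apply, Flow_one_apply]
  congr 1
  exact bil_inner_rotV_rotV h t _ _

theorem XI_inv (G : Gr ι E) (h : k ≠ l) (ψ : ι → ℝ) (t : ℝ) (s : Cf ι n) :
    XI G k l ψ (Flow h (fun _ => 1) t s) = XI G k l ψ s := by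
  unfold XI
  refine Finset.sum_congr rfl fun e _ => ?_
  rw [Flow_one_apply, Flow_one_apply]
  congr 1
  exact bil_cur_rotV_rotV h t _ _

lemma bil_glue_Flow (h : k ≠ l) (f : ι → ℝ) (t : ℝ) (S : Set ι) (s s' : Cf ι n) :
    glue S (Flow h f t s) (Flow h f t s') = Flow h f t (glue S s s') := by
  funext v
  by_cases hv : v ∈ S
  · rw [glue_mem hv]; unfold Flow; rw [glue_mem hv]
  · rw [glue_not_mem hv]; unfold Flow; rw [glue_not_mem hv]

/-- (S3) -/
theorem P_inv [NeZero n] (G : Gr ι E) (h : k ≠ l) (S : Set ι) {F : Cf ι n → ℝ}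
    (hF : Continuous F) (hinv : ∀ t s, F (Flow h (fun _ => 1) t s) = F s) (t : ℝ) (s : Cf ι n) :
    P G S F (Flow h (fun _ => 1) t s) = P G S F s := by
  have mp := mp_Flow (ι := ι) (n := n) h (fun _ => 1) t
  have key : ∀ H : Cf ι n → ℝ, Continuous H → (∀ s, H (Flow h (fun _ => 1) t s) = H s) →
      ∫ s', H (glue S (Flow h (fun _ => 1) t s) s') ∂(nu ι n) =
        ∫ s', H (glue S s s') ∂(nu ι n) := by
    intro H hH hHi
    have hc : Continuous fun s' => H (glue S (Flow h (fun _ => 1) t s) s') :=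
      hH.comp (continuous_glue_right S _)
    have h1 := integral_map (μ := nu ι n) mp.measurable.aemeasurable
      (f := fun s' => H (glue S (Flow h (fun _ => 1) t s) s')) (by
        rw [mp.map_eq]; exact hc.aestronglyMeasurable)
    rw [mp.map_eq] at h1
    rw [h1]
    refine integral_congr_ae (Filter.Eventually.of_forall fun s' => ?_)
    show H (glue S (Flow h (fun _ => 1) t s) (Flow h (fun _ => 1) t s')) = _
    rw [bil_glue_Flow, hHi]
  unfold P
  rw [key (fun s => F s * Real.exp (G.I s)) (hF.mul (continuous_w G)) fun s => by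
      show F _ * Real.exp (G.I _) = _
      rw [hinv, bil_I_inv],
    key (fun s => Real.exp (G.I s)) (continuous_w G) fun s => by
      show Real.exp (G.I _) = _
      rw [bil_I_inv]]

end Rot

/-! ### the bilinear form -/

/-- `BB(g,h) = E[P_S X_g I * P_S X_h I]`. -/
noncomputable def BB (G : Gr ι E) (F0 S : Set ι) (k l : Fin n) (g h : ι → ℝ) (τ : Cf ι n) : ℝ :=
  P G F0 (fun s => P G S (XI G k l g) s * P G S (XI G k l h) s) τ

section BBsec

variable [NeZero n] (G : Gr ι E) (F0 S : Set ι) (k l : Fin n) (τ : Cf ι n)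

lemma continuous_PXI (S : Set ι) (f : ι → ℝ) : Continuous (P G S (XI G k l f) : Cf ι n → ℝ) :=
  continuous_P G (continuous_XI G k l f)

theorem BB_comm (g h : ι → ℝ) : BB G F0 S k l g h τ = BB G F0 S k l h g τ := by
  unfold BB
  congr 1
  funext s
  ring

lemma PXI_add (f g : ι → ℝ) (s : Cf ι n) :
    P G S (XI G k l (fun v => f v + g v)) s = P G S (XI G k l f) s + P G S (XI G k l g) s := by
  rw [← P_add G (continuous_XI G k l f) (continuous_XI G k l g) s]
  congr 1
  funext s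
  exact XI_add G k l f g s

lemma PXI_sub (f g : ι → ℝ) (s : Cf ι n) :
    P G S (XI G k l (fun v => f v - g v)) s = P G S (XI G k l f) s - P G S (XI G k l g) s := by
  rw [← P_sub G (continuous_XI G k l f) (continuous_XI G k l g) s]
  congr 1
  funext s
  exact XI_sub G k l f g s

lemma PXI_const_mul (c : ℝ) (f : ι → ℝ) (s : Cf ι n) :
    P G S (XI G k l (fun v => c * f v)) s = c * P G S (XI G k l f) s := by
  rw [← P_const_mul G c (XI G k l f) s]
  congr 1
  funext s
  exact XI_const_mul G k l c f s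

lemma PXI_sum {κ : Type} (T : Finset κ) (f : κ → ι → ℝ) (s : Cf ι n) :
    P G S (XI G k l (fun v => ∑ z ∈ T, f z v)) s = ∑ z ∈ T, P G S (XI G k l (f z)) s := by
  rw [← P_sum G T (fun z _ => continuous_XI G k l (f z)) s]
  congr 1
  funext s
  exact XI_sum G k l T f s

theorem BB_add_left (g g' h : ι → ℝ) :
    BB G F0 S k l (fun v => g v + g' v) h τ = BB G F0 S k l g h τ + BB G F0 S k l g' h τ := by
  unfold BB
  rw [← P_add G (c_mul (continuous_PXI G k l S g) (continuous_PXI G k l S h))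
    (c_mul (continuous_PXI G k l S g') (continuous_PXI G k l S h)) τ]
  congr 1
  funext s
  rw [PXI_add]
  ring

theorem BB_sub_left (g g' h : ι → ℝ) :
    BB G F0 S k l (fun v => g v - g' v) h τ = BB G F0 S k l g h τ - BB G F0 S k l g' h τ := by
  unfold BB
  rw [← P_sub G (c_mul (continuous_PXI G k l S g) (continuous_PXI G k l S h))
    (c_mul (continuous_PXI G k l S g') (continuous_PXI G k l S h)) τ]
  congr 1
  funext s
  rw [PXI_sub]
  ring

theorem BB_const_mul_left (c : ℝ) (g h : ι → ℝ) :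
    BB G F0 S k l (fun v => c * g v) h τ = c * BB G F0 S k l g h τ := by
  unfold BB
  rw [← P_const_mul G c _ τ]
  congr 1
  funext s
  rw [PXI_const_mul]
  ring

theorem BB_sum_left {κ : Type} (T : Finset κ) (g : κ → ι → ℝ) (h : ι → ℝ) :
    BB G F0 S k l (fun v => ∑ z ∈ T, g z v) h τ = ∑ z ∈ T, BB G F0 S k l (g z) h τ := by
  unfold BB
  rw [← P_sum G T (fun z _ => c_mul (continuous_PXI G k l S (g z)) (continuous_PXI G k l S h)) τ]
  congr 1
  funext s
  rw [PXI_sum, Finset.sum_mul]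

theorem BB_add_right (g h h' : ι → ℝ) :
    BB G F0 S k l g (fun v => h v + h' v) τ = BB G F0 S k l g h τ + BB G F0 S k l g h' τ := by
  rw [BB_comm, BB_add_left, BB_comm _ _ _ _ _ _ h, BB_comm _ _ _ _ _ _ h']

theorem BB_sub_right (g h h' : ι → ℝ) :
    BB G F0 S k l g (fun v => h v - h' v) τ = BB G F0 S k l g h τ - BB G F0 S k l g h' τ := by
  rw [BB_comm, BB_sub_left, BB_comm _ _ _ _ _ _ h, BB_comm _ _ _ _ _ _ h']

theorem BB_const_mul_right (c : ℝ) (g h : ι → ℝ) :
    BB G F0 S k l g (fun v => c * h v) τ = c * BB G F0 S k l g h τ := by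
  rw [BB_comm, BB_const_mul_left, BB_comm]


theorem BB_self_eq_KK (f : ι → ℝ) : BB G F0 S k l f f τ = KK G F0 S k l f τ := by
  unfold BB KK
  congr 1
  funext s
  ring



variable {F0 S k l}



theorem KK_le_En (hb : ∀ e, 0 ≤ G.b e) (h : k ≠ l) (hS : F0 ⊆ S) {f : ι → ℝ}
    (hf : ∀ v ∈ F0, f v = 0) : KK G F0 S k l f τ ≤ G.En f := by
  unfold KK
  exact (P_P_sq_le G hS (continuous_XI G k l f) τ).trans (E_sq_XI G hb h hf τ)

/-- (S4) -/
theorem abs_BB_le (hb : ∀ e, 0 ≤ G.b e) (hkl : k ≠ l) (hS : F0 ⊆ S) {g h : ι → ℝ}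
    (hg : ∀ v ∈ F0, g v = 0) (hh : ∀ v ∈ F0, h v = 0) :
    |BB G F0 S k l g h τ| ≤ Real.sqrt (G.En g) * Real.sqrt (G.En h) := by
  unfold BB
  refine (P_abs_mul_le G (continuous_PXI G k l S g) (continuous_PXI G k l S h) τ).trans ?_
  exact mul_le_mul (Real.sqrt_le_sqrt (KK_le_En G τ hb hkl hS hg))
    (Real.sqrt_le_sqrt (KK_le_En G τ hb hkl hS hh)) (Real.sqrt_nonneg _) (Real.sqrt_nonneg _)

end BBsec

end Crest.Agent.R167
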