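import Crest.Agent.R167.PCalc2
import Crest.Agent.R167.Sph
import Crest.Agent.R167.Iface
import Mathlib
import Crest.Agent.R167.Defs
import Crest.Agent.R167.PCalc
import Crest.Agent.R167.Ward
import Crest.Agent.R167.MomM1

-- ▼ part R167/PartC
section

set_option autoImplicit false
open MeasureTheory Crest.ProbabilityR.SpinModel

/-! # Row 167, NODE C: iteration of Theorem B -/

namespace Crest.Agent.R167

namespace PtC

section
variable {ι E : Type} [Fintype ι] [Fintype E] {n : ℕ}

lemma P_neg (G : Gr ι E) (A : Set ι) (F : Cf ι n → ℝ) (s : Cf ι n) :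
    P G A (fun s => -F s) s = -P G A F s := by
  unfold P
  rw [← neg_div, ← integral_neg]
  congr 2
  funext s'
  ring

/-- `I` is invariant under a global rotation. -/
lemma I_rot {k l : Fin n} (h : k ≠ l) (θ : ℝ) (G : Gr ι E) (s : Cf ι n) :
    G.I (fun v => rotS h θ (s v)) = G.I s := by
  unfold Gr.I
  refine Finset.sum_congr rfl fun e _ => ?_
  congr 1
  change inner ℝ (rotV k l θ (s (G.src e) : EuclideanSpace ℝ (Fin n)))
    (rotV k l θ (s (G.tgt e) : EuclideanSpace ℝ (Fin n)))
      = inner ℝ (s (G.src e) : EuclideanSpace ℝ (Fin n)) (s (G.tgt e) : EuclideanSpace ℝ (Fin n))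
  generalize (s (G.src e) : EuclideanSpace ℝ (Fin n)) = x
  generalize (s (G.tgt e) : EuclideanSpace ℝ (Fin n)) = y
  have hsub : rotV k l θ x + rotV k l θ y = rotV k l θ (x + y) := by
    ext i
    simp only [rotV, PiLp.add_apply]
    split_ifs <;> ring
  have e1 := norm_add_sq_real (rotV k l θ x) (rotV k l θ y)
  have e2 := norm_add_sq_real x y
  rw [hsub, norm_rotV h, norm_rotV h, norm_rotV h] at e1
  linarith

lemma glue_rot {k l : Fin n} (h : k ≠ l) (θ : ℝ) (A : Set ι) (s s' : Cf ι n) :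
    glue A (fun v => rotS h θ (s v)) (fun v => rotS h θ (s' v))
      = fun v => rotS h θ (glue A s s' v) := by
  funext v
  unfold glue
  split_ifs <;> rfl

lemma continuous_glue (A : Set ι) (s : Cf ι n) : Continuous fun s' : Cf ι n => glue A s s' := by
  unfold glue
  refine continuous_pi fun v => ?_
  split_ifs
  · exact continuous_const
  · exact continuous_apply v

/-- covariance of `P` under a global rotation. -/
lemma P_rot [NeZero n] {k l : Fin n} (h : k ≠ l) (θ : ℝ) (G : Gr ι E) (A : Set ι)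
    {F : Cf ι n → ℝ} (hF : Continuous F) (s : Cf ι n) :
    P G A F (fun v => rotS h θ (s v)) = P G A (fun s => F (fun v => rotS h θ (s v))) s := by
  have hρ : (fun s : Cf ι n => fun v => rotS h θ (s v)) = Flow h (fun _ => 1) θ := by
    funext s v
    simp [Flow]
  have hmp : MeasurePreserving (fun s : Cf ι n => fun v => rotS h θ (s v)) (nu ι n) (nu ι n) := by
    rw [hρ]; exact mp_Flow h _ θ
  have key : ∀ H : Cf ι n → ℝ, Continuous H →
      ∫ s', H (glue A (fun v => rotS h θ (s v)) s') ∂(nu ι n)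
        = ∫ s', H (fun v => rotS h θ (glue A s s' v)) ∂(nu ι n) := by
    intro H hH
    have hc : Continuous fun s' : Cf ι n => H (glue A (fun v => rotS h θ (s v)) s') :=
      hH.comp (continuous_glue A _)
    have h1 := integral_map (μ := nu ι n) (φ := fun s : Cf ι n => fun v => rotS h θ (s v))
      (f := fun s' : Cf ι n => H (glue A (fun v => rotS h θ (s v)) s'))
      hmp.measurable.aemeasurable hc.aestronglyMeasurable
    rw [hmp.map_eq] at h1
    rw [h1]
    simp only [glue_rot]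
  have hI : Continuous (G.I : Cf ι n → ℝ) := continuous_I G
  unfold P
  rw [key (fun s => F s * Real.exp (G.I s)) (hF.mul (Real.continuous_exp.comp hI)),
    key (fun s => Real.exp (G.I s)) (Real.continuous_exp.comp hI)]
  simp only [I_rot]

end

lemma bx_mono (V : Finset (ℤ × ℤ)) (x : ℤ × ℤ) {R R' : ℕ} (h : R ≤ R') :
    bx V x R ⊆ bx V x R' := by
  intro v hv
  obtain ⟨h1, h2⟩ := hv
  have : (R : ℤ) ≤ R' := by exact_mod_cast h
  exact ⟨h1.trans this, h2.trans this⟩

/-- both ends of an edge with an end in the box are in the next box. -/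
lemma latG_edge (V : Finset (ℤ × ℤ)) (b : ℤ × ℤ → Fin 2 → ℝ) (x : ℤ × ℤ) (R : ℕ)
    (e : V × Fin 2) (he : (latG V b).src e ∈ bx V x R ∨ (latG V b).tgt e ∈ bx V x R) :
    (latG V b).src e ∈ bx V x (R + 1) ∧ (latG V b).tgt e ∈ bx V x (R + 1) := by
  obtain ⟨u, i⟩ := e
  by_cases hu : (u : ℤ × ℤ) + latticeDir i ∈ V
  · have h2 : (latG V b).tgt (u, i) = ⟨(u : ℤ × ℤ) + latticeDir i, hu⟩ := by simp [latG, hu]
    have h1 : (latG V b).src (u, i) = u := rfl
    rw [h1, h2] at he ⊢
    have hd : |(latticeDir i).1| ≤ 1 ∧ |(latticeDir i).2| ≤ 1 := by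
      unfold latticeDir
      split_ifs <;> simp
    obtain ⟨hd1, hd2⟩ := hd
    rw [abs_le] at hd1 hd2
    simp only [bx, Set.mem_ofPred_eq, Prod.fst_add, Prod.snd_add, abs_le] at he ⊢
    push_cast
    rcases he with he | he <;> refine ⟨⟨⟨?_, ?_⟩, ⟨?_, ?_⟩⟩, ⟨⟨?_, ?_⟩, ⟨?_, ?_⟩⟩⟩ <;> omega
  · have h2 : (latG V b).tgt (u, i) = u := by simp [latG, hu]
    have h1 : (latG V b).src (u, i) = u := rfl
    rw [h1, h2] at he ⊢
    have h3 : u ∈ bx V x (R + 1) := bx_mono V x (Nat.le_succ R) (he.elim id id)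
    exact ⟨h3, h3⟩

/-- the sequence of radii. -/
def rad (R0 : ℕ) : ℕ → ℕ
  | 0 => R0
  | j + 1 => 4 * (rad R0 j + 1)

lemma rad_ge (R0 j : ℕ) : R0 ≤ rad R0 j := by
  induction j with
  | zero => exact le_rfl
  | succ j ih => simp only [rad]; omega

lemma rad_le (R0 j : ℕ) : (rad R0 j : ℝ) + 1 ≤ (R0 + 2) * 4 ^ j := by
  have : (rad R0 j : ℝ) + 4 / 3 = (R0 + 4 / 3) * 4 ^ j := by
    induction j with
    | zero => simp [rad]
    | succ j ih =>
      simp only [rad]
      push_cast
      rw [pow_succ]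
      linarith
  have h4 : (1 : ℝ) ≤ 4 ^ j := one_le_pow₀ (by norm_num)
  nlinarith

end PtC

open PtC in
theorem partC : PartC := by
  intro hB n hn β ε hβ hε
  obtain ⟨R0, hR0⟩ := hB n hn β (1 / 10) hβ (by norm_num)
  have hn0 : NeZero n := ⟨by omega⟩
  -- the key induction
  have key : ∀ j : ℕ, ∀ (V : Finset (ℤ × ℤ)) (b : ℤ × ℤ → Fin 2 → ℝ),
      (∀ u i, 0 ≤ b u i ∧ b u i ≤ β) → ∀ (x : V) (k : Fin n) (s : Cf V n),
      |P (latG V b) (bx V x (rad R0 j))ᶜ
        (fun s => (s x : EuclideanSpace ℝ (Fin n)) k) s| ≤ (1 / 10) ^ j := by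
    intro j
    induction j with
    | zero =>
      intro V b hb x k s
      rw [pow_zero]
      refine P_abs_le _ (by fun_prop) (fun s => ?_) s
      have h1 : ‖(s x : EuclideanSpace ℝ (Fin n)) k‖ ≤ ‖(s x : EuclideanSpace ℝ (Fin n))‖ :=
        PiLp.norm_apply_le _ _
      have h2 : ‖(s x : EuclideanSpace ℝ (Fin n))‖ = 1 := by simp
      rw [h2] at h1
      exact h1
    | succ j ih =>
      intro V b hb x k s
      have hFc : Continuous (fun s : Cf V n => (s x : EuclideanSpace ℝ (Fin n)) k) := by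
        fun_prop
      set u : Cf V n → ℝ := P (latG V b) (bx V x (rad R0 j))ᶜ
        (fun s => (s x : EuclideanSpace ℝ (Fin n)) k) with hu
      obtain ⟨l, hkl⟩ : ∃ l : Fin n, k ≠ l := by
        have : Nontrivial (Fin n) := Fin.nontrivial_iff_two_le.mpr (by omega)
        obtain ⟨l, hl⟩ := exists_ne k
        exact ⟨l, hl.symm⟩
      have huc : Continuous u := continuous_P _ hFc
      have hud : Dep (bx V x (rad R0 j + 1)) u := by
        have hx : x ∈ bx V x (rad R0 j + 1) := by
          refine ⟨?_, ?_⟩ <;> simp <;> positivity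
        have h1 : Dep ((bx V x (rad R0 j))ᶜ ∩ bx V x (rad R0 j + 1)) u := by
          refine P_dep_of_closed _ _ _ (fun s t hst => ?_) (fun e he => ?_)
          · simp only [hst x hx]
          · refine latG_edge V b x _ e ?_
            rcases he with he | he
            · left; exact not_not.mp he.2
            · right; exact not_not.mp he.2
        exact fun s t hst => h1 s t fun v hv => hst v hv.2
      have hodd : ∀ s, u (fun v => rotS hkl Real.pi (s v)) = -u s := by
        intro s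
        rw [hu, P_rot hkl Real.pi _ _ hFc, ← P_neg]
        congr 1
        funext s
        simp [rotS, rotV]
      have h := hR0 (rad R0 j + 1) (by have := rad_ge R0 j; omega) V b hb x k l hkl u
        ((1 / 10) ^ j) huc hud hodd (fun s => ih V b hb x k s) s
      rw [hu, P_tower (latG V b) (Set.compl_subset_compl.mpr
        (bx_mono V x (by omega : rad R0 j ≤ 4 * (rad R0 j + 1)))) hFc] at h
      rw [pow_succ]
      simpa [rad, mul_comm] using h
  -- choose j
  obtain ⟨j, hj⟩ : ∃ j : ℕ, ((R0 : ℝ) + 2) * (4 / 10) ^ j ≤ ε := by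
    have h0 : Filter.Tendsto (fun j : ℕ => ((R0 : ℝ) + 2) * (4 / 10 : ℝ) ^ j) Filter.atTop
        (nhds (((R0 : ℝ) + 2) * 0)) :=
      (tendsto_pow_atTop_nhds_zero_of_lt_one (by norm_num) (by norm_num)).const_mul _
    rw [mul_zero] at h0
    exact ((h0.eventually (gt_mem_nhds hε)).exists).imp fun j hj => hj.le
  refine ⟨rad R0 j, fun V b hb x k s => ?_⟩
  have h1 := key j V b hb x k s
  have h2 := rad_le R0 j
  have h3 : (0 : ℝ) ≤ (rad R0 j : ℝ) + 1 := by positivity
  calc |P (latG V b) (bx V x (rad R0 j))ᶜ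
        (fun s => (s x : EuclideanSpace ℝ (Fin n)) k) s| * ((rad R0 j : ℝ) + 1)
      ≤ (1 / 10) ^ j * (((R0 : ℝ) + 2) * 4 ^ j) := by gcongr
    _ = ((R0 : ℝ) + 2) * (4 / 10) ^ j := by
        rw [div_pow, div_pow, one_pow]; ring
    _ ≤ ε := hj

end Crest.Agent.R167
private theorem rz_80d7be482a : type_of% @_root_.Crest.Agent.R167.PtC.rad.eq_def := @_root_.Crest.Agent.R167.PtC.rad.eq_def -- L119
private theorem rz_d06c949ffd : type_of% @_root_.Crest.Agent.R167.PtC.rad.eq_1 := @_root_.Crest.Agent.R167.PtC.rad.eq_1 -- L119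
end

-- ▼ part R167/Ising
section

/-! Row 167, Part D: Fortuin-Kasteleyn bound for finite ferromagnetic Ising systems. -/

set_option autoImplicit false

namespace Crest.Agent.R167.Ising

open Finset

/-- real value of a sign -/
def r (u : ℤˣ) : ℝ := ((u : ℤ) : ℝ)

lemma r_mul (u v : ℤˣ) : r (u * v) = r u * r v := by simp [r]

@[simp] lemma r_one : r 1 = 1 := by simp [r]
@[simp] lemma r_neg_one : r (-1) = -1 := by simp [r]
lemma r_neg (u : ℤˣ) : r (-u) = - r u := by simp [r]

lemma r_cases (u : ℤˣ) : r u = 1 ∨ r u = -1 := by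
  rcases Int.units_eq_one_or u with h | h <;> subst h <;> simp

lemma r_sq (u : ℤˣ) : r u * r u = 1 := by
  rcases r_cases u with h | h <;> rw [h] <;> norm_num

lemma abs_r (u : ℤˣ) : |r u| = 1 := by
  rcases r_cases u with h | h <;> rw [h] <;> simp

lemma r_mul_of_ne {u v : ℤˣ} (h : u ≠ v) : r u * r v = -1 := by
  rcases Int.units_eq_one_or u with hu | hu <;> rcases Int.units_eq_one_or v with hv | hv <;>
    subst hu <;> subst hv <;> simp_all

variable {V E : Type*} [Fintype V] [DecidableEq V] [Fintype E] [DecidableEq E]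

/-- flip the signs on a finite set -/
def flip (K : Finset V) : V → ℤˣ := fun v => if v ∈ K then -1 else 1

/-- Ising weight -/
noncomputable def W (s t : E → V) (J : E → ℝ) (ε : V → ℤˣ) : ℝ :=
  Real.exp (∑ e, J e * (r (ε (s e)) * r (ε (t e))))


/-- indicator that `ε` is constant along the edges of `ω` -/
def Ind (s t : E → V) (ω : Finset E) (ε : V → ℤˣ) : ℝ :=
  ∏ e ∈ ω, (if ε (s e) = ε (t e) then (1 : ℝ) else 0)

lemma Ind_nonneg (s t : E → V) (ω : Finset E) (ε : V → ℤˣ) : 0 ≤ Ind s t ω ε := by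
  unfold Ind
  exact Finset.prod_nonneg (fun e _ => by split_ifs <;> norm_num)

lemma W_expand (s t : E → V) (J : E → ℝ) (ε : V → ℤˣ) :
    W s t J ε = ∑ ω ∈ (univ : Finset E).powerset,
      ((∏ e ∈ ω, (Real.exp (J e) - Real.exp (-J e))) * ∏ e ∈ univ \ ω, Real.exp (-J e))
        * Ind s t ω ε := by
  unfold W
  rw [Real.exp_sum]
  have h1 : ∀ e : E, Real.exp (J e * (r (ε (s e)) * r (ε (t e)))) =
      (Real.exp (J e) - Real.exp (-J e)) * (if ε (s e) = ε (t e) then (1 : ℝ) else 0)
        + Real.exp (-J e) := by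
    intro e
    split_ifs with h
    · rw [h, r_sq]; ring_nf
    · rw [r_mul_of_ne h]; ring_nf
  simp_rw [h1]
  rw [Finset.prod_add]
  refine Finset.sum_congr rfl ?_
  intro ω _
  unfold Ind
  rw [Finset.prod_mul_distrib]
  ring

/-- telescoping -/
lemma telescope (G : (V → ℤˣ) → ℝ) (c : V → ℝ)
    (hG : ∀ (ε : V → ℤˣ) (u : V), |G ε - G (flip {u} * ε)| ≤ 2 * c u) (K : Finset V)
    (ε : V → ℤˣ) : |G ε - G (flip K * ε)| ≤ ∑ u ∈ K, 2 * c u := by
  induction K using Finset.induction_on with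
  | empty =>
    have : flip (∅ : Finset V) * ε = ε := by
      funext v; simp [flip]
    rw [this]; simp
  | insert a K ha ih =>
    have h2 : flip (insert a K) * ε = flip {a} * (flip K * ε) := by
      funext v
      simp only [flip, Pi.mul_apply, Finset.mem_insert, Finset.mem_singleton]
      by_cases hv : v = a
      · subst hv
        simp [ha]
      · simp [hv]
    rw [Finset.sum_insert ha, h2]
    calc |G ε - G (flip {a} * (flip K * ε))|
        = |(G (flip K * ε) - G (flip {a} * (flip K * ε))) + (G ε - G (flip K * ε))| := by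
          congr 1; ring
      _ ≤ |G (flip K * ε) - G (flip {a} * (flip K * ε))| + |G ε - G (flip K * ε)| :=
          abs_add_le _ _
      _ ≤ 2 * c a + ∑ u ∈ K, 2 * c u := add_le_add (hG _ _) ih

/-- the cluster of `y` -/
noncomputable def cluster (s t : E → V) (ω : Finset E) (y : V) : Finset V := by
  classical
  exact univ.filter (fun u => Relation.EqvGen (fun a b => ∃ e ∈ ω, a = s e ∧ b = t e) y u)

lemma mem_cluster (s t : E → V) (ω : Finset E) (y u : V) :
    u ∈ cluster s t ω y ↔ Relation.EqvGen (fun a b => ∃ e ∈ ω, a = s e ∧ b = t e) y u := by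
  classical
  unfold cluster
  simp

lemma self_mem_cluster (s t : E → V) (ω : Finset E) (y : V) : y ∈ cluster s t ω y := by
  rw [mem_cluster]; exact Relation.EqvGen.refl _

lemma edge_cluster (s t : E → V) (ω : Finset E) (y : V) (e : E) (he : e ∈ ω) :
    s e ∈ cluster s t ω y ↔ t e ∈ cluster s t ω y := by
  rw [mem_cluster, mem_cluster]
  constructor
  · intro h
    exact Relation.EqvGen.trans _ _ _ h (Relation.EqvGen.rel _ _ ⟨e, he, rfl, rfl⟩)
  · intro h
    exact Relation.EqvGen.trans _ _ _ h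
      (Relation.EqvGen.symm _ _ (Relation.EqvGen.rel _ _ ⟨e, he, rfl, rfl⟩))

lemma Ind_flip (s t : E → V) (ω : Finset E) (y : V) (ε : V → ℤˣ) :
    Ind s t ω (flip (cluster s t ω y) * ε) = Ind s t ω ε := by
  unfold Ind
  refine Finset.prod_congr rfl ?_
  intro e he
  have h := edge_cluster s t ω y e he
  by_cases h1 : s e ∈ cluster s t ω y
  · have h2 := h.mp h1
    simp [flip, h1, h2]
  · have h2 : t e ∉ cluster s t ω y := fun h3 => h1 (h.mpr h3)
    simp [flip, h1, h2]

lemma const_on_cluster (s t : E → V) (ω : Finset E) (y u : V) (ε : V → ℤˣ)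
    (hI : Ind s t ω ε ≠ 0) (hu : u ∈ cluster s t ω y) : ε y = ε u := by
  rw [mem_cluster] at hu
  have key : ∀ e ∈ ω, ε (s e) = ε (t e) := by
    intro e he
    by_contra hne
    apply hI
    unfold Ind
    exact Finset.prod_eq_zero he (by simp [hne])
  induction hu with
  | rel a b h => obtain ⟨e, he, rfl, rfl⟩ := h; exact key e he
  | refl a => rfl
  | symm a b _ ih => exact ih.symm
  | trans a b c _ _ ih1 ih2 => exact ih1.trans ih2

lemma sum_pair_in (s t : E → V) (ω : Finset E) (y u : V) (hu : u ∈ cluster s t ω y) :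
    ∑ ε : V → ℤˣ, r (ε u) * r (ε y) * Ind s t ω ε = ∑ ε : V → ℤˣ, Ind s t ω ε := by
  refine Finset.sum_congr rfl ?_
  intro ε _
  by_cases hI : Ind s t ω ε = 0
  · rw [hI]; ring
  · rw [const_on_cluster s t ω y u ε hI hu, r_sq]; ring

lemma sum_pair_out (s t : E → V) (ω : Finset E) (y u : V) (hu : u ∉ cluster s t ω y) :
    ∑ ε : V → ℤˣ, r (ε u) * r (ε y) * Ind s t ω ε = 0 := by
  have h1 : ∑ ε : V → ℤˣ, r (ε u) * r (ε y) * Ind s t ω ε
      = ∑ ε : V → ℤˣ, r ((flip (cluster s t ω y) * ε) u) * r ((flip (cluster s t ω y) * ε) y)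
          * Ind s t ω (flip (cluster s t ω y) * ε) := by
    exact (Fintype.sum_equiv (Equiv.mulLeft (flip (cluster s t ω y))) _ _ (fun ε => by
      simp [Equiv.mulLeft])).symm
  have h2 : ∀ ε : V → ℤˣ, r ((flip (cluster s t ω y) * ε) u) * r ((flip (cluster s t ω y) * ε) y)
          * Ind s t ω (flip (cluster s t ω y) * ε) = - (r (ε u) * r (ε y) * Ind s t ω ε) := by
    intro ε
    rw [Ind_flip]
    have hy := self_mem_cluster s t ω y
    simp only [Pi.mul_apply, flip, hu, hy, if_true, if_false, one_mul]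
    rw [r_mul]; simp
  simp_rw [h2] at h1
  rw [Finset.sum_neg_distrib] at h1
  linarith

lemma sum_pair_nonneg (s t : E → V) (ω : Finset E) (y u : V) :
    0 ≤ ∑ ε : V → ℤˣ, r (ε u) * r (ε y) * Ind s t ω ε := by
  by_cases hu : u ∈ cluster s t ω y
  · rw [sum_pair_in s t ω y u hu]
    exact Finset.sum_nonneg (fun ε _ => Ind_nonneg _ _ _ _)
  · rw [sum_pair_out s t ω y u hu]

lemma omega_bound (s t : E → V) (ω : Finset E) (y : V) (G : (V → ℤˣ) → ℝ) (c : V → ℝ)
    (hG : ∀ (ε : V → ℤˣ) (u : V), |G ε - G (flip {u} * ε)| ≤ 2 * c u) :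
    |∑ ε : V → ℤˣ, r (ε y) * G ε * Ind s t ω ε|
      ≤ ∑ u, c u * ∑ ε : V → ℤˣ, r (ε u) * r (ε y) * Ind s t ω ε := by
  set K := cluster s t ω y with hK
  have hc : ∀ u, 0 ≤ c u := by
    intro u
    have := hG (fun _ => 1) u
    have h0 := abs_nonneg (G (fun _ => 1) - G (flip {u} * fun _ => 1))
    linarith
  have h1 : ∑ ε : V → ℤˣ, r (ε y) * G ε * Ind s t ω ε
      = ∑ ε : V → ℤˣ, r ((flip K * ε) y) * G (flip K * ε) * Ind s t ω (flip K * ε) := by
    exact (Fintype.sum_equiv (Equiv.mulLeft (flip K)) _ _ (fun ε => by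
      simp [Equiv.mulLeft])).symm
  have h2 : ∀ ε : V → ℤˣ, r ((flip K * ε) y) * G (flip K * ε) * Ind s t ω (flip K * ε)
      = - (r (ε y) * G (flip K * ε) * Ind s t ω ε) := by
    intro ε
    rw [hK, Ind_flip]
    have hy := self_mem_cluster s t ω y
    simp only [Pi.mul_apply, flip, hy, if_true]
    rw [r_mul]; simp
  have h3 : 2 * ∑ ε : V → ℤˣ, r (ε y) * G ε * Ind s t ω ε
      = ∑ ε : V → ℤˣ, r (ε y) * (G ε - G (flip K * ε)) * Ind s t ω ε := by
    have : ∑ ε : V → ℤˣ, r (ε y) * (G ε - G (flip K * ε)) * Ind s t ω ε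
        = ∑ ε : V → ℤˣ, r (ε y) * G ε * Ind s t ω ε
          + ∑ ε : V → ℤˣ, - (r (ε y) * G (flip K * ε) * Ind s t ω ε) := by
      rw [← Finset.sum_add_distrib]
      refine Finset.sum_congr rfl (fun ε _ => by ring)
    rw [this]
    simp_rw [h2] at h1
    rw [← h1]; ring
  have h4 : |∑ ε : V → ℤˣ, r (ε y) * (G ε - G (flip K * ε)) * Ind s t ω ε|
      ≤ ∑ ε : V → ℤˣ, (∑ u ∈ K, 2 * c u) * Ind s t ω ε := by
    refine (Finset.abs_sum_le_sum_abs _ _).trans (Finset.sum_le_sum ?_)
    intro ε _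
    rw [abs_mul, abs_mul, abs_r, one_mul, abs_of_nonneg (Ind_nonneg _ _ _ _)]
    exact mul_le_mul_of_nonneg_right (telescope G c hG K ε) (Ind_nonneg _ _ _ _)
  have h5 : ∑ u, c u * ∑ ε : V → ℤˣ, r (ε u) * r (ε y) * Ind s t ω ε
      = ∑ u ∈ K, c u * ∑ ε : V → ℤˣ, Ind s t ω ε := by
    rw [← Finset.sum_subset (Finset.subset_univ K)]
    · refine Finset.sum_congr rfl ?_
      intro u hu
      rw [sum_pair_in s t ω y u hu]
    · intro u _ hu
      rw [sum_pair_out s t ω y u hu, mul_zero]
  rw [h5, ← Finset.sum_mul]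
  have h6 : ∑ ε : V → ℤˣ, (∑ u ∈ K, 2 * c u) * Ind s t ω ε
      = 2 * ((∑ u ∈ K, c u) * ∑ ε : V → ℤˣ, Ind s t ω ε) := by
    rw [← Finset.mul_sum, ← Finset.mul_sum]; ring
  rw [h6] at h4
  have h7 : |2 * ∑ ε : V → ℤˣ, r (ε y) * G ε * Ind s t ω ε|
      ≤ 2 * ((∑ u ∈ K, c u) * ∑ ε : V → ℤˣ, Ind s t ω ε) := by rw [h3]; exact h4
  rw [abs_mul, abs_of_pos (by norm_num : (0:ℝ) < 2)] at h7
  linarith

/-- coefficient of `ω` in the expansion -/
noncomputable def coef (J : E → ℝ) (ω : Finset E) : ℝ :=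
  (∏ e ∈ ω, (Real.exp (J e) - Real.exp (-J e))) * ∏ e ∈ univ \ ω, Real.exp (-J e)

lemma coef_nonneg (J : E → ℝ) (hJ : ∀ e, 0 ≤ J e) (ω : Finset E) : 0 ≤ coef J ω := by
  unfold coef
  refine mul_nonneg (Finset.prod_nonneg ?_) (Finset.prod_nonneg (fun e _ => (Real.exp_pos _).le))
  intro e _
  have : Real.exp (-J e) ≤ Real.exp (J e) := Real.exp_le_exp.mpr (by linarith [hJ e])
  linarith

lemma sum_W (s t : E → V) (J : E → ℝ) (F : (V → ℤˣ) → ℝ) :
    ∑ ε : V → ℤˣ, F ε * W s t J ε
      = ∑ ω ∈ (univ : Finset E).powerset, coef J ω * ∑ ε : V → ℤˣ, F ε * Ind s t ω ε := by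
  simp_rw [W_expand, Finset.mul_sum]
  rw [Finset.sum_comm]
  refine Finset.sum_congr rfl (fun ω _ => Finset.sum_congr rfl (fun ε _ => ?_))
  unfold coef
  ring

/-- first Griffiths inequality (two-point) -/
theorem griffiths (s t : E → V) (J : E → ℝ) (hJ : ∀ e, 0 ≤ J e) (u y : V) :
    0 ≤ ∑ ε : V → ℤˣ, (r (ε u) * r (ε y)) * W s t J ε := by
  rw [sum_W]
  exact Finset.sum_nonneg (fun ω _ => mul_nonneg (coef_nonneg J hJ ω) (sum_pair_nonneg s t ω y u))

/-- Fortuin-Kasteleyn Lipschitz bound -/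
theorem fk_lip (s t : E → V) (J : E → ℝ) (hJ : ∀ e, 0 ≤ J e) (y : V)
    (G : (V → ℤˣ) → ℝ) (c : V → ℝ)
    (hG : ∀ (ε : V → ℤˣ) (u : V), |G ε - G (flip {u} * ε)| ≤ 2 * c u) :
    |∑ ε : V → ℤˣ, (r (ε y) * G ε) * W s t J ε|
      ≤ ∑ u, c u * ∑ ε : V → ℤˣ, (r (ε u) * r (ε y)) * W s t J ε := by
  rw [sum_W]
  have h1 : ∑ u, c u * ∑ ε : V → ℤˣ, (r (ε u) * r (ε y)) * W s t J ε
      = ∑ ω ∈ (univ : Finset E).powerset, coef J ω *
          ∑ u, c u * ∑ ε : V → ℤˣ, r (ε u) * r (ε y) * Ind s t ω ε := by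
    simp_rw [sum_W, Finset.mul_sum]
    rw [Finset.sum_comm]
    refine Finset.sum_congr rfl (fun ω _ => Finset.sum_congr rfl (fun u _ =>
      Finset.sum_congr rfl (fun ε _ => ?_)))
    ring
  rw [h1]
  refine (Finset.abs_sum_le_sum_abs _ _).trans (Finset.sum_le_sum ?_)
  intro ω _
  rw [abs_mul, abs_of_nonneg (coef_nonneg J hJ ω)]
  exact mul_le_mul_of_nonneg_left (omega_bound s t ω y G c hG) (coef_nonneg J hJ ω)

end Crest.Agent.R167.Ising
end

-- ▼ part R167/DRefl
section

/-! Row 167, Part D: reflections of the spins and sign averages. -/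

set_option autoImplicit false
set_option linter.unusedSectionVars false

namespace Crest.Agent.R167.D

open MeasureTheory Crest.Agent.R167 Crest.Agent.R167.Ising
open scoped Pointwise

variable {n : ℕ}

/-- map of the sphere induced by a linear isometry -/
noncomputable def sphMap (L : EuclideanSpace ℝ (Fin n) ≃ₗᵢ[ℝ] EuclideanSpace ℝ (Fin n))
    (s : Sp n) : Sp n :=
  ⟨L s, by
    have h1 : ‖(s : EuclideanSpace ℝ (Fin n))‖ = 1 := by simp
    simp⟩

lemma continuous_sphMap (L : EuclideanSpace ℝ (Fin n) ≃ₗᵢ[ℝ] EuclideanSpace ℝ (Fin n)) :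
    Continuous (sphMap L) := by
  unfold sphMap
  exact Continuous.subtype_mk (L.continuous.comp continuous_subtype_val) _

lemma toSphere_preimage (L : EuclideanSpace ℝ (Fin n) ≃ₗᵢ[ℝ] EuclideanSpace ℝ (Fin n))
    (s : Set (Sp n)) (hs : MeasurableSet s) :
    (volume : Measure (EuclideanSpace ℝ (Fin n))).toSphere (sphMap L ⁻¹' s)
      = (volume : Measure (EuclideanSpace ℝ (Fin n))).toSphere s := by
  have hm : MeasurableSet (sphMap L ⁻¹' s) := (continuous_sphMap L).measurable hs
  rw [Measure.toSphere_apply' _ hm, Measure.toSphere_apply' _ hs]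
  congr 1
  have h1 : (Set.Ioo (0:ℝ) 1 • (Subtype.val '' (sphMap L ⁻¹' s)) : Set (EuclideanSpace ℝ (Fin n)))
      = L ⁻¹' (Set.Ioo (0:ℝ) 1 • (Subtype.val '' s)) := by
    ext y
    simp only [Set.mem_smul, Set.mem_image, Set.mem_preimage]
    constructor
    · rintro ⟨t, ht, x, ⟨z, hz, rfl⟩, rfl⟩
      exact ⟨t, ht, L z, ⟨sphMap L z, hz, rfl⟩, by simp⟩
    · rintro ⟨t, ht, x, ⟨z, hz, rfl⟩, hy⟩
      refine ⟨t, ht, L.symm z, ⟨⟨L.symm z, ?_⟩, ?_, rfl⟩, ?_⟩
      · have h1 : ‖(z : EuclideanSpace ℝ (Fin n))‖ = 1 := by simp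
        simp
      · have : sphMap L ⟨L.symm z, by
            have h1 : ‖(z : EuclideanSpace ℝ (Fin n))‖ = 1 := by simp
            simp⟩ = z := by
          apply Subtype.ext; simp [sphMap]
        rw [this]; exact hz
      · have : L (t • L.symm z) = L y := by rw [map_smul]; simpa using hy
        exact L.injective this
  rw [h1]
  exact (L.measurePreserving).measure_preimage_equiv (f := L.toHomeomorph.toMeasurableEquiv) _

lemma mp_sphMap (L : EuclideanSpace ℝ (Fin n) ≃ₗᵢ[ℝ] EuclideanSpace ℝ (Fin n)) :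
    MeasurePreserving (sphMap L) (unif n) (unif n) := by
  refine ⟨(continuous_sphMap L).measurable, ?_⟩
  ext s hs
  rw [Measure.map_apply (continuous_sphMap L).measurable hs]
  unfold unif
  simp only [Measure.smul_apply]
  rw [toSphere_preimage L s hs]

/-- negate the coordinate `i` -/
noncomputable def reflL (i : Fin n) : EuclideanSpace ℝ (Fin n) ≃ₗᵢ[ℝ] EuclideanSpace ℝ (Fin n) :=
  LinearIsometryEquiv.piLpCongrRight 2
    (fun j => if j = i then LinearIsometryEquiv.neg ℝ else LinearIsometryEquiv.refl ℝ ℝ)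

lemma reflL_apply (i j : Fin n) (x : EuclideanSpace ℝ (Fin n)) :
    reflL i x j = if j = i then - x j else x j := by
  unfold reflL
  simp only [LinearIsometryEquiv.piLpCongrRight_apply]
  by_cases h : j = i <;> simp [h]

/-- the action of a sign -/
noncomputable def sg (i : Fin n) (e : ℤˣ) (s : Sp n) : Sp n :=
  if e = 1 then s else sphMap (reflL i) s

lemma sg_coord (i : Fin n) (e : ℤˣ) (s : Sp n) :
    (sg i e s : EuclideanSpace ℝ (Fin n)) i = r e * (s : EuclideanSpace ℝ (Fin n)) i := by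
  unfold sg
  rcases Int.units_eq_one_or e with h | h
  · simp [h]
  · subst h
    simp [sphMap, reflL_apply]

lemma sg_coord_ne (i j : Fin n) (h : j ≠ i) (e : ℤˣ) (s : Sp n) :
    (sg i e s : EuclideanSpace ℝ (Fin n)) j = (s : EuclideanSpace ℝ (Fin n)) j := by
  unfold sg
  rcases Int.units_eq_one_or e with h' | h'
  · simp [h']
  · subst h'
    simp [sphMap, reflL_apply, h]

lemma sg_ext {s t : Sp n} (h : ∀ j, (s : EuclideanSpace ℝ (Fin n)) j = (t : EuclideanSpace ℝ (Fin n)) j) :
    s = t := by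
  apply Subtype.ext
  ext j; exact h j

lemma sg_mul (i : Fin n) (e e' : ℤˣ) (s : Sp n) : sg i (e * e') s = sg i e (sg i e' s) := by
  apply sg_ext
  intro j
  by_cases h : j = i
  · subst h
    rw [sg_coord, sg_coord, sg_coord, r_mul, mul_assoc]
  · rw [sg_coord_ne _ _ h, sg_coord_ne _ _ h, sg_coord_ne _ _ h]

lemma mp_sg (i : Fin n) (e : ℤˣ) : MeasurePreserving (sg i e) (unif n) (unif n) := by
  unfold sg
  rcases Int.units_eq_one_or e with h | h
  · simp only [h, if_true]
    exact MeasurePreserving.id _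
  · subst h
    simp only [show ((-1 : ℤˣ) = 1) = False from by decide, if_false]
    exact mp_sphMap (reflL i)

lemma continuous_sg (i : Fin n) (e : ℤˣ) : Continuous (sg (n := n) i e) := by
  unfold sg
  rcases Int.units_eq_one_or e with h | h
  · simp only [h, if_true]; exact continuous_id
  · subst h
    simp only [show ((-1 : ℤˣ) = 1) = False from by decide, if_false]
    exact continuous_sphMap (reflL i)

variable {ι : Type} [Fintype ι] [DecidableEq ι]

/-- action of a sign field on configurations -/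
noncomputable def act (i : Fin n) (ε : ι → ℤˣ) (s : Cf ι n) : Cf ι n := fun v => sg i (ε v) (s v)

omit [Fintype ι] [DecidableEq ι] in
lemma act_mul (i : Fin n) (ε ε' : ι → ℤˣ) (s : Cf ι n) :
    act i (ε * ε') s = act i ε (act i ε' s) := by
  funext v; simp [act, sg_mul]

omit [Fintype ι] [DecidableEq ι] in
lemma continuous_act (i : Fin n) (ε : ι → ℤˣ) : Continuous (act (ι := ι) (n := n) i ε) := by
  unfold act
  exact continuous_pi (fun v => (continuous_sg i (ε v)).comp (continuous_apply v))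

/-- `unif` is a probability measure for `n ≥ 1`. -/
lemma isProb_unif (hn : 1 ≤ n) : IsProbabilityMeasure (unif n) := by
  have : Nonempty (Fin n) := ⟨⟨0, hn⟩⟩
  constructor
  unfold unif
  rw [Measure.smul_apply, smul_eq_mul]
  apply ENNReal.inv_mul_cancel
  · rw [Measure.toSphere_apply_univ]
    have h1 : (0 : ENNReal) < volume (Metric.ball (0 : EuclideanSpace ℝ (Fin n)) 1) :=
      Metric.measure_ball_pos _ _ one_pos
    have h2 : ((Module.finrank ℝ (EuclideanSpace ℝ (Fin n)) : ℕ) : ENNReal) ≠ 0 := by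
      simp; omega
    exact mul_ne_zero h2 h1.ne'
  · exact measure_ne_top _ _

lemma mp_act (hn : 1 ≤ n) (i : Fin n) (ε : ι → ℤˣ) :
    MeasurePreserving (act (ι := ι) (n := n) i ε) (nu ι n) (nu ι n) := by
  have := isProb_unif hn
  exact measurePreserving_pi (fun _ : ι => unif n) (fun _ : ι => unif n) (fun v => mp_sg i (ε v))

lemma isProb_nu (hn : 1 ≤ n) : IsProbabilityMeasure (nu ι n) := by
  have := isProb_unif hn
  unfold nu
  infer_instance

/-- sign average -/
lemma sign_average (hn : 1 ≤ n) (i : Fin n) (F : Cf ι n → ℝ) (hF : Continuous F) :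
    ∫ s, (∑ ε : ι → ℤˣ, F (act i ε s)) ∂(nu ι n)
      = (Fintype.card (ι → ℤˣ) : ℝ) * ∫ s, F s ∂(nu ι n) := by
  have := isProb_nu (ι := ι) hn
  have hint : ∀ ε : ι → ℤˣ, Integrable (fun s => F (act i ε s)) (nu ι n) := by
    intro ε
    have hc : Continuous (fun s => F (act i ε s)) := hF.comp (continuous_act i ε)
    exact hc.integrable_of_hasCompactSupport (HasCompactSupport.of_compactSpace _)
  rw [integral_finsetSum _ (fun ε _ => hint ε)]
  have h1 : ∀ ε : ι → ℤˣ, ∫ s, F (act i ε s) ∂(nu ι n) = ∫ s, F s ∂(nu ι n) := by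
    intro ε
    have hmp := mp_act (ι := ι) hn i ε
    have h2 := integral_map (μ := nu ι n) hmp.measurable.aemeasurable
      (f := F) hF.aestronglyMeasurable
    rw [hmp.map_eq] at h2
    exact h2.symm
  simp_rw [h1]
  simp [Finset.sum_const, nsmul_eq_mul]

end Crest.Agent.R167.D
end

-- ▼ part R167/DField
section

/-! Row 167, Part D: local field inequality for finite ferromagnetic Ising systems. -/

set_option autoImplicit false
set_option linter.unusedSectionVars false

namespace Crest.Agent.R167.Ising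

open Finset

lemma tanh_lip (a b : ℝ) : |Real.tanh a - Real.tanh b| ≤ |a - b| := by
  have hd : ∀ x ∈ (Set.univ : Set ℝ), HasDerivWithinAt Real.tanh (1 / Real.cosh x ^ 2) Set.univ x := by
    intro x _
    have h1 : Real.tanh = fun x => Real.sinh x / Real.cosh x := by
      funext y; exact Real.tanh_eq_sinh_div_cosh y
    rw [h1, hasDerivWithinAt_univ]
    have h2 := (Real.hasDerivAt_sinh x).div (Real.hasDerivAt_cosh x) (Real.cosh_pos x).ne'
    rw [show (Real.cosh x * Real.cosh x - Real.sinh x * Real.sinh x) = 1 by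
      have := Real.cosh_sq x
      nlinarith] at h2
    exact h2
  have hb : ∀ x ∈ (Set.univ : Set ℝ), ‖1 / Real.cosh x ^ 2‖ ≤ 1 := by
    intro x _
    have h1 : 1 ≤ Real.cosh x := Real.one_le_cosh x
    rw [Real.norm_eq_abs, abs_of_nonneg (by positivity)]
    rw [div_le_one (by positivity)]
    nlinarith
  have := Convex.norm_image_sub_le_of_norm_hasDerivWithin_le hd hb convex_univ
    (Set.mem_univ b) (Set.mem_univ a)
  simpa [Real.norm_eq_abs] using this

variable {V E : Type*} [Fintype V] [DecidableEq V] [Fintype E] [DecidableEq E]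

/-- energy -/
noncomputable def En (s t : E → V) (J : E → ℝ) (ε : V → ℤˣ) : ℝ :=
  ∑ e, J e * (r (ε (s e)) * r (ε (t e)))

/-- local field at `z` -/
noncomputable def fld (s t : E → V) (J : E → ℝ) (z : V) (ε : V → ℤˣ) : ℝ :=
  ∑ e, J e * ((if s e = z then r (ε (t e)) else 0) + (if t e = z then r (ε (s e)) else 0))

lemma flip_apply (z u : V) (ε : V → ℤˣ) :
    r ((flip {z} * ε) u) = if u = z then - r (ε u) else r (ε u) := by
  by_cases h : u = z
  · subst h; simp [flip, r_neg]
  · simp [flip, h]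

lemma fld_flip (s t : E → V) (J : E → ℝ) (hloop : ∀ e, s e = t e → J e = 0) (z : V)
    (ε : V → ℤˣ) : fld s t J z (flip {z} * ε) = fld s t J z ε := by
  unfold fld
  refine Finset.sum_congr rfl ?_
  intro e _
  by_cases hl : s e = t e
  · simp [hloop e hl]
  · congr 1
    congr 1
    · by_cases h : s e = z
      · have : t e ≠ z := fun h2 => hl (h.trans h2.symm)
        rw [if_pos h, if_pos h, flip_apply, if_neg this]
      · rw [if_neg h, if_neg h]
    · by_cases h : t e = z
      · have : s e ≠ z := fun h2 => hl (h2.trans h.symm)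
        rw [if_pos h, if_pos h, flip_apply, if_neg this]
      · rw [if_neg h, if_neg h]

lemma En_flip (s t : E → V) (J : E → ℝ) (hloop : ∀ e, s e = t e → J e = 0) (z : V)
    (ε : V → ℤˣ) :
    En s t J (flip {z} * ε) = En s t J ε - 2 * (r (ε z) * fld s t J z ε) := by
  unfold En fld
  rw [Finset.mul_sum, Finset.mul_sum, ← Finset.sum_sub_distrib]
  refine Finset.sum_congr rfl ?_
  intro e _
  rw [flip_apply, flip_apply]
  by_cases hl : s e = t e
  · simp [hloop e hl]
  · by_cases h : s e = z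
    · have h2 : t e ≠ z := fun h2 => hl (h.trans h2.symm)
      simp only [h, h2, if_true, if_false]
      rw [← h]; ring
    · by_cases h3 : t e = z
      · simp only [h, h3, if_true, if_false]
        ring
      · simp only [h, h3, if_false]
        ring

lemma W_pair (s t : E → V) (J : E → ℝ) (hloop : ∀ e, s e = t e → J e = 0) (z : V)
    (ε : V → ℤˣ) :
    r (ε z) * (W s t J ε - W s t J (flip {z} * ε))
      = Real.tanh (fld s t J z ε) * (W s t J ε + W s t J (flip {z} * ε)) := by
  have h1 : W s t J ε = Real.exp (En s t J ε) := rfl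
  have h2 : W s t J (flip {z} * ε) = Real.exp (En s t J (flip {z} * ε)) := rfl
  rw [h1, h2, En_flip s t J hloop z ε]
  set h := fld s t J z ε
  set A := En s t J ε
  have hc : Real.cosh h ≠ 0 := (Real.cosh_pos h).ne'
  rw [Real.tanh_eq_sinh_div_cosh]
  have e1 : Real.sinh h = (Real.exp h - Real.exp (-h)) / 2 := Real.sinh_eq h
  have e2 : Real.cosh h = (Real.exp h + Real.exp (-h)) / 2 := Real.cosh_eq h
  rw [div_mul_eq_mul_div, eq_div_iff hc, e1, e2]
  rcases r_cases (ε z) with hr | hr
  · rw [hr]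
    have e3 : Real.exp A = Real.exp (A - h) * Real.exp h := by rw [← Real.exp_add]; ring_nf
    have e4 : Real.exp (A - 2 * (1 * h)) = Real.exp (A - h) * Real.exp (-h) := by
      rw [← Real.exp_add]; ring_nf
    rw [e3, e4]; ring
  · rw [hr]
    have e3 : Real.exp A = Real.exp (A + h) * Real.exp (-h) := by rw [← Real.exp_add]; ring_nf
    have e4 : Real.exp (A - 2 * (-1 * h)) = Real.exp (A + h) * Real.exp h := by
      rw [← Real.exp_add]; ring_nf
    rw [e3, e4]; ring

lemma sum_flip (z : V) (F : (V → ℤˣ) → ℝ) :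
    ∑ ε : V → ℤˣ, F (flip {z} * ε) = ∑ ε : V → ℤˣ, F ε :=
  Fintype.sum_equiv (Equiv.mulLeft (flip {z})) _ _ (fun ε => by simp [Equiv.mulLeft])

lemma sum_tanh (s t : E → V) (J : E → ℝ) (hloop : ∀ e, s e = t e → J e = 0) (z y : V)
    (hzy : y ≠ z) :
    ∑ ε : V → ℤˣ, (r (ε z) * r (ε y)) * W s t J ε
      = ∑ ε : V → ℤˣ, (r (ε y) * Real.tanh (fld s t J z ε)) * W s t J ε := by
  have h1 : ∑ ε : V → ℤˣ, (r (ε z) * r (ε y)) * W s t J ε
      = - ∑ ε : V → ℤˣ, (r (ε z) * r (ε y)) * W s t J (flip {z} * ε) := by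
    rw [← sum_flip z, ← Finset.sum_neg_distrib]
    refine Finset.sum_congr rfl (fun ε _ => ?_)
    rw [flip_apply, flip_apply, if_pos rfl, if_neg hzy]
    ring
  have h2 : ∑ ε : V → ℤˣ, (r (ε y) * Real.tanh (fld s t J z ε)) * W s t J ε
      = ∑ ε : V → ℤˣ, (r (ε y) * Real.tanh (fld s t J z ε)) * W s t J (flip {z} * ε) := by
    rw [← sum_flip z]
    refine Finset.sum_congr rfl (fun ε _ => ?_)
    rw [flip_apply, if_neg hzy, fld_flip s t J hloop z ε]
  have h3 : ∑ ε : V → ℤˣ, (r (ε z) * r (ε y)) * W s t J ε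
      - ∑ ε : V → ℤˣ, (r (ε z) * r (ε y)) * W s t J (flip {z} * ε)
      = ∑ ε : V → ℤˣ, (r (ε y) * Real.tanh (fld s t J z ε)) * W s t J ε
      + ∑ ε : V → ℤˣ, (r (ε y) * Real.tanh (fld s t J z ε)) * W s t J (flip {z} * ε) := by
    rw [← Finset.sum_sub_distrib, ← Finset.sum_add_distrib]
    refine Finset.sum_congr rfl (fun ε _ => ?_)
    have := W_pair s t J hloop z ε
    linear_combination (r (ε y)) * this
  linarith

/-- **local field inequality** -/
theorem field_le (s t : E → V) (J : E → ℝ) (hJ : ∀ e, 0 ≤ J e)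
    (hloop : ∀ e, s e = t e → J e = 0) (z y : V) (hzy : y ≠ z) :
    ∑ ε : V → ℤˣ, (r (ε z) * r (ε y)) * W s t J ε
      ≤ ∑ e, J e * ((if s e = z then ∑ ε : V → ℤˣ, (r (ε (t e)) * r (ε y)) * W s t J ε else 0)
          + (if t e = z then ∑ ε : V → ℤˣ, (r (ε (s e)) * r (ε y)) * W s t J ε else 0)) := by
  set c : V → ℝ := fun u => ∑ e, J e * ((if s e = z ∧ t e = u then (1:ℝ) else 0)
      + (if t e = z ∧ s e = u then (1:ℝ) else 0)) with hc
  have hinf : ∀ (ε : V → ℤˣ) (u : V),
      |Real.tanh (fld s t J z ε) - Real.tanh (fld s t J z (flip {u} * ε))| ≤ 2 * c u := by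
    intro ε u
    refine (tanh_lip _ _).trans ?_
    have h1 : fld s t J z ε - fld s t J z (flip {u} * ε)
        = ∑ e, J e * ((if s e = z ∧ t e = u then 2 * r (ε u) else 0)
            + (if t e = z ∧ s e = u then 2 * r (ε u) else 0)) := by
      unfold fld
      rw [← Finset.sum_sub_distrib]
      refine Finset.sum_congr rfl (fun e _ => ?_)
      rw [← mul_sub]
      congr 1
      have a1 : (if s e = z then r (ε (t e)) else 0)
          - (if s e = z then r ((flip {u} * ε) (t e)) else 0)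
          = if s e = z ∧ t e = u then 2 * r (ε u) else 0 := by
        by_cases h : s e = z
        · by_cases h2 : t e = u
          · simp only [h, h2, if_true, and_self]
            rw [flip_apply, if_pos rfl]; ring
          · simp only [h, h2, if_true, and_false, if_false]
            rw [flip_apply, if_neg h2]; ring
        · simp [h]
      have a2 : (if t e = z then r (ε (s e)) else 0)
          - (if t e = z then r ((flip {u} * ε) (s e)) else 0)
          = if t e = z ∧ s e = u then 2 * r (ε u) else 0 := by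
        by_cases h : t e = z
        · by_cases h2 : s e = u
          · simp only [h, h2, if_true, and_self]
            rw [flip_apply, if_pos rfl]; ring
          · simp only [h, h2, if_true, and_false, if_false]
            rw [flip_apply, if_neg h2]; ring
        · simp [h]
      linarith
    rw [h1, hc]
    simp only
    rw [Finset.mul_sum]
    refine (Finset.abs_sum_le_sum_abs _ _).trans (Finset.sum_le_sum (fun e _ => ?_))
    rw [abs_mul, abs_of_nonneg (hJ e)]
    have hr := abs_r (ε u)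
    have key : |(if s e = z ∧ t e = u then 2 * r (ε u) else 0)
            + (if t e = z ∧ s e = u then 2 * r (ε u) else 0)|
        ≤ 2 * ((if s e = z ∧ t e = u then (1:ℝ) else 0)
            + (if t e = z ∧ s e = u then (1:ℝ) else 0)) := by
      refine (abs_add_le _ _).trans ?_
      have b : ∀ p : Prop, ∀ [Decidable p], |if p then 2 * r (ε u) else 0|
          = 2 * (if p then (1:ℝ) else 0) := by
        intro p _
        split_ifs
        · rw [abs_mul, hr]; norm_num
        · simp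
      rw [b, b]; linarith
    calc J e * _ ≤ J e * _ := mul_le_mul_of_nonneg_left key (hJ e)
      _ = _ := by ring
  rw [sum_tanh s t J hloop z y hzy]
  refine (le_abs_self _).trans ((fk_lip s t J hJ y _ c hinf).trans (le_of_eq ?_))
  rw [hc]
  simp only
  simp_rw [Finset.sum_mul]
  rw [Finset.sum_comm]
  refine Finset.sum_congr rfl (fun e _ => ?_)
  simp_rw [mul_assoc (J e), ← Finset.mul_sum]
  congr 1
  simp_rw [add_mul]
  rw [Finset.sum_add_distrib]
  congr 1
  · by_cases h : s e = z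
    · simp only [h, true_and, if_true]
      simp
    · simp [h]
  · by_cases h : t e = z
    · simp only [h, true_and, if_true]
      simp
    · simp [h]

end Crest.Agent.R167.Ising
end

-- ▼ part R167/DCore
section

/-! Row 167, Part D: the core inequality on configuration space. -/

set_option autoImplicit false
set_option linter.unusedSectionVars false

namespace Crest.Agent.R167.D

open MeasureTheory Crest.Agent.R167 Crest.Agent.R167.Ising Finset

variable {n : ℕ} {ι E : Type} [Fintype ι] [DecidableEq ι] [Fintype E] [DecidableEq E]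

/-- coordinate -/
noncomputable def co (i : Fin n) (v : ι) (s : Cf ι n) : ℝ := (s v : EuclideanSpace ℝ (Fin n)) i

lemma continuous_co (i : Fin n) (v : ι) : Continuous (co (ι := ι) i v) := by
  unfold co
  have h1 : Continuous (fun x : EuclideanSpace ℝ (Fin n) => x i) := by fun_prop
  exact h1.comp (continuous_subtype_val.comp (continuous_apply v))

lemma co_act (i : Fin n) (v : ι) (ε : ι → ℤˣ) (s : Cf ι n) :
    co i v (act i ε s) = r (ε v) * co i v s := by
  unfold co act
  exact sg_coord i (ε v) (s v)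

lemma abs_co_le (i : Fin n) (v : ι) (s : Cf ι n) : |co i v s| ≤ 1 := by
  unfold co
  have h1 : ‖(s v : EuclideanSpace ℝ (Fin n))‖ = 1 := by simp
  have h2 := PiLp.norm_apply_le (s v : EuclideanSpace ℝ (Fin n)) i
  rw [Real.norm_eq_abs] at h2
  linarith

lemma inner_split (i : Fin n) (x y : EuclideanSpace ℝ (Fin n)) :
    inner ℝ x y = x i * y i + ∑ j ∈ univ.erase i, x j * y j := by
  rw [Finset.add_sum_erase _ (fun j => x j * y j) (Finset.mem_univ i)]
  simp [PiLp.inner_apply, mul_comm]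

/-- invariant part of the interaction -/
noncomputable def rest (G : Gr ι E) (i : Fin n) (s : Cf ι n) : ℝ :=
  ∑ e, G.b e * ∑ j ∈ univ.erase i,
    (s (G.src e) : EuclideanSpace ℝ (Fin n)) j * (s (G.tgt e) : EuclideanSpace ℝ (Fin n)) j

lemma I_eq (G : Gr ι E) (i : Fin n) (s : Cf ι n) :
    G.I s = rest G i s + ∑ e, G.b e * (co i (G.src e) s * co i (G.tgt e) s) := by
  unfold Gr.I rest co
  rw [← Finset.sum_add_distrib]
  refine Finset.sum_congr rfl (fun e _ => ?_)
  rw [inner_split i]; ring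

lemma rest_act (G : Gr ι E) (i : Fin n) (ε : ι → ℤˣ) (s : Cf ι n) :
    rest G i (act i ε s) = rest G i s := by
  unfold rest act
  refine Finset.sum_congr rfl (fun e _ => ?_)
  congr 1
  refine Finset.sum_congr rfl (fun j hj => ?_)
  have hji : j ≠ i := Finset.ne_of_mem_erase hj
  rw [sg_coord_ne _ _ hji, sg_coord_ne _ _ hji]

lemma continuous_I (G : Gr ι E) : Continuous (G.I (n := n)) := by
  unfold Gr.I
  refine continuous_finsetSum _ (fun e _ => ?_)
  refine continuous_const.mul ?_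
  exact (continuous_subtype_val.comp (continuous_apply (G.src e))).inner
    (continuous_subtype_val.comp (continuous_apply (G.tgt e)))

lemma integ (hn : 1 ≤ n) (F : Cf ι n → ℝ) (hF : Continuous F) : Integrable F (nu ι n) := by
  have := isProb_nu (ι := ι) hn
  exact hF.integrable_of_hasCompactSupport (HasCompactSupport.of_compactSpace _)

/-- sign field making the coordinates nonnegative -/
noncomputable def sgnf (i : Fin n) (s : Cf ι n) : ι → ℤˣ := fun v => if 0 ≤ co i v s then 1 else -1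

/-- configuration with nonnegative coordinates -/
noncomputable def absC (i : Fin n) (s : Cf ι n) : Cf ι n := act i (sgnf i s) s

lemma co_absC (i : Fin n) (v : ι) (s : Cf ι n) : co i v (absC i s) = |co i v s| := by
  unfold absC
  rw [co_act]
  unfold sgnf
  by_cases h : 0 ≤ co i v s
  · simp [h, abs_of_nonneg h]
  · simp only [h, if_false, r_neg_one]
    rw [abs_of_neg (not_le.mp h)]; ring

lemma sum_act_absC (i : Fin n) (F : Cf ι n → ℝ) (s : Cf ι n) :
    ∑ ε : ι → ℤˣ, F (act i ε s) = ∑ ε : ι → ℤˣ, F (act i ε (absC i s)) := by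
  unfold absC
  simp_rw [← act_mul]
  exact (Fintype.sum_equiv (Equiv.mulRight (sgnf i s)) _ _ (fun ε => by
    simp [Equiv.mulRight])).symm

/-- Ising couplings -/
noncomputable def Jc (G : Gr ι E) (i : Fin n) (s : Cf ι n) (e : E) : ℝ :=
  G.b e * (|co i (G.src e) s| * |co i (G.tgt e) s|)

lemma exp_I_act (G : Gr ι E) (i : Fin n) (ε : ι → ℤˣ) (s : Cf ι n) :
    Real.exp (G.I (act i ε (absC i s))) = Real.exp (rest G i s) * W G.src G.tgt (Jc G i s) ε := by
  rw [I_eq G i, rest_act]
  have h0 : rest G i (absC i s) = rest G i s := rest_act G i _ s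
  rw [h0, Real.exp_add]
  congr 1
  unfold W
  congr 1
  refine Finset.sum_congr rfl (fun e _ => ?_)
  rw [co_act, co_act, co_absC, co_absC]
  unfold Jc
  ring

/-- unnormalised two-point function of one coordinate -/
noncomputable def H (G : Gr ι E) (i : Fin n) (u y : ι) : ℝ :=
  ∫ s, (co i u s * co i y s) * Real.exp (G.I s) ∂(nu ι n)

lemma card_pos : (0:ℝ) < (Fintype.card (ι → ℤˣ) : ℝ) := by
  have : 0 < Fintype.card (ι → ℤˣ) := Fintype.card_pos
  exact_mod_cast this

lemma H_nonneg (hn : 1 ≤ n) (G : Gr ι E) (hb : ∀ e, 0 ≤ G.b e) (i : Fin n) (u y : ι) :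
    0 ≤ H G i u y := by
  have hcont : Continuous (fun s : Cf ι n => (co i u s * co i y s) * Real.exp (G.I s)) :=
    ((continuous_co i u).mul (continuous_co i y)).mul (Real.continuous_exp.comp (continuous_I G))
  have h1 := sign_average hn i (fun s : Cf ι n => (co i u s * co i y s) * Real.exp (G.I s)) hcont
  have h2 : 0 ≤ ∫ s, (∑ ε : ι → ℤˣ, (co i u (act i ε s) * co i y (act i ε s))
      * Real.exp (G.I (act i ε s))) ∂(nu ι n) := by
    refine integral_nonneg (fun s => ?_)
    show 0 ≤ ∑ ε : ι → ℤˣ, (co i u (act i ε s) * co i y (act i ε s)) * Real.exp (G.I (act i ε s))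
    rw [sum_act_absC i (fun s : Cf ι n => (co i u s * co i y s) * Real.exp (G.I s))]
    have h3 : ∑ ε : ι → ℤˣ, (co i u (act i ε (absC i s)) * co i y (act i ε (absC i s)))
        * Real.exp (G.I (act i ε (absC i s)))
        = (|co i u s| * |co i y s| * Real.exp (rest G i s)) *
          ∑ ε : ι → ℤˣ, (r (ε u) * r (ε y)) * W G.src G.tgt (Jc G i s) ε := by
      rw [Finset.mul_sum]
      refine Finset.sum_congr rfl (fun ε _ => ?_)
      rw [exp_I_act, co_act, co_act, co_absC, co_absC]; ring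
    rw [h3]
    refine mul_nonneg (by positivity) (griffiths _ _ _ ?_ u y)
    intro e
    unfold Jc
    exact mul_nonneg (hb e) (by positivity)
  rw [h1] at h2
  have h4 := card_pos (ι := ι)
  unfold H
  by_contra hneg
  push Not at hneg
  nlinarith

/-- **core inequality** -/
theorem core (hn : 1 ≤ n) (G : Gr ι E) (hb : ∀ e, 0 ≤ G.b e)
    (hloop : ∀ e, G.src e = G.tgt e → G.b e = 0) (i : Fin n) (y : ι)
    (g : Cf ι n → ℝ) (hg : Continuous g) (c : ι → ℝ)
    (hinf : ∀ (s : Cf ι n) (u : ι), |g s - g (act i (flip {u}) s)| ≤ 2 * c u) (hy : c y = 0) :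
    |∫ s, (co i y s * g s) * Real.exp (G.I s) ∂(nu ι n)| ≤
      ∑ z, c z * ∑ e, G.b e * ((if G.src e = z then H G i (G.tgt e) y else 0)
        + (if G.tgt e = z then H G i (G.src e) y else 0)) := by
  have hcexp : Continuous (fun s : Cf ι n => Real.exp (G.I s)) :=
    Real.continuous_exp.comp (continuous_I G)
  have hF : Continuous (fun s : Cf ι n => (co i y s * g s) * Real.exp (G.I s)) :=
    ((continuous_co i y).mul hg).mul hcexp
  -- the majorant
  set Q : Cf ι n → ℝ := fun s => (∑ z, c z * ∑ e, G.b e *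
      ((if G.src e = z then co i (G.tgt e) s * co i y s else 0)
        + (if G.tgt e = z then co i (G.src e) s * co i y s else 0))) * Real.exp (G.I s) with hQ
  have hQc : Continuous Q := by
    rw [hQ]
    refine Continuous.mul ?_ hcexp
    refine continuous_finsetSum _ (fun z _ => continuous_const.mul
      (continuous_finsetSum _ (fun e _ => continuous_const.mul (Continuous.add ?_ ?_))))
    · split_ifs
      · exact (continuous_co i _).mul (continuous_co i _)
      · exact continuous_const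
    · split_ifs
      · exact (continuous_co i _).mul (continuous_co i _)
      · exact continuous_const
  have hc0 : ∀ u, 0 ≤ c u := by
    intro u
    obtain ⟨s0⟩ : Nonempty (Cf ι n) := by
      have := isProb_nu (ι := ι) hn
      exact (nonempty_of_isProbabilityMeasure (nu ι n))
    have := hinf s0 u
    have h0 := abs_nonneg (g s0 - g (act i (flip {u}) s0))
    linarith
  -- pointwise inequality
  have key : ∀ s : Cf ι n,
      |∑ ε : ι → ℤˣ, (co i y (act i ε s) * g (act i ε s)) * Real.exp (G.I (act i ε s))|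
        ≤ ∑ ε : ι → ℤˣ, Q (act i ε s) := by
    intro s
    rw [sum_act_absC i (fun s : Cf ι n => (co i y s * g s) * Real.exp (G.I s)),
      sum_act_absC i Q]
    set J := Jc G i s with hJdef
    have hJ : ∀ e, 0 ≤ J e := fun e => mul_nonneg (hb e) (by positivity)
    have hJl : ∀ e, G.src e = G.tgt e → J e = 0 := by
      intro e he
      rw [hJdef]; unfold Jc; rw [hloop e he, zero_mul]
    set T : ι → ℝ := fun u => ∑ ε : ι → ℤˣ, (r (ε u) * r (ε y)) * W G.src G.tgt J ε with hT
    have hT0 : ∀ u, 0 ≤ T u := fun u => griffiths _ _ _ hJ u y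
    set K : ℝ := Real.exp (rest G i s) with hK
    have hK0 : 0 < K := Real.exp_pos _
    have hL : ∑ ε : ι → ℤˣ, (co i y (act i ε (absC i s)) * g (act i ε (absC i s)))
        * Real.exp (G.I (act i ε (absC i s)))
        = (|co i y s| * K) * ∑ ε : ι → ℤˣ, (r (ε y) * g (act i ε (absC i s)))
          * W G.src G.tgt J ε := by
      rw [Finset.mul_sum]
      refine Finset.sum_congr rfl (fun ε _ => ?_)
      rw [exp_I_act, co_act, co_absC]; ring
    have hR : ∑ ε : ι → ℤˣ, Q (act i ε (absC i s))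
        = (|co i y s| * K) * ∑ z, c z * ∑ e, G.b e *
          ((if G.src e = z then |co i (G.tgt e) s| * T (G.tgt e) else 0)
            + (if G.tgt e = z then |co i (G.src e) s| * T (G.src e) else 0)) := by
      have hQe : ∀ ε : ι → ℤˣ, Q (act i ε (absC i s)) = (|co i y s| * K) * ∑ z, c z * ∑ e, G.b e *
          ((if G.src e = z then |co i (G.tgt e) s| * ((r (ε (G.tgt e)) * r (ε y))
              * W G.src G.tgt J ε) else 0)
            + (if G.tgt e = z then |co i (G.src e) s| * ((r (ε (G.src e)) * r (ε y))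
              * W G.src G.tgt J ε) else 0)) := by
        intro ε
        rw [hQ]
        simp only
        rw [exp_I_act]
        simp only [Finset.sum_mul, Finset.mul_sum]
        refine Finset.sum_congr rfl (fun z _ => Finset.sum_congr rfl (fun e _ => ?_))
        rw [co_act, co_act, co_act, co_absC, co_absC, co_absC]
        split_ifs <;> ring
      simp_rw [hQe]
      rw [← Finset.mul_sum]
      congr 1
      rw [Finset.sum_comm]
      refine Finset.sum_congr rfl (fun z _ => ?_)
      rw [← Finset.mul_sum]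
      congr 1
      rw [Finset.sum_comm]
      refine Finset.sum_congr rfl (fun e _ => ?_)
      rw [← Finset.mul_sum]
      congr 1
      rw [Finset.sum_add_distrib]
      congr 1
      · split_ifs
        · rw [← Finset.mul_sum]
        · simp
      · split_ifs
        · rw [← Finset.mul_sum]
        · simp
    rw [hL, hR, abs_mul, abs_of_nonneg (by positivity : (0:ℝ) ≤ |co i y s| * K)]
    refine mul_le_mul_of_nonneg_left ?_ (by positivity)
    have hinf' : ∀ (ε : ι → ℤˣ) (u : ι),
        |g (act i ε (absC i s)) - g (act i (flip {u} * ε) (absC i s))| ≤ 2 * c u := by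
      intro ε u
      rw [act_mul]
      exact hinf _ u
    refine (fk_lip _ _ _ hJ y (fun ε => g (act i ε (absC i s))) c hinf').trans ?_
    refine Finset.sum_le_sum (fun z _ => ?_)
    by_cases hzy : z = y
    · rw [hzy, hy, zero_mul, zero_mul]
    · refine mul_le_mul_of_nonneg_left ?_ (hc0 z)
      refine (field_le _ _ _ hJ hJl z y (Ne.symm hzy)).trans ?_
      refine Finset.sum_le_sum (fun e _ => ?_)
      have hb1 := hb e
      have e1 : J e = G.b e * (|co i (G.src e) s| * |co i (G.tgt e) s|) := rfl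
      rw [e1, mul_assoc]
      refine mul_le_mul_of_nonneg_left ?_ hb1
      rw [mul_add]
      refine add_le_add ?_ ?_
      · split_ifs with h
        · have := abs_co_le i (G.src e) s
          have h2 := hT0 (G.tgt e)
          have h3 := abs_nonneg (co i (G.tgt e) s)
          calc |co i (G.src e) s| * |co i (G.tgt e) s| * T (G.tgt e)
              ≤ 1 * |co i (G.tgt e) s| * T (G.tgt e) := by gcongr
            _ = _ := by ring
        · simp
      · split_ifs with h
        · have := abs_co_le i (G.tgt e) s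
          have h2 := hT0 (G.src e)
          have h3 := abs_nonneg (co i (G.src e) s)
          calc |co i (G.src e) s| * |co i (G.tgt e) s| * T (G.src e)
              ≤ |co i (G.src e) s| * 1 * T (G.src e) := by gcongr
            _ = _ := by ring
        · simp
  -- integrate
  have hA := sign_average hn i (fun s : Cf ι n => (co i y s * g s) * Real.exp (G.I s)) hF
  have hB := sign_average hn i Q hQc
  have hcard := card_pos (ι := ι)
  have hcontA : Continuous (fun s : Cf ι n => ∑ ε : ι → ℤˣ, (co i y (act i ε s) * g (act i ε s))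
      * Real.exp (G.I (act i ε s))) :=
    continuous_finsetSum _ (fun ε _ => hF.comp (continuous_act i ε))
  have hcontB : Continuous (fun s : Cf ι n => ∑ ε : ι → ℤˣ, Q (act i ε s)) :=
    continuous_finsetSum _ (fun ε _ => hQc.comp (continuous_act i ε))
  have h5 : |∫ s, (∑ ε : ι → ℤˣ, (co i y (act i ε s) * g (act i ε s))
      * Real.exp (G.I (act i ε s))) ∂(nu ι n)| ≤ ∫ s, (∑ ε : ι → ℤˣ, Q (act i ε s)) ∂(nu ι n) := by
    refine (abs_integral_le_integral_abs).trans ?_
    exact integral_mono (integ hn _ hcontA.abs) (integ hn _ hcontB) key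
  rw [hA, hB, abs_mul, abs_of_pos hcard] at h5
  have h6 := le_of_mul_le_mul_left h5 hcard
  refine h6.trans (le_of_eq ?_)
  rw [hQ]
  simp only
  have hpc : ∀ u : ι, Integrable (fun s : Cf ι n => (co i u s * co i y s) * Real.exp (G.I s))
      (nu ι n) := fun u => integ hn _ (((continuous_co i u).mul (continuous_co i y)).mul hcexp)
  have hrew : ∀ s : Cf ι n, (∑ z, c z * ∑ e, G.b e *
      ((if G.src e = z then co i (G.tgt e) s * co i y s else 0)
        + (if G.tgt e = z then co i (G.src e) s * co i y s else 0))) * Real.exp (G.I s)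
      = ∑ z, c z * ∑ e, G.b e *
      ((if G.src e = z then (co i (G.tgt e) s * co i y s) * Real.exp (G.I s) else 0)
        + (if G.tgt e = z then (co i (G.src e) s * co i y s) * Real.exp (G.I s) else 0)) := by
    intro s
    rw [Finset.sum_mul]
    refine Finset.sum_congr rfl (fun z _ => ?_)
    rw [mul_assoc, Finset.sum_mul]
    congr 1
    refine Finset.sum_congr rfl (fun e _ => ?_)
    split_ifs <;> ring
  simp_rw [hrew]
  have hi1 : ∀ (z : ι) (e : E), Integrable (fun s : Cf ι n =>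
      (if G.src e = z then (co i (G.tgt e) s * co i y s) * Real.exp (G.I s) else 0)) (nu ι n) := by
    intro z e
    split_ifs
    · exact hpc _
    · exact integ hn _ continuous_const
  have hi2 : ∀ (z : ι) (e : E), Integrable (fun s : Cf ι n =>
      (if G.tgt e = z then (co i (G.src e) s * co i y s) * Real.exp (G.I s) else 0)) (nu ι n) := by
    intro z e
    split_ifs
    · exact hpc _
    · exact integ hn _ continuous_const
  have hie : ∀ (z : ι) (e : E), Integrable (fun s : Cf ι n => G.b e *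
      ((if G.src e = z then (co i (G.tgt e) s * co i y s) * Real.exp (G.I s) else 0)
        + (if G.tgt e = z then (co i (G.src e) s * co i y s) * Real.exp (G.I s) else 0)))
      (nu ι n) := fun z e => ((hi1 z e).add (hi2 z e)).const_mul _
  have hiz : ∀ z : ι, Integrable (fun s : Cf ι n => c z * ∑ e, G.b e *
      ((if G.src e = z then (co i (G.tgt e) s * co i y s) * Real.exp (G.I s) else 0)
        + (if G.tgt e = z then (co i (G.src e) s * co i y s) * Real.exp (G.I s) else 0)))
      (nu ι n) := fun z => (integrable_finsetSum _ (fun e _ => hie z e)).const_mul _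
  rw [integral_finsetSum _ (fun z _ => hiz z)]
  refine Finset.sum_congr rfl (fun z _ => ?_)
  rw [integral_const_mul]
  congr 1
  rw [integral_finsetSum _ (fun e _ => hie z e)]
  refine Finset.sum_congr rfl (fun e _ => ?_)
  rw [integral_const_mul]
  congr 1
  have := integral_add (hi1 z e) (hi2 z e)
  rw [this]
  congr 1
  · split_ifs
    · rfl
    · simp
  · split_ifs
    · rfl
    · simp

end Crest.Agent.R167.D
end

-- ▼ part R167/DMain
section

/-! Row 167, Part D: tower, Markov property and the one-step contraction. -/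

set_option autoImplicit false
set_option linter.unusedSectionVars false

namespace Crest.Agent.R167.D

open MeasureTheory Crest.Agent.R167 Crest.Agent.R167.Ising Finset

section gen
variable {n : ℕ} {ι E : Type} [Fintype ι] [DecidableEq ι] [Fintype E] [DecidableEq E]

lemma dep_co (i : Fin n) (v : ι) (A : Set ι) (hv : v ∈ A) : Dep A (co (ι := ι) i v) := by
  intro s t h
  unfold co
  rw [h v hv]

lemma P_empty [NeZero n] (G : Gr ι E) (F : Cf ι n → ℝ) (s : Cf ι n) :
    P G ∅ F s = (∫ s', F s' * Real.exp (G.I s') ∂(nu ι n)) / ∫ s', Real.exp (G.I s') ∂(nu ι n) := by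
  have h : ∀ s' : Cf ι n, glue (∅ : Set ι) s s' = s' := by
    intro s'; funext v; exact glue_not_mem (Set.notMem_empty v) s s'
  unfold P
  simp only [h]

lemma Z_pos [NeZero n] (G : Gr ι E) : 0 < ∫ s' : Cf ι n, Real.exp (G.I s') ∂(nu ι n) := by
  obtain ⟨s⟩ : Nonempty (Cf ι n) := by
    have hn : 1 ≤ n := Nat.one_le_iff_ne_zero.mpr (NeZero.ne n)
    have := isProb_nu (ι := ι) hn
    exact nonempty_of_isProbabilityMeasure (nu ι n)
  have h := Zf_pos G (∅ : Set ι) s
  have h2 : ∀ s' : Cf ι n, glue (∅ : Set ι) s s' = s' := by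
    intro s'; funext v; exact glue_not_mem (Set.notMem_empty v) s s'
  unfold Zf at h
  simpa only [h2] using h

/-- replace `F` by its conditional average given `A`, in front of a function of `s y`, `y ∈ A`. -/
lemma tower [NeZero n] (G : Gr ι E) (A : Set ι) (i : Fin n) (y : ι) (hy : y ∈ A) (F : Cf ι n → ℝ)
    (hF : Continuous F) :
    ∫ s, (co i y s * F s) * Real.exp (G.I s) ∂(nu ι n)
      = ∫ s, (co i y s * P G A F s) * Real.exp (G.I s) ∂(nu ι n) := by
  have hZ := Z_pos (n := n) G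
  obtain ⟨s0⟩ : Nonempty (Cf ι n) := by
    have hn : 1 ≤ n := Nat.one_le_iff_ne_zero.mpr (NeZero.ne n)
    have := isProb_nu (ι := ι) hn
    exact nonempty_of_isProbabilityMeasure (nu ι n)
  have h1 : P G ∅ (P G A (fun s => co i y s * F s)) s0 = P G ∅ (fun s => co i y s * F s) s0 :=
    P_tower G (Set.empty_subset A) ((continuous_co i y).mul hF) s0
  have h2 : P G A (fun s => co i y s * F s) = fun s => co i y s * P G A F s := by
    funext s
    exact P_mul_dep G (dep_co i y A hy) F s
  rw [h2, P_empty, P_empty] at h1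
  have h3 := (div_left_inj' hZ.ne').mp h1
  exact h3.symm

/-- locality of the conditional average. -/
lemma P_local [NeZero n] (G : Gr ι E) (A : Set ι) (F : Cf ι n → ℝ) (u : ι) (hF : Dep {u}ᶜ F)
    (hu : ∀ e, G.b e ≠ 0 → (G.src e = u ∨ G.tgt e = u) → G.src e ∈ A ∧ G.tgt e ∈ A)
    (s t : Cf ι n) (hst : ∀ v, v ≠ u → s v = t v) : P G A F s = P G A F t := by
  by_cases huA : u ∈ A
  swap
  · refine dep_P G A F s t (fun v hv => hst v ?_)
    rintro rfl; exact huA hv
  set κ : ℝ := ∑ e, (if G.src e = u ∨ G.tgt e = u then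
    G.b e * (inner ℝ (s (G.src e) : EuclideanSpace ℝ (Fin n)) (s (G.tgt e))
      - inner ℝ (t (G.src e) : EuclideanSpace ℝ (Fin n)) (t (G.tgt e))) else 0) with hκ
  have hgl : ∀ (s' : Cf ι n) (v : ι), v ≠ u → glue A s s' v = glue A t s' v := by
    intro s' v hv
    by_cases hvA : v ∈ A
    · rw [glue_mem hvA, glue_mem hvA, hst v hv]
    · rw [glue_not_mem hvA, glue_not_mem hvA]
  have hI : ∀ s' : Cf ι n, G.I (glue A s s') = κ + G.I (glue A t s') := by
    intro s'
    unfold Gr.I
    rw [hκ, ← Finset.sum_add_distrib]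
    refine Finset.sum_congr rfl (fun e _ => ?_)
    by_cases he : G.src e = u ∨ G.tgt e = u
    · rw [if_pos he]
      by_cases hb : G.b e = 0
      · rw [hb]; ring
      · obtain ⟨h1, h2⟩ := hu e hb he
        rw [glue_mem h1, glue_mem h2, glue_mem h1, glue_mem h2]; ring
    · rw [if_neg he]
      push Not at he
      rw [hgl s' _ he.1, hgl s' _ he.2]; ring
  have hFe : ∀ s' : Cf ι n, F (glue A s s') = F (glue A t s') := by
    intro s'
    exact hF _ _ (fun v hv => hgl s' v hv)
  unfold P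
  simp only [hI, hFe, Real.exp_add]
  have h1 : ∀ s' : Cf ι n, F (glue A t s') * (Real.exp κ * Real.exp (G.I (glue A t s')))
      = Real.exp κ * (F (glue A t s') * Real.exp (G.I (glue A t s'))) := fun s' => by ring
  simp only [h1]
  rw [integral_const_mul, integral_const_mul, mul_div_mul_left _ _ (Real.exp_pos κ).ne']

end gen

section lat
open Crest.ProbabilityR.SpinModel
variable {n : ℕ}

lemma latG_b_nonneg (V : Finset (ℤ × ℤ)) (b : ℤ × ℤ → Fin 2 → ℝ) (hb : ∀ u i, 0 ≤ b u i)
    (e : V × Fin 2) : 0 ≤ (latG V b).b e := by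
  show 0 ≤ if (e.1 : ℤ × ℤ) + latticeDir e.2 ∈ V then b e.1 e.2 else 0
  split_ifs
  · exact hb _ _
  · exact le_rfl

lemma latticeDir_ne (i : Fin 2) : latticeDir i ≠ 0 := by
  fin_cases i <;> simp [latticeDir]

lemma latG_loop (V : Finset (ℤ × ℤ)) (b : ℤ × ℤ → Fin 2 → ℝ)
    (e : V × Fin 2) (he : (latG V b).src e = (latG V b).tgt e) : (latG V b).b e = 0 := by
  by_cases h : (e.1 : ℤ × ℤ) + latticeDir e.2 ∈ V
  · exfalso
    have h1 : (latG V b).tgt e = ⟨_, h⟩ := by
      show (if h : (e.1 : ℤ × ℤ) + latticeDir e.2 ∈ V then (⟨_, h⟩ : V) else e.1) = _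
      rw [dif_pos h]
    rw [h1] at he
    have h2 : (e.1 : ℤ × ℤ) = (e.1 : ℤ × ℤ) + latticeDir e.2 := congrArg Subtype.val he
    exact latticeDir_ne e.2 (by simpa using h2)
  · show (if (e.1 : ℤ × ℤ) + latticeDir e.2 ∈ V then b e.1 e.2 else 0) = 0
    rw [if_neg h]

/-- the ends of an edge with nonzero weight are neighbours. -/
lemma latG_adj (V : Finset (ℤ × ℤ)) (b : ℤ × ℤ → Fin 2 → ℝ)
    (e : V × Fin 2) (he : (latG V b).b e ≠ 0) :
    |(((latG V b).tgt e : V) : ℤ × ℤ).1 - (((latG V b).src e : V) : ℤ × ℤ).1| ≤ 1 ∧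
    |(((latG V b).tgt e : V) : ℤ × ℤ).2 - (((latG V b).src e : V) : ℤ × ℤ).2| ≤ 1 := by
  by_cases h : (e.1 : ℤ × ℤ) + latticeDir e.2 ∈ V
  · have h1 : (latG V b).tgt e = ⟨_, h⟩ := by
      show (if h : (e.1 : ℤ × ℤ) + latticeDir e.2 ∈ V then (⟨_, h⟩ : V) else e.1) = _
      rw [dif_pos h]
    have h2 : (latG V b).src e = e.1 := rfl
    rw [h1, h2]
    obtain ⟨v, i⟩ := e
    fin_cases i <;> simp [latticeDir]
  · exfalso
    apply he
    show (if (e.1 : ℤ × ℤ) + latticeDir e.2 ∈ V then b e.1 e.2 else 0) = 0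
    rw [if_neg h]

end lat

end Crest.Agent.R167.D
end

-- ▼ part R167/PDLat
section

/-! Row 167, Part D: lattice combinatorics (iteration to exponential decay, shell sum) and the
link with the frozen two-point function. -/

set_option autoImplicit false
open MeasureTheory Crest.ProbabilityR.SpinModel

namespace Crest.Agent.R167.PDLat

/-- sup distance on `ℤ²`. -/
def sd (x y : ℤ × ℤ) : ℤ := max |x.1 - y.1| |x.2 - y.2|

lemma sd_nonneg (x y : ℤ × ℤ) : 0 ≤ sd x y := le_trans (abs_nonneg _) (le_max_left _ _)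

lemma sd_comm (x y : ℤ × ℤ) : sd x y = sd y x := by
  unfold sd
  rw [abs_sub_comm x.1, abs_sub_comm x.2]

lemma sd_triangle (x y z : ℤ × ℤ) : sd x z ≤ sd x y + sd y z := by
  unfold sd
  have h1 : |x.1 - z.1| ≤ |x.1 - y.1| + |y.1 - z.1| := abs_sub_le _ _ _
  have h2 : |x.2 - z.2| ≤ |x.2 - y.2| + |y.2 - z.2| := abs_sub_le _ _ _
  refine max_le ?_ ?_
  · exact h1.trans (add_le_add (le_max_left _ _) (le_max_left _ _))
  · exact h2.trans (add_le_add (le_max_right _ _) (le_max_right _ _))

lemma mem_bx_iff (V : Finset (ℤ × ℤ)) (x : ℤ × ℤ) (R : ℕ) (v : V) :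
    v ∈ bx V x R ↔ sd v x ≤ R := by
  unfold bx sd
  simp only [Set.mem_ofPred_eq, max_le_iff]

/-- Euclidean distance is at most twice the sup distance. -/
lemma eucl_le (x y : ℤ × ℤ) :
    Real.sqrt ((((x.1 - y.1 : ℤ) : ℝ)) ^ 2 + (((x.2 - y.2 : ℤ) : ℝ)) ^ 2) ≤ 2 * (sd x y : ℝ) := by
  have h0 : (0 : ℝ) ≤ (sd x y : ℝ) := by exact_mod_cast sd_nonneg x y
  rw [Real.sqrt_le_left (by positivity)]
  have h1 : |((x.1 - y.1 : ℤ) : ℝ)| ≤ (sd x y : ℝ) := by
    have : |x.1 - y.1| ≤ sd x y := le_max_left _ _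
    exact_mod_cast this
  have h2 : |((x.2 - y.2 : ℤ) : ℝ)| ≤ (sd x y : ℝ) := by
    have : |x.2 - y.2| ≤ sd x y := le_max_right _ _
    exact_mod_cast this
  have h3 := sq_le_sq' (by linarith [abs_nonneg (((x.1 - y.1 : ℤ) : ℝ))]) h1
  have h4 := sq_le_sq' (by linarith [abs_nonneg (((x.2 - y.2 : ℤ) : ℝ))]) h2
  rw [sq_abs] at h3 h4
  nlinarith

/-- Iteration of the finite-size criterion. -/
theorem iterate_aux (V : Finset (ℤ × ℤ)) (h : V → V → ℝ) (R : ℕ) (Z : ℝ) (hZ : 0 ≤ Z)
    (h1 : ∀ x y, h x y ≤ Z)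
    (hstep : ∀ x y : V, (R : ℤ) + 2 ≤ sd x y →
      ∀ M : ℝ, 0 ≤ M → (∀ u : V, sd u x ≤ R + 2 → h u y ≤ M) → h x y ≤ M / 2) (k : ℕ) :
    ∀ x y : V, (k : ℤ) * (R + 2) ≤ sd x y → h x y ≤ Z * (1 / 2 : ℝ) ^ k := by
  induction k with
  | zero => intro x y _; simpa using h1 x y
  | succ k ih =>
    intro x y hxy
    have hk : (0 : ℤ) ≤ (k : ℤ) * (R + 2) := by positivity
    have hxy' : (k : ℤ) * (R + 2) + (R + 2) ≤ sd x y := by push_cast at hxy; linarith
    have := hstep x y (by linarith) (Z * (1 / 2 : ℝ) ^ k) (by positivity) (fun u hu => ih u y (by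
      have := sd_triangle x u y
      rw [sd_comm (x : ℤ × ℤ) u] at this
      linarith))
    calc h x y ≤ (Z * (1 / 2 : ℝ) ^ k) / 2 := this
      _ = Z * (1 / 2 : ℝ) ^ (k + 1) := by rw [pow_succ]; ring

/-- (b2) exponential decay in the Euclidean distance. -/
theorem iterate (V : Finset (ℤ × ℤ)) (R : ℕ) (h : V → V → ℝ) (Z : ℝ) (hZ : 0 ≤ Z)
    (h1 : ∀ x y, h x y ≤ Z)
    (h2 : ∀ (x y : V) (M : ℝ), 0 ≤ M → y ∉ bx V x (R + 1) →
      (∀ u ∈ bx V x (R + 2), h u y ≤ M) → h x y ≤ M / 2) (x y : V) :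
    h x y ≤ 2 * Z * Real.exp (-(Real.log 2 / (2 * ((R : ℝ) + 2))) *
      Real.sqrt ((((x : ℤ × ℤ).1 - (y : ℤ × ℤ).1 : ℤ) : ℝ) ^ 2 +
        (((x : ℤ × ℤ).2 - (y : ℤ × ℤ).2 : ℤ) : ℝ) ^ 2)) := by
  have hstep : ∀ x y : V, (R : ℤ) + 2 ≤ sd x y →
      ∀ M : ℝ, 0 ≤ M → (∀ u : V, sd u x ≤ R + 2 → h u y ≤ M) → h x y ≤ M / 2 := by
    intro x y hxy M hM hu
    refine h2 x y M hM ?_ ?_
    · rw [mem_bx_iff, sd_comm]
      push_cast
      intro hle
      linarith
    · intro u hub
      rw [mem_bx_iff] at hub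
      exact hu u (by push_cast at hub; linarith)
  set k : ℕ := (sd x y / ((R : ℤ) + 2)).toNat with hk
  have hpos : (0 : ℤ) < (R : ℤ) + 2 := by positivity
  have hk' : ((k : ℕ) : ℤ) = sd x y / ((R : ℤ) + 2) := by
    rw [hk, Int.toNat_of_nonneg]
    exact Int.ediv_nonneg (sd_nonneg _ _) hpos.le
  have hle : (k : ℤ) * (R + 2) ≤ sd x y := by
    rw [hk']; exact Int.ediv_mul_le _ hpos.ne'
  have hlt : sd x y < ((k : ℤ) + 1) * (R + 2) := by
    rw [hk']
    exact Int.lt_ediv_add_one_mul_self _ hpos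
  have hmain := iterate_aux V h R Z hZ h1 hstep k x y hle
  refine hmain.trans ?_
  have hltR : (sd x y : ℝ) < ((k : ℝ) + 1) * (R + 2) := by exact_mod_cast hlt
  have hposR : (0 : ℝ) < (R : ℝ) + 2 := by positivity
  have e1 : (1 / 2 : ℝ) ^ k = 2 * Real.exp (-(Real.log 2) * (k + 1)) := by
    have : Real.exp (-(Real.log 2) * (k + 1)) = (1 / 2 : ℝ) ^ (k + 1) := by
      rw [show -(Real.log 2) * ((k : ℝ) + 1) = ((k + 1 : ℕ) : ℝ) * (-(Real.log 2)) by
        push_cast; ring, Real.exp_nat_mul, Real.exp_neg, Real.exp_log (by norm_num)]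
      norm_num
    rw [this, pow_succ]; ring
  rw [e1, show Z * (2 * Real.exp (-(Real.log 2) * (k + 1)))
    = 2 * Z * Real.exp (-(Real.log 2) * (k + 1)) by ring]
  refine mul_le_mul_of_nonneg_left (Real.exp_le_exp.mpr ?_) (by positivity)
  have hl : 0 < Real.log 2 := Real.log_pos (by norm_num)
  have he := eucl_le (x : ℤ × ℤ) (y : ℤ × ℤ)
  have h5 : Real.log 2 / (2 * ((R : ℝ) + 2)) *
      Real.sqrt ((((x : ℤ × ℤ).1 - (y : ℤ × ℤ).1 : ℤ) : ℝ) ^ 2 +
        (((x : ℤ × ℤ).2 - (y : ℤ × ℤ).2 : ℤ) : ℝ) ^ 2) ≤ Real.log 2 * (k + 1) := by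
    calc _ ≤ Real.log 2 / (2 * ((R : ℝ) + 2)) * (2 * (sd x y : ℝ)) :=
          mul_le_mul_of_nonneg_left he (by positivity)
      _ ≤ Real.log 2 / (2 * ((R : ℝ) + 2)) * (2 * (((k : ℝ) + 1) * (R + 2))) :=
          mul_le_mul_of_nonneg_left (by linarith) (by positivity)
      _ = Real.log 2 * (k + 1) := by field_simp
  linarith

/-- the sup-norm shell at distance `R+1`. -/
def shell (V : Finset (ℤ × ℤ)) (x : ℤ × ℤ) (R : ℕ) : Finset V :=
  Finset.univ.filter fun u : V => sd u x = R + 1

lemma mem_shell (V : Finset (ℤ × ℤ)) (x : ℤ × ℤ) (R : ℕ) (u : V) :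
    u ∈ shell V x R ↔ sd u x = R + 1 := by
  unfold shell
  constructor
  · intro hu; exact (Finset.mem_filter.mp hu).2
  · intro hu; exact Finset.mem_filter.mpr ⟨Finset.mem_univ _, hu⟩

lemma card_shell (V : Finset (ℤ × ℤ)) (x : ℤ × ℤ) (R : ℕ) :
    (shell V x R).card ≤ 8 * (R + 1) := by
  classical
  let big : Finset (ℤ × ℤ) := Finset.Icc (x.1 - (R + 1)) (x.1 + (R + 1)) ×ˢ
    Finset.Icc (x.2 - (R + 1)) (x.2 + (R + 1))
  let small : Finset (ℤ × ℤ) := Finset.Icc (x.1 - R) (x.1 + R) ×ˢ Finset.Icc (x.2 - R) (x.2 + R)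
  have hsub : small ⊆ big := by
    intro p hp
    simp only [small, big, Finset.mem_product, Finset.mem_Icc] at hp ⊢
    omega
  have hbig : big.card = (2 * R + 3) * (2 * R + 3) := by
    simp only [big, Finset.card_product, Int.card_Icc]
    congr 1 <;> omega
  have hsmall : small.card = (2 * R + 1) * (2 * R + 1) := by
    simp only [small, Finset.card_product, Int.card_Icc]
    congr 1 <;> omega
  have hmap : ((shell V x R).map (Function.Embedding.subtype _)) ⊆ big \ small := by
    intro p hp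
    simp only [Finset.mem_map, Function.Embedding.coe_subtype] at hp
    obtain ⟨u, hu, rfl⟩ := hp
    have hu' : sd u x = R + 1 := (mem_shell V x R u).mp hu
    unfold sd at hu'
    simp only [Finset.mem_sdiff, small, big, Finset.mem_product, Finset.mem_Icc]
    have h1 : |(u : ℤ × ℤ).1 - x.1| ≤ R + 1 := by rw [← hu']; exact le_max_left _ _
    have h2 : |(u : ℤ × ℤ).2 - x.2| ≤ R + 1 := by rw [← hu']; exact le_max_right _ _
    rw [abs_le] at h1 h2
    refine ⟨⟨⟨by linarith, by linarith⟩, ⟨by linarith, by linarith⟩⟩, ?_⟩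
    rintro ⟨⟨a1, a2⟩, a3, a4⟩
    have h3 : max |(u : ℤ × ℤ).1 - x.1| |(u : ℤ × ℤ).2 - x.2| ≤ R :=
      max_le (abs_le.mpr ⟨by linarith, by linarith⟩) (abs_le.mpr ⟨by linarith, by linarith⟩)
    linarith
  have hc := Finset.card_le_card hmap
  rw [Finset.card_map, Finset.card_sdiff_of_subset hsub, hbig, hsmall] at hc
  refine hc.trans ?_
  have : (2 * R + 3) * (2 * R + 3) = (2 * R + 1) * (2 * R + 1) + 8 * (R + 1) := by ring
  omega

lemma sd_dir (u : ℤ × ℤ) (i : Fin 2) : sd u (u + latticeDir i) = 1 := by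
  unfold sd latticeDir
  split_ifs <;> simp

/-- (b1) the sum over the shell. -/
theorem shell_sum (V : Finset (ℤ × ℤ)) (b : ℤ × ℤ → Fin 2 → ℝ) (β : ℝ)
    (hb : ∀ u i, 0 ≤ b u i ∧ b u i ≤ β) (x : V) (R : ℕ) (D M : ℝ) (hD : 0 ≤ D) (hM : 0 ≤ M)
    (h : V → ℝ) (h0 : ∀ u, 0 ≤ h u) (hM' : ∀ u ∈ bx V x (R + 2), h u ≤ M) (c : V → ℝ)
    (hc0 : ∀ z, 0 ≤ c z) (hc : ∀ z, c z ≤ D)
    (hcs : ∀ z, c z ≠ 0 → z ∈ bx V x (R + 1) ∧ z ∉ bx V x R) :
    ∑ z, c z * ∑ e, (latG V b).b e * ((if (latG V b).src e = z then h ((latG V b).tgt e) else 0)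
        + (if (latG V b).tgt e = z then h ((latG V b).src e) else 0))
      ≤ 32 * β * (R + 1) * D * M := by
  classical
  have hβ : 0 ≤ β := (hb 0 0).1.trans (hb 0 0).2
  set T : V → ℝ := fun z => ∑ e, (latG V b).b e *
    ((if (latG V b).src e = z then h ((latG V b).tgt e) else 0)
        + (if (latG V b).tgt e = z then h ((latG V b).src e) else 0)) with hT
  -- the inner sum
  have hTle : ∀ z ∈ bx V x (R + 1), T z ≤ 4 * (β * M) := by
    intro z hz
    rw [mem_bx_iff] at hz
    have hterm : ∀ e : V × Fin 2, (latG V b).b e *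
        ((if (latG V b).src e = z then h ((latG V b).tgt e) else 0)
        + (if (latG V b).tgt e = z then h ((latG V b).src e) else 0))
        ≤ (β * M) * ((if e.1 = z then 1 else 0)
          + (if (e.1 : ℤ × ℤ) + latticeDir e.2 = (z : ℤ × ℤ) then 1 else 0)) := by
      intro e
      by_cases he : (e.1 : ℤ × ℤ) + latticeDir e.2 ∈ V
      · have hbe : (latG V b).b e = b e.1 e.2 := by simp [latG, he]
        have hte : (latG V b).tgt e = ⟨(e.1 : ℤ × ℤ) + latticeDir e.2, he⟩ := by simp [latG, he]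
        have hse : (latG V b).src e = e.1 := rfl
        rw [hbe, hte, hse, mul_add, mul_add]
        have hb' := hb e.1 e.2
        refine add_le_add ?_ ?_
        · by_cases h1 : e.1 = z
          · rw [if_pos h1, if_pos h1, mul_one]
            refine mul_le_mul hb'.2 (hM' _ ?_) (h0 _) hβ
            rw [mem_bx_iff]
            have h3 := sd_triangle ((e.1 : ℤ × ℤ) + latticeDir e.2) e.1 x
            rw [sd_comm _ (e.1 : ℤ × ℤ), sd_dir, h1] at h3
            push_cast at hz ⊢
            have h4 : sd ((e.1 : ℤ × ℤ) + latticeDir e.2) x ≤ (R : ℤ) + 2 := by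
              rw [h1]; linarith
            exact h4
          · rw [if_neg h1, if_neg h1]
            simp
        · by_cases h1 : (e.1 : ℤ × ℤ) + latticeDir e.2 = (z : ℤ × ℤ)
          · have h2 : (⟨(e.1 : ℤ × ℤ) + latticeDir e.2, he⟩ : V) = z := Subtype.ext h1
            rw [if_pos h2, if_pos h1, mul_one]
            refine mul_le_mul hb'.2 (hM' _ ?_) (h0 _) hβ
            rw [mem_bx_iff]
            have h3 := sd_triangle (e.1 : ℤ × ℤ) ((e.1 : ℤ × ℤ) + latticeDir e.2) x
            rw [sd_dir, h1] at h3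
            push_cast at hz ⊢
            linarith
          · have h2 : ¬ (⟨(e.1 : ℤ × ℤ) + latticeDir e.2, he⟩ : V) = z :=
              fun h2 => h1 (congrArg Subtype.val h2)
            rw [if_neg h2, if_neg h1]
            simp
      · have hbe : (latG V b).b e = 0 := by simp [latG, he]
        rw [hbe, zero_mul]
        refine mul_nonneg (mul_nonneg hβ hM) (add_nonneg ?_ ?_) <;> split_ifs <;> norm_num
    calc T z ≤ ∑ e : V × Fin 2, (β * M) * ((if e.1 = z then 1 else 0)
          + (if (e.1 : ℤ × ℤ) + latticeDir e.2 = (z : ℤ × ℤ) then 1 else 0)) :=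
          Finset.sum_le_sum fun e _ => hterm e
      _ = (β * M) * (∑ e : V × Fin 2, (if e.1 = z then (1 : ℝ) else 0)
          + ∑ e : V × Fin 2,
            (if (e.1 : ℤ × ℤ) + latticeDir e.2 = (z : ℤ × ℤ) then (1 : ℝ) else 0)) := by
          rw [← Finset.mul_sum, Finset.sum_add_distrib]
      _ ≤ (β * M) * (2 + 2) := by
          refine mul_le_mul_of_nonneg_left (add_le_add ?_ ?_) (mul_nonneg hβ hM)
          · rw [Fintype.sum_prod_type_right]
            simp
          · rw [Fintype.sum_prod_type_right]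
            have h5 : ∀ i : Fin 2, ∑ u : V,
                (if (u : ℤ × ℤ) + latticeDir i = (z : ℤ × ℤ) then (1 : ℝ) else 0) ≤ 1 := by
              intro i
              rw [Finset.sum_boole]
              have : (Finset.univ.filter fun u : V =>
                  (u : ℤ × ℤ) + latticeDir i = (z : ℤ × ℤ)).card ≤ 1 := by
                rw [Finset.card_le_one]
                intro u hu w hw
                have hu' := (Finset.mem_filter.mp hu).2
                have hw' := (Finset.mem_filter.mp hw).2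
                exact Subtype.ext (add_right_cancel (hu'.trans hw'.symm))
              exact_mod_cast this
            calc _ ≤ ∑ _i : Fin 2, (1 : ℝ) := Finset.sum_le_sum fun i _ => h5 i
              _ = 2 := by simp
      _ = 4 * (β * M) := by ring
  have hz0 : ∀ z, z ∉ shell V x R → c z = 0 := by
    intro z hz
    by_contra hne
    obtain ⟨ha, hb'⟩ := hcs z hne
    rw [mem_bx_iff] at ha hb'
    apply hz
    rw [mem_shell]
    push_cast at ha
    omega
  calc ∑ z, c z * T z = ∑ z ∈ shell V x R, c z * T z := by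
        symm
        apply Finset.sum_subset (Finset.subset_univ _)
        intro z _ hz
        rw [hz0 z hz, zero_mul]
    _ ≤ ∑ _z ∈ shell V x R, D * (4 * (β * M)) := by
        refine Finset.sum_le_sum fun z hz => ?_
        have hz' := (mem_shell V x R z).mp hz
        have h6 : z ∈ bx V x (R + 1) := by
          rw [mem_bx_iff]; push_cast; exact hz'.le
        by_cases hT0 : 0 ≤ T z
        · exact mul_le_mul (hc z) (hTle z h6) hT0 hD
        · push Not at hT0
          have h7 : c z * T z ≤ 0 := mul_nonpos_of_nonneg_of_nonpos (hc0 z) hT0.le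
          have h8 : 0 ≤ D * (4 * (β * M)) := by positivity
          linarith
    _ = (shell V x R).card * (D * (4 * (β * M))) := by rw [Finset.sum_const, nsmul_eq_mul]
    _ ≤ (8 * ((R : ℝ) + 1)) * (D * (4 * (β * M))) :=
        mul_le_mul_of_nonneg_right (by exact_mod_cast card_shell V x R) (by positivity)
    _ = 32 * β * (R + 1) * D * M := by ring

/-! ### the link -/

lemma interaction_eq (n : ℕ) (V : Finset (ℤ × ℤ)) (b : ℤ × ℤ → Fin 2 → ℝ) (σ : Cf V n) :
    interaction n V b σ = (latG V b).I σ := by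
  unfold interaction Gr.I
  rw [Fintype.sum_prod_type]
  refine Finset.sum_congr rfl fun u _ => Finset.sum_congr rfl fun i _ => ?_
  by_cases h : (u : ℤ × ℤ) + latticeDir i ∈ V
  · simp [latG, h]
  · simp [latG, h]

lemma toSphere_ne_zero {n : ℕ} (hn : 1 ≤ n) :
    ((volume : Measure (EuclideanSpace ℝ (Fin n))).toSphere Set.univ) ≠ 0 := by
  have : Nonempty (Fin n) := ⟨⟨0, hn⟩⟩
  rw [Measure.toSphere_apply_univ]
  refine mul_ne_zero ?_ ?_
  · rw [finrank_euclideanSpace, Fintype.card_fin]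
    exact_mod_cast (by omega : n ≠ 0)
  · exact (Metric.measure_ball_pos _ _ one_pos).ne'

lemma toSphere_ne_top (n : ℕ) :
    ((volume : Measure (EuclideanSpace ℝ (Fin n))).toSphere Set.univ) ≠ ⊤ := measure_ne_top _ _

/-- the normalised product measure is a multiple of the frozen reference law. -/
lemma nu_eq {n : ℕ} (hn : 1 ≤ n) (V : Finset (ℤ × ℤ)) :
    nu V n = ((((volume : Measure (EuclideanSpace ℝ (Fin n))).toSphere Set.univ)⁻¹) ^
      (Fintype.card V)) • referenceLaw n V := by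
  set c : ENNReal := (((volume : Measure (EuclideanSpace ℝ (Fin n))).toSphere Set.univ)⁻¹) with hc
  have hctop : c ≠ ⊤ := ENNReal.inv_ne_top.mpr (toSphere_ne_zero hn)
  have hfin : IsFiniteMeasure (unif n) := by
    unfold unif
    rw [← hc]
    exact Measure.smul_finite _ hctop
  unfold nu referenceLaw
  refine Measure.pi_eq fun s hs => ?_
  rw [Measure.smul_apply, Measure.pi_pi, smul_eq_mul]
  unfold unif
  rw [← hc]
  simp only [Measure.smul_apply, smul_eq_mul]
  rw [Finset.prod_mul_distrib, Finset.prod_const, Finset.card_univ]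

/-- (a) the link. -/
theorem twoPoint_eq {n : ℕ} (hn : 1 ≤ n) (V : Finset (ℤ × ℤ)) (b : ℤ × ℤ → Fin 2 → ℝ) (x y : V) :
    twoPoint n V b x y = (∑ i : Fin n, ∫ s : Cf V n, ((s x : EuclideanSpace ℝ (Fin n)) i *
        (s y : EuclideanSpace ℝ (Fin n)) i) * Real.exp ((latG V b).I s) ∂(nu V n)) /
      ∫ s : Cf V n, Real.exp ((latG V b).I s) ∂(nu V n) := by
  set c : ENNReal := (((volume : Measure (EuclideanSpace ℝ (Fin n))).toSphere Set.univ)⁻¹) ^
      (Fintype.card V) with hc
  have hc0 : c ≠ 0 := pow_ne_zero _ (ENNReal.inv_ne_zero.mpr (toSphere_ne_top n))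
  have hctop : c ≠ ⊤ := ENNReal.pow_ne_top (ENNReal.inv_ne_top.mpr (toSphere_ne_zero hn))
  have hcr : 0 < c.toReal := ENNReal.toReal_pos hc0 hctop
  have hI : Continuous fun s : Cf V n => Real.exp ((latG V b).I s) := by
    refine Real.continuous_exp.comp ?_
    unfold Gr.I
    refine continuous_finsetSum _ fun e _ => continuous_const.mul ?_
    exact (continuous_subtype_val.comp (continuous_apply _)).inner
      (continuous_subtype_val.comp (continuous_apply _))
  have : IsFiniteMeasure (referenceLaw n V) := by unfold referenceLaw; infer_instance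
  rw [nu_eq hn V, ← hc]
  simp only [integral_smul_measure, smul_eq_mul]
  rw [← Finset.mul_sum, mul_div_mul_left _ _ hcr.ne']
  unfold twoPoint partitionFn
  simp only [interaction_eq]
  congr 1
  rw [← integral_finsetSum]
  · refine integral_congr_ae (Filter.Eventually.of_forall fun s => ?_)
    simp only
    rw [← Finset.sum_mul]
    congr 1
    simp [PiLp.inner_apply, mul_comm]
  · intro i _
    refine Continuous.integrable_of_hasCompactSupport ?_ (HasCompactSupport.of_compactSpace _)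
    refine Continuous.mul (Continuous.mul ?_ ?_) hI
    · have h1 : Continuous (fun z : EuclideanSpace ℝ (Fin n) => z i) := by fun_prop
      exact h1.comp (continuous_subtype_val.comp (continuous_apply _))
    · have h1 : Continuous (fun z : EuclideanSpace ℝ (Fin n) => z i) := by fun_prop
      exact h1.comp (continuous_subtype_val.comp (continuous_apply _))

end Crest.Agent.R167.PDLat
end

-- ▼ part R167/PartD
section

/-! Row 167, Part D: assembly. -/

set_option autoImplicit false
set_option linter.unusedSectionVars false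

namespace Crest.Agent.R167

namespace D
open MeasureTheory Crest.Agent.R167 Crest.Agent.R167.Ising Finset Crest.ProbabilityR.SpinModel

variable {n : ℕ}

lemma abs_P_le_of_small {V : Finset (ℤ × ℤ)} {b : ℤ × ℤ → Fin 2 → ℝ} {R : ℕ} {ε : ℝ} {x : V}
    {k : Fin n} {s : Cf V n}
    (h : |P (latG V b) (bx V x R)ᶜ (co k x) s| * (R + 1) ≤ ε) :
    |P (latG V b) (bx V x R)ᶜ (co k x) s| ≤ ε / (R + 1) := by
  rw [le_div_iff₀ (by positivity)]
  exact h

/-- one-step contraction. -/
theorem step [NeZero n] (V : Finset (ℤ × ℤ)) (b : ℤ × ℤ → Fin 2 → ℝ) (β : ℝ) (hβ : 0 < β)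
    (hb : ∀ u i, 0 ≤ b u i ∧ b u i ≤ β) (R : ℕ) (i : Fin n)
    (hsm : ∀ (x : V) (s : Cf V n), |P (latG V b) (bx V x R)ᶜ (co i x) s| * (R + 1) ≤ 1 / (64 * β))
    (x y : V) (M : ℝ) (hM : 0 ≤ M) (hy : y ∉ bx V x (R + 1))
    (hu : ∀ u ∈ bx V x (R + 2), H (latG V b) i u y ≤ M) : H (latG V b) i x y ≤ M / 2 := by
  classical
  have hn : 1 ≤ n := Nat.one_le_iff_ne_zero.mpr (NeZero.ne n)
  set G := latG V b with hG
  have hb0 : ∀ e, 0 ≤ G.b e := latG_b_nonneg V b (fun u i => (hb u i).1)
  set A : Set V := (bx V x R)ᶜ with hA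
  set g : Cf V n → ℝ := P G A (co i x) with hg
  set D : ℝ := (1 / (64 * β)) / (R + 1) with hD
  have hD0 : 0 ≤ D := by positivity
  have hgc : Continuous g := continuous_P G (continuous_co i x)
  have hgD : ∀ s, |g s| ≤ D := fun s => abs_P_le_of_small (hsm x s)
  have hmono : ∀ {r q : ℕ}, r ≤ q → bx V x r ⊆ bx V x q := by
    intro r q hrq v hv
    have h1 : |(v : ℤ × ℤ).1 - (x : ℤ × ℤ).1| ≤ r ∧ |(v : ℤ × ℤ).2 - (x : ℤ × ℤ).2| ≤ r := hv
    have h2 : (r : ℤ) ≤ q := by exact_mod_cast hrq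
    exact ⟨h1.1.trans h2, h1.2.trans h2⟩
  have hyA : y ∈ A := fun h => hy (hmono (by omega) h)
  set c : V → ℝ := fun z => if z ∈ bx V x (R + 1) ∧ z ∉ bx V x R then D else 0 with hc
  have hcy : c y = 0 := by
    rw [hc]; simp only
    rw [if_neg]
    exact fun h => hy h.1
  have hinf : ∀ (s : Cf V n) (u : V), |g s - g (act i (flip {u}) s)| ≤ 2 * c u := by
    intro s u
    by_cases hsh : u ∈ bx V x (R + 1) ∧ u ∉ bx V x R
    · have : c u = D := by rw [hc]; simp only; rw [if_pos hsh]
      rw [this]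
      calc |g s - g (act i (flip {u}) s)| ≤ |g s| + |g (act i (flip {u}) s)| := abs_sub _ _
        _ ≤ D + D := add_le_add (hgD _) (hgD _)
        _ = 2 * D := by ring
    · have hcu : c u = 0 := by rw [hc]; simp only; rw [if_neg hsh]
      have hst : ∀ v, v ≠ u → s v = act i (flip {u}) s v := by
        intro v hv
        have h1 : Ising.flip {u} v = 1 := by simp [Ising.flip, hv]
        show s v = sg i (Ising.flip {u} v) (s v)
        rw [h1]; simp [sg]
      have heq : g s = g (act i (flip {u}) s) := by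
        by_cases huB : u ∈ bx V x R
        · refine dep_P G A (co i x) s _ (fun v hv => hst v ?_)
          rintro rfl; exact hv huB
        · have huB1 : u ∉ bx V x (R + 1) := fun h => hsh ⟨h, huB⟩
          refine P_local G A (co i x) u (dep_co i x _ ?_) ?_ s _ hst
          · rintro rfl
            exact huB1 ⟨by simp; positivity, by simp; positivity⟩
          · intro e he hue
            obtain ⟨ha1, ha2⟩ := latG_adj V b e he
            have hcast : ((R + 1 : ℕ) : ℤ) = (R : ℤ) + 1 := by push_cast; ring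
            rcases hue with h | h
            · refine ⟨by rw [h]; exact huB, fun hcon => huB1 ?_⟩
              change (latG V b).src e = u at h
              rw [h] at ha1 ha2
              obtain ⟨hc1, hc2⟩ : |(((latG V b).tgt e : V) : ℤ × ℤ).1 - (x : ℤ × ℤ).1| ≤ R ∧
                |(((latG V b).tgt e : V) : ℤ × ℤ).2 - (x : ℤ × ℤ).2| ≤ R := hcon
              rw [abs_le] at ha1 ha2 hc1 hc2
              refine ⟨?_, ?_⟩
              · rw [hcast, abs_le]; constructor <;> linarith [ha1.1, ha1.2, hc1.1, hc1.2]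
              · rw [hcast, abs_le]; constructor <;> linarith [ha2.1, ha2.2, hc2.1, hc2.2]
            · refine ⟨fun hcon => huB1 ?_, by rw [h]; exact huB⟩
              change (latG V b).tgt e = u at h
              rw [h] at ha1 ha2
              obtain ⟨hc1, hc2⟩ : |(((latG V b).src e : V) : ℤ × ℤ).1 - (x : ℤ × ℤ).1| ≤ R ∧
                |(((latG V b).src e : V) : ℤ × ℤ).2 - (x : ℤ × ℤ).2| ≤ R := hcon
              rw [abs_le] at ha1 ha2 hc1 hc2
              refine ⟨?_, ?_⟩
              · rw [hcast, abs_le]; constructor <;> linarith [ha1.1, ha1.2, hc1.1, hc1.2]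
              · rw [hcast, abs_le]; constructor <;> linarith [ha2.1, ha2.2, hc2.1, hc2.2]
      rw [hcu, heq]; simp
  have hcore := core hn G hb0 (latG_loop V b) i y g hgc c hinf hcy
  have hshell := PDLat.shell_sum V b β hb x R D M hD0 hM (fun u => H G i u y)
    (fun u => H_nonneg hn G hb0 i u y) hu c
    (fun z => by rw [hc]; simp only; split_ifs; exacts [hD0, le_rfl])
    (fun z => by rw [hc]; simp only; split_ifs; exacts [le_rfl, hD0])
    (fun z hz => by
      by_contra hcon
      apply hz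
      rw [hc]; simp only; rw [if_neg hcon])
  have h1 : H G i x y = ∫ s, (co i y s * g s) * Real.exp (G.I s) ∂(nu V n) := by
    rw [← tower G A i y hyA (co i x) (continuous_co i x)]
    unfold H
    refine integral_congr_ae (Filter.Eventually.of_forall fun s => ?_)
    simp only
    ring
  rw [h1]
  refine (le_abs_self _).trans (hcore.trans (hshell.trans ?_))
  rw [hD]
  have hR : (0:ℝ) < R + 1 := by positivity
  have : 32 * β * ((R:ℝ) + 1) * (1 / (64 * β) / (R + 1)) * M = M / 2 := by
    field_simp; ring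
  exact this.le

end D

open D MeasureTheory Crest.ProbabilityR.SpinModel in
theorem partD : PartD := by
  intro n hn β hβ hsm
  have : NeZero n := ⟨by omega⟩
  have hn1 : 1 ≤ n := by omega
  obtain ⟨R, hR⟩ := hsm (1 / (64 * β)) (by positivity)
  refine ⟨2 * n, Real.log 2 / (2 * ((R:ℝ) + 2)), by positivity, ?_⟩
  intro V b hb x y
  have hb0 : ∀ e, 0 ≤ (latG V b).b e := latG_b_nonneg V b (fun u i => (hb u i).1)
  set Z : ℝ := ∫ s : Cf V n, Real.exp ((latG V b).I s) ∂(nu V n) with hZ
  have hZ0 : 0 < Z := Z_pos (latG V b)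
  have htp : twoPoint n V b x y = (∑ i : Fin n, H (latG V b) i x y) / Z := PDLat.twoPoint_eq hn1 V b x y
  rw [htp]
  refine ⟨div_nonneg (Finset.sum_nonneg fun i _ => H_nonneg hn1 _ hb0 i x y) hZ0.le, ?_⟩
  rw [div_le_iff₀ hZ0]
  have hH1 : ∀ (i : Fin n) (x y : V), H (latG V b) i x y ≤ Z := by
    intro i x y
    unfold H
    rw [hZ]
    have hcexp : Continuous (fun s : Cf V n => Real.exp ((latG V b).I s)) :=
      Real.continuous_exp.comp (D.continuous_I _)
    refine integral_mono (integ hn1 _ (((continuous_co i x).mul (continuous_co i y)).mul hcexp))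
      (integ hn1 _ hcexp) (fun s => ?_)
    have h1 : co i x s * co i y s ≤ 1 := by
      have := abs_co_le i x s
      have h2 := abs_co_le i y s
      calc co i x s * co i y s ≤ |co i x s * co i y s| := le_abs_self _
        _ = |co i x s| * |co i y s| := abs_mul _ _
        _ ≤ 1 * 1 := mul_le_mul this h2 (abs_nonneg _) zero_le_one
        _ = 1 := by ring
    have := mul_le_mul_of_nonneg_right h1 (Real.exp_pos ((latG V b).I s)).le
    simpa using this
  have hkey : ∀ i : Fin n, H (latG V b) i x y ≤ 2 * Z * Real.exp (-(Real.log 2 / (2 * ((R:ℝ) + 2))) *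
      Real.sqrt ((((x : ℤ × ℤ).1 - (y : ℤ × ℤ).1 : ℤ) : ℝ) ^ 2 +
        (((x : ℤ × ℤ).2 - (y : ℤ × ℤ).2 : ℤ) : ℝ) ^ 2)) := by
    intro i
    refine PDLat.iterate V R (fun x y => H (latG V b) i x y) Z hZ0.le (hH1 i) ?_ x y
    intro x y M hM hy hu
    exact step V b β hβ hb R i (fun x s => hR V b hb x i s) x y M hM hy hu
  calc ∑ i : Fin n, H (latG V b) i x y
      ≤ ∑ i : Fin n, 2 * Z * Real.exp (-(Real.log 2 / (2 * ((R:ℝ) + 2))) *
      Real.sqrt ((((x : ℤ × ℤ).1 - (y : ℤ × ℤ).1 : ℤ) : ℝ) ^ 2 +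
        (((x : ℤ × ℤ).2 - (y : ℤ × ℤ).2 : ℤ) : ℝ) ^ 2)) := Finset.sum_le_sum fun i _ => hkey i
    _ = _ := by
      rw [Finset.sum_const, Finset.card_univ, Fintype.card_fin, nsmul_eq_mul]; ring

end Crest.Agent.R167
end

-- ▼ part R167/Odd
section

set_option autoImplicit false
open MeasureTheory Crest.ProbabilityR.SpinModel

/-! # Row 167, node ODD: the smallness of the torque gives the contraction of odd functions

Author: helper206 (proof by helper867). For `u` continuous, odd and depending only on the spins in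
`B_R`, the function `U(s) = ∫_0^π u(Φ_t s) dt` has derivative `u ∘ Φ_π - u = -2 u` along the flow,
so the Ward identity gives `2 E u = E (U · X_f I) = E (U · P_S X_f I)`. -/

namespace Crest.Agent.R167

set_option linter.unusedSectionVars false
set_option linter.style.haveILetI false
set_option maxHeartbeats 200000

variable {ι E : Type} [Fintype ι] [Fintype E] {n : ℕ}

theorem Odd.phi_eq_one {R : ℕ} (hR : 1 ≤ R) {t : ℤ} (ht : |t| ≤ R) : phi R t = 1 := by
  have hR' : (0 : ℝ) < R := by exact_mod_cast hR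
  have h1 : |(t : ℝ)| ≤ R := by exact_mod_cast ht
  have h2 : |(t : ℝ)| / R ≤ 1 := by rw [div_le_one hR']; exact h1
  unfold phi
  rw [min_eq_left (by linarith), max_eq_right zero_le_one]

theorem Odd.phi_eq_zero {R : ℕ} (hR : 1 ≤ R) {t : ℤ} (ht : ((4 * R : ℕ) : ℤ) < |t|) :
    phi R t = 0 := by
  have hR' : (0 : ℝ) < R := by exact_mod_cast hR
  have h0 : ((4 * R : ℕ) : ℤ) ≤ |t| := ht.le
  have h1 : 4 * (R : ℝ) ≤ |(t : ℝ)| := by exact_mod_cast h0
  have h2 : 4 ≤ |(t : ℝ)| / R := by rw [le_div_iff₀ hR']; exact h1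
  unfold phi
  rw [min_eq_right (by linarith), max_eq_left (by linarith)]

theorem Odd.cut_eq_one {V : Finset (ℤ × ℤ)} {x : ℤ × ℤ} {R : ℕ} (hR : 1 ≤ R) {v : V}
    (hv : v ∈ bx V x R) : rs V (cut x R) v = 1 := by
  obtain ⟨h1, h2⟩ := hv
  simp only [rs, cut]
  rw [Odd.phi_eq_one hR h1, Odd.phi_eq_one hR h2, one_mul]

theorem Odd.cut_eq_zero {V : Finset (ℤ × ℤ)} {x : ℤ × ℤ} {R : ℕ} (hR : 1 ≤ R) {v : V}
    (hv : v ∈ (bx V x (4 * R))ᶜ) : rs V (cut x R) v = 0 := by
  have hv' : ¬(|(v : ℤ × ℤ).1 - x.1| ≤ ((4 * R : ℕ) : ℤ) ∧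
      |(v : ℤ × ℤ).2 - x.2| ≤ ((4 * R : ℕ) : ℤ)) := hv
  simp only [rs, cut]
  rw [not_and_or] at hv'
  rcases hv' with h | h
  · rw [Odd.phi_eq_zero hR (lt_of_not_ge h), zero_mul]
  · rw [Odd.phi_eq_zero hR (lt_of_not_ge h), mul_zero]

/-- the primitive of `u` along the flow. -/
noncomputable def Odd.prim {k l : Fin n} (h : k ≠ l) (f : ι → ℝ) (u : Cf ι n → ℝ) (s : Cf ι n) : ℝ :=
  ∫ t in (0 : ℝ)..Real.pi, u (Flow h f t s)

theorem Odd.continuous_prim {k l : Fin n} (h : k ≠ l) (f : ι → ℝ) {u : Cf ι n → ℝ}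
    (hu : Continuous u) : Continuous (Odd.prim h f u) := by
  have h0 : Continuous fun p : Cf ι n × ℝ => (p.2, p.1) :=
    continuous_snd.prodMk continuous_fst
  have h1 : Continuous fun p : Cf ι n × ℝ => Flow h f p.2 p.1 :=
    Continuous.comp (g := fun p : ℝ × Cf ι n => Flow h f p.1 p.2)
      (f := fun p : Cf ι n × ℝ => (p.2, p.1)) (continuous_Flow h f) h0
  have h2 : Continuous (Function.uncurry fun (s : Cf ι n) (t : ℝ) => u (Flow h f t s)) :=
    Continuous.comp (g := u) (f := fun p : Cf ι n × ℝ => Flow h f p.2 p.1) hu h1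
  exact intervalIntegral.continuous_parametric_intervalIntegral_of_continuous' h2 0 Real.pi

theorem Odd.abs_prim_le {k l : Fin n} (h : k ≠ l) (f : ι → ℝ) {u : Cf ι n → ℝ} {M : ℝ}
    (hM : ∀ s, |u s| ≤ M) (s : Cf ι n) : |Odd.prim h f u s| ≤ M * Real.pi := by
  unfold Odd.prim
  have h1 := intervalIntegral.norm_integral_le_of_norm_le_const (a := (0 : ℝ)) (b := Real.pi)
    (f := fun t => u (Flow h f t s)) (C := M) (fun t _ => hM _)
  rw [sub_zero, abs_of_pos Real.pi_pos] at h1
  exact h1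

theorem Odd.DX_prim {k l : Fin n} (h : k ≠ l) (f : ι → ℝ) {u : Cf ι n → ℝ} (hu : Continuous u) :
    DX h f (Odd.prim h f u) (fun s => u (Flow h f Real.pi s) - u s) := by
  have hc : ∀ s, Continuous fun t : ℝ => u (Flow h f t s) := fun s => by
    have h0 : Continuous fun t : ℝ => (t, s) := continuous_id.prodMk continuous_const
    have h1 : Continuous fun t : ℝ => Flow h f t s :=
      Continuous.comp (g := fun p : ℝ × Cf ι n => Flow h f p.1 p.2)
        (f := fun t : ℝ => (t, s)) (continuous_Flow h f) h0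
    exact Continuous.comp (g := u) (f := fun t : ℝ => Flow h f t s) hu h1
  refine ⟨Odd.continuous_prim h f hu, ?_, fun s => ?_⟩
  · have h0 : Continuous fun s : Cf ι n => (Real.pi, s) := continuous_const.prodMk continuous_id
    have hF : Continuous fun s : Cf ι n => Flow h f Real.pi s :=
      Continuous.comp (g := fun p : ℝ × Cf ι n => Flow h f p.1 p.2)
        (f := fun s : Cf ι n => (Real.pi, s)) (continuous_Flow h f) h0
    exact c_sub (Continuous.comp (g := u) (f := fun s : Cf ι n => Flow h f Real.pi s) hu hF) hu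
  · have h1 : (fun t => Odd.prim h f u (Flow h f t s))
        = fun t => (∫ r in (0 : ℝ)..(Real.pi + t), u (Flow h f r s))
          - ∫ r in (0 : ℝ)..t, u (Flow h f r s) := by
      funext t
      unfold Odd.prim
      have e1 : (∫ r in (0 : ℝ)..Real.pi, u (Flow h f r (Flow h f t s)))
          = ∫ r in (0 : ℝ)..Real.pi, u (Flow h f (r + t) s) := by
        refine intervalIntegral.integral_congr fun r _ => ?_
        simp only [Flow_add]
      rw [e1, intervalIntegral.integral_comp_add_right (fun r => u (Flow h f r s)) t, zero_add]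
      rw [intervalIntegral.integral_interval_sub_left ((hc s).intervalIntegrable _ _)
        ((hc s).intervalIntegrable _ _)]
    rw [h1]
    have h2 : HasDerivAt (fun t => ∫ r in (0 : ℝ)..t, u (Flow h f r s)) (u (Flow h f 0 s)) 0 :=
      intervalIntegral.integral_hasDerivAt_right ((hc s).intervalIntegrable _ _)
        ((hc s).stronglyMeasurableAtFilter _ _) (hc s).continuousAt
    have h3 : HasDerivAt (fun t => ∫ r in (0 : ℝ)..t, u (Flow h f r s))
        (u (Flow h f Real.pi s)) (Real.pi + 0) := by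
      rw [add_zero]
      exact intervalIntegral.integral_hasDerivAt_right ((hc s).intervalIntegrable _ _)
        ((hc s).stronglyMeasurableAtFilter _ _) (hc s).continuousAt
    have h4 : HasDerivAt (fun t : ℝ => Real.pi + t) 1 0 := by
      simpa using (hasDerivAt_id (0 : ℝ)).const_add Real.pi
    have h5 := h3.comp 0 h4
    rw [mul_one] at h5
    rw [Flow_zero] at h2
    exact h5.sub h2

theorem Odd.dep_prim {k l : Fin n} (h : k ≠ l) (f : ι → ℝ) {u : Cf ι n → ℝ} {A : Set ι}
    (hd : Dep A u) : Dep A (Odd.prim h f u) := by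
  intro s t hst
  unfold Odd.prim
  refine intervalIntegral.integral_congr fun r _ => ?_
  refine hd _ _ fun v hv => ?_
  simp only [Flow, hst v hv]

/-- the estimate for one odd function. -/
theorem Odd.odd_bound [NeZero n] (G : Gr ι E) {k l : Fin n} (h : k ≠ l) {f : ι → ℝ} {F0 B : Set ι}
    (hf0 : ∀ v ∈ F0, f v = 0) (hf1 : ∀ v ∈ B, f v = 1) {u : Cf ι n → ℝ} {M : ℝ}
    (hu : Continuous u) (hd : Dep B u) (hodd : ∀ s, u (fun v => rotS h Real.pi (s v)) = -u s)
    (hM : ∀ s, |u s| ≤ M) {ε : ℝ} {τ : Cf ι n} (hK : KK G F0 (F0 ∪ B) k l f τ ≤ ε) :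
    |P G F0 u τ| ≤ Real.pi / 2 * M * Real.sqrt ε := by
  have hM0 : 0 ≤ M := (abs_nonneg _).trans (hM τ)
  -- derivative of the primitive
  have hD0 := Odd.DX_prim h f hu
  have hpi : ∀ s, u (Flow h f Real.pi s) = - u s := by
    intro s
    rw [← hodd s]
    refine hd _ _ fun v hv => ?_
    simp only [Flow, hf1 v hv, mul_one]
  have hD : DX h f (Odd.prim h f u) (fun s => -2 * u s) := by
    have : (fun s => u (Flow h f Real.pi s) - u s) = fun s => -2 * u s := by
      funext s; rw [hpi s]; ring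
    rwa [this] at hD0
  have hUc := Odd.continuous_prim h f hu
  -- continuity of `X_f I`
  have hXc : Continuous (XI G k l f : Cf ι n → ℝ) := continuous_XI G k l f
  have hw := ward G hf0 hD τ
  rw [P_add G (c_smul (-2) hu) (c_mul hUc hXc), P_const_mul] at hw
  -- conditioning on `S = F0 ∪ B`
  have hsub : F0 ⊆ F0 ∪ B := Set.subset_union_left
  have hUS : Dep (F0 ∪ B) (Odd.prim h f u) := by
    have := Odd.dep_prim h f hd
    intro s t hst
    exact this s t fun v hv => hst v (Or.inr hv)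
  have h1 : P G F0 (fun s => Odd.prim h f u s * XI G k l f s) τ
      = P G F0 (fun s => Odd.prim h f u s * P G (F0 ∪ B) (XI G k l f) s) τ := by
    rw [← P_tower G hsub (c_mul hUc hXc)]
    congr 1
    funext s
    exact P_mul_dep G hUS _ s
  have hPc : Continuous (P G (F0 ∪ B) (XI G k l f) : Cf ι n → ℝ) := continuous_P G hXc
  have h2 := P_abs_mul_le G (A := F0) hUc hPc τ
  have h3 : P G F0 (fun s => Odd.prim h f u s ^ 2) τ ≤ (M * Real.pi) ^ 2 := by
    have h31 := P_mono G (A := F0) (F := fun s => Odd.prim h f u s ^ 2)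
      (H := fun _ => (M * Real.pi) ^ 2) (c_sq hUc) continuous_const (fun s => by
        have := Odd.abs_prim_le h f hM s
        exact sq_le_sq' (by linarith [neg_abs_le (Odd.prim h f u s)])
          (by linarith [le_abs_self (Odd.prim h f u s)])) τ
    rwa [P_const] at h31
  have h4 : Real.sqrt (P G F0 (fun s => Odd.prim h f u s ^ 2) τ) ≤ M * Real.pi := by
    rw [← Real.sqrt_sq (mul_nonneg hM0 Real.pi_pos.le)]
    exact Real.sqrt_le_sqrt h3
  have h5 : Real.sqrt (P G F0 (fun s => P G (F0 ∪ B) (XI G k l f) s ^ 2) τ) ≤ Real.sqrt ε :=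
    Real.sqrt_le_sqrt hK
  have h6 : |P G F0 (fun s => Odd.prim h f u s * XI G k l f s) τ| ≤ M * Real.pi * Real.sqrt ε := by
    rw [h1]
    exact h2.trans (mul_le_mul h4 h5 (Real.sqrt_nonneg _) (mul_nonneg hM0 Real.pi_pos.le))
  have h7 : P G F0 u τ = P G F0 (fun s => Odd.prim h f u s * XI G k l f s) τ / 2 := by linarith
  rw [h7, abs_div, abs_two]
  have : M * Real.pi * Real.sqrt ε / 2 = Real.pi / 2 * M * Real.sqrt ε := by ring
  rw [← this]
  exact div_le_div_of_nonneg_right h6 (by norm_num)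

/-- NODE ODD. -/
theorem thmB_of (hA : AnnulusSmall) : ThmB := by
  intro n hn β δ hβ hδ
  haveI : NeZero n := ⟨by omega⟩
  have hε : 0 < (2 * δ / Real.pi) ^ 2 := by positivity
  obtain ⟨R0, hR0, hR⟩ := hA n hn β _ hβ hε
  refine ⟨R0, fun R hRR V b hb x k l h u M hu hd hodd hM s => ?_⟩
  have hR1 : 1 ≤ R := hR0.trans hRR
  have hK := hR R hRR V b hb x k l h s
  have := Odd.odd_bound (latG V b) h (fun v hv => Odd.cut_eq_zero hR1 hv) (fun v hv => Odd.cut_eq_one hR1 hv)
    hu hd hodd hM hK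
  rw [Real.sqrt_sq (by positivity)] at this
  refine this.trans (le_of_eq ?_)
  field_simp

end Crest.Agent.R167
end

-- ▼ part R167/Chain

set_option autoImplicit false
open MeasureTheory Crest.ProbabilityR.SpinModel

/-! # Row 167, NODE CHAIN: `StepProp → AnnulusSmall` -/

namespace Crest.Agent.R167

/-! ## the energy of the cut-off -/

lemma Chain.phi_nonneg (R : ℕ) (t : ℤ) : 0 ≤ phi R t := le_max_left _ _

lemma Chain.phi_le_one (R : ℕ) (t : ℤ) : phi R t ≤ 1 :=
  max_le (by norm_num) (min_le_left _ _)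

lemma Chain.phi_zero (R : ℕ) (hR : 1 ≤ R) (t : ℤ) (ht : (4 : ℤ) * R ≤ |t|) : phi R t = 0 := by
  have hR' : (0 : ℝ) < R := by exact_mod_cast hR
  have h1 : (4 : ℝ) * R ≤ |(t : ℝ)| := by exact_mod_cast ht
  have h2 : (4 : ℝ) ≤ |(t : ℝ)| / R := by rw [le_div_iff₀ hR']; exact h1
  unfold phi
  apply max_eq_left
  exact (min_le_right _ _).trans (by linarith)

lemma Chain.phi_step (R : ℕ) (hR : 1 ≤ R) (t t' : ℤ) (h : |t - t'| ≤ 1) :
    |phi R t - phi R t'| ≤ 1 / R := by
  have hR' : (0 : ℝ) < R := by exact_mod_cast hR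
  unfold phi
  have h1 : abs (|(t : ℝ)| - |(t' : ℝ)|) ≤ 1 := by
    refine (abs_abs_sub_abs_le _ _).trans ?_
    exact_mod_cast h
  calc |max 0 (min 1 (5 / 2 - |(t : ℝ)| / R)) - max 0 (min 1 (5 / 2 - |(t' : ℝ)| / R))|
      ≤ |min 1 (5 / 2 - |(t : ℝ)| / R) - min 1 (5 / 2 - |(t' : ℝ)| / R)| := by
        refine (abs_max_sub_max_le_max _ _ _ _).trans ?_
        simp
    _ ≤ |(5 / 2 - |(t : ℝ)| / R) - (5 / 2 - |(t' : ℝ)| / R)| := by
        refine (abs_min_sub_min_le_max _ _ _ _).trans ?_
        simp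
    _ = abs (|(t : ℝ)| - |(t' : ℝ)|) / R := by
        rw [show (5 / 2 - |(t : ℝ)| / R) - (5 / 2 - |(t' : ℝ)| / R)
          = -((|(t : ℝ)| - |(t' : ℝ)|) / R) by ring, abs_neg, abs_div, abs_of_pos hR']
    _ ≤ 1 / R := by gcongr

/-- the cut-off vanishes off the box of radius `4R`. -/
lemma Chain.cut_zero (x : ℤ × ℤ) (R : ℕ) (hR : 1 ≤ R) (v : ℤ × ℤ)
    (hv : (4 : ℤ) * R ≤ |v.1 - x.1| ∨ (4 : ℤ) * R ≤ |v.2 - x.2|) : cut x R v = 0 := by
  unfold cut
  rcases hv with h | h
  · rw [Chain.phi_zero R hR _ h, zero_mul]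
  · rw [Chain.phi_zero R hR _ h, mul_zero]

lemma Chain.cut_step (x : ℤ × ℤ) (R : ℕ) (hR : 1 ≤ R) (v : ℤ × ℤ) (i : Fin 2) :
    |cut x R (v + latticeDir i) - cut x R v| ≤ 1 / R := by
  unfold cut
  fin_cases i
  · simp only [latticeDir, Fin.zero_eta, if_true, Prod.fst_add, Prod.snd_add, add_zero]
    rw [← sub_mul, abs_mul]
    calc _ ≤ (1 / R) * (1 : ℝ) := by
            refine mul_le_mul (Chain.phi_step R hR _ _ (by simp)) ?_ (abs_nonneg _) (by positivity)
            rw [abs_of_nonneg (Chain.phi_nonneg _ _)]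
            exact Chain.phi_le_one _ _
      _ = 1 / R := mul_one _
  · simp only [latticeDir, Fin.mk_one, one_ne_zero, if_false, Prod.fst_add, Prod.snd_add, add_zero]
    rw [← mul_sub, abs_mul]
    calc _ ≤ (1 : ℝ) * (1 / R) := by
            refine mul_le_mul ?_ (Chain.phi_step R hR _ _ (by simp)) (abs_nonneg _) (by norm_num)
            rw [abs_of_nonneg (Chain.phi_nonneg _ _)]
            exact Chain.phi_le_one _ _
      _ = 1 / R := one_mul _

lemma Chain.card_bx (V : Finset (ℤ × ℤ)) (x : ℤ × ℤ) (R : ℕ) (W : Finset V)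
    (hW : ∀ v ∈ W, v ∈ bx V x R) : (W.card : ℝ) ≤ (2 * R + 1) ^ 2 := by
  have h1 : W.card ≤ ((Finset.Icc (x.1 - R) (x.1 + R)) ×ˢ (Finset.Icc (x.2 - R) (x.2 + R))).card := by
    refine Finset.card_le_card_of_injOn (fun v : V => (v : ℤ × ℤ)) ?_ ?_
    · intro v hv
      obtain ⟨h1, h2⟩ := hW v hv
      rw [abs_le] at h1 h2
      simp only [Finset.coe_product, Finset.coe_Icc, Set.mem_prod, Set.mem_Icc]
      omega
    · intro a _ c _ h
      exact Subtype.ext h
  have h2 : ((Finset.Icc (x.1 - R) (x.1 + R)) ×ˢ (Finset.Icc (x.2 - R) (x.2 + R))).card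
      = (2 * R + 1) ^ 2 := by
    rw [Finset.card_product, Int.card_Icc, Int.card_Icc, sq]
    congr 1 <;> omega
  rw [h2] at h1
  exact_mod_cast h1

lemma Chain.En_cut_le (V : Finset (ℤ × ℤ)) (b : ℤ × ℤ → Fin 2 → ℝ) (β : ℝ) (hβ : 0 < β)
    (hb : ∀ u i, 0 ≤ b u i ∧ b u i ≤ β) (x : ℤ × ℤ) (R : ℕ) (hR : 1 ≤ R) :
    (latG V b).En (rs V (cut x R)) ≤ 162 * β := by
  classical
  have hR' : (1 : ℝ) ≤ R := by exact_mod_cast hR
  have hterm : ∀ e : V × Fin 2, (latG V b).b e *
      (rs V (cut x R) ((latG V b).tgt e) - rs V (cut x R) ((latG V b).src e)) ^ 2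
      ≤ if e.1 ∈ bx V x (4 * R) then β / R ^ 2 else 0 := by
    intro e
    by_cases he : (e.1 : ℤ × ℤ) + latticeDir e.2 ∈ V
    · have h1 : (latG V b).b e = b e.1 e.2 := by simp [latG, he]
      have h2 : rs V (cut x R) ((latG V b).tgt e) = cut x R ((e.1 : ℤ × ℤ) + latticeDir e.2) := by
        simp [latG, he, rs]
      have h3 : rs V (cut x R) ((latG V b).src e) = cut x R (e.1 : ℤ × ℤ) := rfl
      rw [h1, h2, h3]
      split_ifs with hm
      · have h4 := Chain.cut_step x R hR (e.1 : ℤ × ℤ) e.2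
        have h5 : (cut x R ((e.1 : ℤ × ℤ) + latticeDir e.2) - cut x R (e.1 : ℤ × ℤ)) ^ 2
            ≤ (1 / R) ^ 2 := by
          rw [← sq_abs]
          gcongr
        calc _ ≤ β * (1 / R) ^ 2 :=
              mul_le_mul (hb _ _).2 h5 (sq_nonneg _) hβ.le
          _ = β / R ^ 2 := by ring
      · have hc : ((4 : ℤ) * R < |(e.1 : ℤ × ℤ).1 - x.1| ∨
            (4 : ℤ) * R < |(e.1 : ℤ × ℤ).2 - x.2|) := by
          by_contra hcon
          push Not at hcon
          exact hm ⟨by push_cast; exact hcon.1, by push_cast; exact hcon.2⟩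
        have h6 : cut x R (e.1 : ℤ × ℤ) = 0 :=
          Chain.cut_zero x R hR _ (hc.imp le_of_lt le_of_lt)
        have h7 : cut x R ((e.1 : ℤ × ℤ) + latticeDir e.2) = 0 := by
          apply Chain.cut_zero x R hR
          have hd1 : |(latticeDir e.2).1| ≤ 1 ∧ |(latticeDir e.2).2| ≤ 1 := by
            unfold latticeDir
            split_ifs <;> simp
          obtain ⟨hd1, hd2⟩ := hd1
          simp only [Prod.fst_add, Prod.snd_add]
          rcases hc with h | h
          · left
            have := abs_sub_abs_le_abs_sub ((e.1 : ℤ × ℤ).1 - x.1) (-(latticeDir e.2).1)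
            rw [abs_neg] at this
            have h8 : (e.1 : ℤ × ℤ).1 - x.1 - -(latticeDir e.2).1
              = (e.1 : ℤ × ℤ).1 + (latticeDir e.2).1 - x.1 := by ring
            rw [h8] at this
            omega
          · right
            have := abs_sub_abs_le_abs_sub ((e.1 : ℤ × ℤ).2 - x.2) (-(latticeDir e.2).2)
            rw [abs_neg] at this
            have h8 : (e.1 : ℤ × ℤ).2 - x.2 - -(latticeDir e.2).2
              = (e.1 : ℤ × ℤ).2 + (latticeDir e.2).2 - x.2 := by ring
            rw [h8] at this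
            omega
        rw [h6, h7]
        simp
    · have h1 : (latG V b).b e = 0 := by simp [latG, he]
      rw [h1, zero_mul]
      split_ifs
      · positivity
      · exact le_rfl
  calc (latG V b).En (rs V (cut x R))
      ≤ ∑ e : V × Fin 2, if e.1 ∈ bx V x (4 * R) then β / R ^ 2 else 0 :=
        Finset.sum_le_sum fun e _ => hterm e
    _ = 2 * (((Finset.univ.filter fun v : V => v ∈ bx V x (4 * R)).card : ℝ) * (β / R ^ 2)) := by
        rw [Fintype.sum_prod_type, Finset.sum_comm, Fin.sum_univ_two, ← Finset.sum_filter,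
          Finset.sum_const, nsmul_eq_mul]
        ring
    _ ≤ 2 * ((2 * ((4 * R : ℕ) : ℝ) + 1) ^ 2 * (β / R ^ 2)) := by
        gcongr
        exact Chain.card_bx V x (4 * R) _ (fun v hv => (Finset.mem_filter.mp hv).2)
    _ ≤ 2 * ((9 * R) ^ 2 * (β / R ^ 2)) := by
        gcongr
        push_cast
        linarith
    _ = 162 * β := by
        field_simp
        ring

/-! ## properties of `KK` -/
section KK
variable {ι E : Type} [Fintype ι] [Fintype E] {n : ℕ} [NeZero n]

omit [Fintype ι] [NeZero n] in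
lemma Chain.continuous_XI (G : Gr ι E) (k l : Fin n) (f : ι → ℝ) :
    Continuous (XI G k l f) := by
  unfold XI cur
  fun_prop

lemma Chain.KK_nonneg (G : Gr ι E) (F0 S : Set ι) (k l : Fin n) (f : ι → ℝ) (τ : Cf ι n) :
    0 ≤ KK G F0 S k l f τ := P_nonneg G (fun _ => sq_nonneg _) τ

lemma Chain.KK_mono (G : Gr ι E) {F0 S' S : Set ι} (h0 : F0 ⊆ S') (h : S' ⊆ S) {k l : Fin n}
    (hkl : k ≠ l) (f : ι → ℝ) (τ : Cf ι n) : KK G F0 S' k l f τ ≤ KK G F0 S k l f τ := by
  have h1 := P_pyth G h0 h (Chain.continuous_XI G k l f) τ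
  have h2 : 0 ≤ P G F0 (fun s => (P G S (XI G k l f) s - P G S' (XI G k l f) s) ^ 2) τ :=
    P_nonneg G (fun _ => sq_nonneg _) τ
  unfold KK
  linarith

lemma Chain.KK_univ_le (G : Gr ι E) (hb : ∀ e, 0 ≤ G.b e) {F0 : Set ι} {k l : Fin n}
    (hkl : k ≠ l) {f : ι → ℝ} (hf : ∀ v ∈ F0, f v = 0) (τ : Cf ι n) :
    KK G F0 Set.univ k l f τ ≤ G.En f := by
  have h1 : ∀ s : Cf ι n, P G Set.univ (XI G k l f) s = XI G k l f s := by
    intro s
    refine P_of_dep G (A := Set.univ) ?_ s
    intro s t hst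
    have : s = t := funext fun v => hst v (Set.mem_univ v)
    rw [this]
  unfold KK
  simp only [h1]
  exact E_sq_XI G hb hkl hf τ

end KK

/-! ## the chain -/

/-- `StepProp` at one `(n, β)` with the constant `C`. -/
def Chain.StepAt (n : ℕ) (β C : ℝ) : Prop := 
  ∀ (R a : ℕ), 1 ≤ a → 100 * a ≤ R →
  ∀ (V : Finset (ℤ × ℤ)) (b : ℤ × ℤ → Fin 2 → ℝ), (∀ u i, 0 ≤ b u i ∧ b u i ≤ β) →
  ∀ (x : ℤ × ℤ) (k l m : Fin n), k ≠ l → l ≠ m → m ≠ k →
  ∀ (o : ℤ × ℤ) (S : Set V), (bx V x (4 * R))ᶜ ⊆ S → bx V x R ⊆ S → Grid V a o ⊆ S →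
  ∀ τ : Cf V n, ∃ (o' : ℤ × ℤ) (S' : Set V), S' ⊆ S ∧ (bx V x (4 * R))ᶜ ⊆ S' ∧ bx V x R ⊆ S' ∧
    Grid V (2 * a) o' ⊆ S' ∧
    KK (latG V b) (bx V x (4 * R))ᶜ S k l (rs V (cut x R)) τ ≤
      C * Real.sqrt
        ((KK (latG V b) (bx V x (4 * R))ᶜ S l m (rs V (cut x R)) τ +
            KK (latG V b) (bx V x (4 * R))ᶜ S m k (rs V (cut x R)) τ) -
          (KK (latG V b) (bx V x (4 * R))ᶜ S' l m (rs V (cut x R)) τ +
            KK (latG V b) (bx V x (4 * R))ᶜ S' m k (rs V (cut x R)) τ))
      + C * Real.sqrt (a / R)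

lemma Chain.induct {n : ℕ} [NeZero n] {β C κ : ℝ} (hC : 0 ≤ C) (hst : Chain.StepAt n β C)
    (R : ℕ) (V : Finset (ℤ × ℤ)) (b : ℤ × ℤ → Fin 2 → ℝ)
    (hb : ∀ u i, 0 ≤ b u i ∧ b u i ≤ β) (x : ℤ × ℤ) (k l m : Fin n) (hkl : k ≠ l) (hlm : l ≠ m)
    (hmk : m ≠ k) (τ : Cf V n) (N : ℕ) (hN : 100 * 2 ^ N ≤ R) :
    (∃ S : Set V, (bx V x (4 * R))ᶜ ⊆ S ∧ bx V x R ⊆ S ∧
      KK (latG V b) (bx V x (4 * R))ᶜ S k l (rs V (cut x R)) τ
        ≤ C * Real.sqrt κ + C * Real.sqrt (2 ^ N / R)) ∨
    (∃ (o : ℤ × ℤ) (S : Set V), (bx V x (4 * R))ᶜ ⊆ S ∧ bx V x R ⊆ S ∧ Grid V (2 ^ N) o ⊆ S ∧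
      (KK (latG V b) (bx V x (4 * R))ᶜ S l m (rs V (cut x R)) τ +
          KK (latG V b) (bx V x (4 * R))ᶜ S m k (rs V (cut x R)) τ) ≤
        (KK (latG V b) (bx V x (4 * R))ᶜ Set.univ l m (rs V (cut x R)) τ +
          KK (latG V b) (bx V x (4 * R))ᶜ Set.univ m k (rs V (cut x R)) τ) - N * κ) := by
  induction N with
  | zero =>
    right
    refine ⟨0, Set.univ, Set.subset_univ _, Set.subset_univ _, Set.subset_univ _, ?_⟩
    simp
  | succ N ih =>
    have hN' : 100 * 2 ^ N ≤ R := by
      rw [pow_succ] at hN; omega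
    have hR0 : (0 : ℝ) < R := by
      have : 0 < R := lt_of_lt_of_le (by positivity) hN
      exact_mod_cast this
    have hsq : Real.sqrt ((2 : ℝ) ^ N / R) ≤ Real.sqrt (2 ^ (N + 1) / R) := by
      apply Real.sqrt_le_sqrt
      gcongr
      · norm_num
      · omega
    rcases ih hN' with ⟨S, h1, h2, h3⟩ | ⟨o, S, h1, h2, h3, h4⟩
    · left
      refine ⟨S, h1, h2, h3.trans ?_⟩
      gcongr
    · obtain ⟨o', S', g1, g2, g3, g4, g5⟩ :=
        hst R (2 ^ N) (Nat.one_le_two_pow) hN' V b hb x k l m hkl hlm hmk o S h1 h2 h3 τ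
      by_cases hk : (KK (latG V b) (bx V x (4 * R))ᶜ S l m (rs V (cut x R)) τ +
            KK (latG V b) (bx V x (4 * R))ᶜ S m k (rs V (cut x R)) τ) -
          (KK (latG V b) (bx V x (4 * R))ᶜ S' l m (rs V (cut x R)) τ +
            KK (latG V b) (bx V x (4 * R))ᶜ S' m k (rs V (cut x R)) τ) ≤ κ
      · left
        refine ⟨S, h1, h2, g5.trans ?_⟩
        have e1 := Real.sqrt_le_sqrt hk
        have e2 : Real.sqrt (((2 ^ N : ℕ) : ℝ) / R) ≤ Real.sqrt (2 ^ (N + 1) / R) := by
          push_cast; exact hsq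
        gcongr
      · right
        refine ⟨o', S', g2, g3, ?_, ?_⟩
        · rw [pow_succ, mul_comm]; exact g4
        · push Not at hk
          push_cast
          linarith

theorem annulusSmall_of (hS : StepProp) : AnnulusSmall := by
  intro n hn β ε hβ hε
  have hn0 : NeZero n := ⟨by omega⟩
  obtain ⟨C, hC, hst⟩ := hS n hn β hβ
  -- parameters
  set κ : ℝ := (ε / (2 * (C + 1))) ^ 2 with hκ
  have hκ0 : 0 < κ := by positivity
  have hsκ : Real.sqrt κ = ε / (2 * (C + 1)) := by
    rw [hκ, Real.sqrt_sq (by positivity)]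
  have hCκ : C * Real.sqrt κ ≤ ε / 2 := by
    rw [hsκ]
    calc C * (ε / (2 * (C + 1))) ≤ (C + 1) * (ε / (2 * (C + 1))) := by gcongr; linarith
      _ = ε / 2 := by field_simp
  obtain ⟨N, hN⟩ := exists_nat_gt (324 * β / κ)
  have hNκ : 324 * β < N * κ := by rwa [div_lt_iff₀ hκ0] at hN
  obtain ⟨R1, hR1⟩ := exists_nat_ge ((2 : ℝ) ^ N / κ)
  refine ⟨max (100 * 2 ^ N) R1, ?_, ?_⟩
  · exact le_max_of_le_left (by have : 0 < 2 ^ N := by positivity
                                omega)
  intro R hR V b hb x k l hkl τ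
  have hRN : 100 * 2 ^ N ≤ R := (le_max_left _ _).trans hR
  have hRR1 : (R1 : ℝ) ≤ R := by exact_mod_cast (le_max_right _ _).trans hR
  have hR1' : 1 ≤ R := le_trans (by have : 0 < 2 ^ N := by positivity
                                    omega) hRN
  have hR0 : (0 : ℝ) < R := by exact_mod_cast hR1'
  have hq : (2 : ℝ) ^ N / R ≤ κ := by
    rw [div_le_iff₀ hR0]
    have h1 : (2 : ℝ) ^ N ≤ κ * R1 := by
      rw [div_le_iff₀ hκ0] at hR1
      linarith
    have h2 : κ * R1 ≤ κ * R := by gcongr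
    exact h1.trans h2
  -- the third index
  obtain ⟨m, hlm, hmk⟩ : ∃ m : Fin n, l ≠ m ∧ m ≠ k := by
    have h3 : ({k, l} : Finset (Fin n)).card < (Finset.univ : Finset (Fin n)).card := by
      rw [Finset.card_univ, Fintype.card_fin]
      exact lt_of_le_of_lt Finset.card_le_two (by omega)
    obtain ⟨m, -, hm⟩ := Finset.exists_mem_notMem_of_card_lt_card h3
    simp only [Finset.mem_insert, Finset.mem_singleton, not_or] at hm
    exact ⟨m, fun h => hm.2 h.symm, hm.1⟩
  have hb0 : ∀ e, 0 ≤ (latG V b).b e := by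
    intro e
    simp only [latG]
    split_ifs
    · exact (hb _ _).1
    · exact le_rfl
  have hf0 : ∀ v ∈ (bx V x (4 * R))ᶜ, rs V (cut x R) v = 0 := by
    intro v hv
    apply Chain.cut_zero x R hR1'
    by_contra hcon
    push Not at hcon
    exact hv ⟨by push_cast; exact hcon.1.le, by push_cast; exact hcon.2.le⟩
  have hEn := Chain.En_cut_le V b β hβ hb x R hR1'
  have hfin : ∀ S : Set V, (bx V x (4 * R))ᶜ ⊆ S → bx V x R ⊆ S →
      KK (latG V b) (bx V x (4 * R))ᶜ ((bx V x (4 * R))ᶜ ∪ bx V x R) k l (rs V (cut x R)) τ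
        ≤ KK (latG V b) (bx V x (4 * R))ᶜ S k l (rs V (cut x R)) τ := fun S h1 h2 =>
    Chain.KK_mono _ Set.subset_union_left (Set.union_subset h1 h2) hkl _ τ
  rcases Chain.induct (κ := κ) hC hst R V b hb x k l m hkl hlm hmk τ N hRN with
    ⟨S, h1, h2, h3⟩ | ⟨o, S, h1, h2, h3, h4⟩
  · refine (hfin S h1 h2).trans (h3.trans ?_)
    have h5 : C * Real.sqrt (2 ^ N / R) ≤ ε / 2 :=
      (mul_le_mul_of_nonneg_left (Real.sqrt_le_sqrt hq) hC).trans hCκ
    linarith
  · exfalso
    have e1 := Chain.KK_nonneg (latG V b) (bx V x (4 * R))ᶜ S l m (rs V (cut x R)) τ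
    have e2 := Chain.KK_nonneg (latG V b) (bx V x (4 * R))ᶜ S m k (rs V (cut x R)) τ
    have e3 := Chain.KK_univ_le (latG V b) hb0 hlm hf0 τ
    have e4 := Chain.KK_univ_le (latG V b) hb0 hmk hf0 τ
    linarith

end Crest.Agent.R167
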