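import Mathlib
import Crest.Agent.R167.PCalc

-- ▼ part R167/PCAbs
section

/-! Row 167, node PCALC (helper40): the calculus of the conditional averages `P_S` on a product
space, in abstract form. -/

set_option autoImplicit false
open MeasureTheory Set

noncomputable section
namespace Crest.Agent.R167.PC

variable {ι X : Type*}

open Classical in
/-- the configuration with the spins of `s` on `A` and those of `s'` off `A` -/
def glue (A : Set ι) (s s' : ι → X) : ι → X := fun v => if v ∈ A then s v else s' v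

lemma glue_mem {A : Set ι} {v : ι} (h : v ∈ A) (s s' : ι → X) : glue A s s' v = s v := by
  simp [glue, h]


@[simp] lemma glue_self (A : Set ι) (s : ι → X) : glue A s s = s := by
  ext v; simp [glue]

@[simp] lemma glue_univ (s s' : ι → X) : glue Set.univ s s' = s := by
  ext v; simp [glue]

@[simp] lemma glue_empty (s s' : ι → X) : glue ∅ s s' = s' := by
  ext v; simp [glue]

@[simp] lemma glue_glue_left (A : Set ι) (s t s' : ι → X) :
    glue A (glue A s t) s' = glue A s s' := by
  ext v; by_cases h : v ∈ A <;> simp [glue, h]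

@[simp] lemma glue_glue_right (A : Set ι) (s t s' : ι → X) :
    glue A s (glue A t s') = glue A s s' := by
  ext v; by_cases h : v ∈ A <;> simp [glue, h]



lemma glue_congr {A : Set ι} {s t s' : ι → X} (h : ∀ v ∈ A, s v = t v) :
    glue A s s' = glue A t s' := by
  ext v
  by_cases h1 : v ∈ A
  · simp [glue, h1, h v h1]
  · simp [glue, h1]

/-- `F` depends only on the spins in `A` -/
def Dep (A : Set ι) (F : (ι → X) → ℝ) : Prop := ∀ s s', F (glue A s s') = F s

lemma Dep.eq {A : Set ι} {F : (ι → X) → ℝ} (h : Dep A F) {s t : ι → X}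
    (hst : ∀ v ∈ A, s v = t v) : F s = F t := by
  rw [← h s s, ← h t s, glue_congr hst]

lemma dep_iff {A : Set ι} {F : (ι → X) → ℝ} :
    Dep A F ↔ ∀ s t, (∀ v ∈ A, s v = t v) → F s = F t :=
  ⟨fun h _ _ hst => h.eq hst, fun h s s' => h _ _ fun _ hv => glue_mem hv s s'⟩

lemma Dep.mono {A B : Set ι} {F : (ι → X) → ℝ} (h : Dep A F) (hAB : A ⊆ B) : Dep B F :=
  dep_iff.2 fun _ _ hst => h.eq fun v hv => hst v (hAB hv)


lemma Dep.const (A : Set ι) (c : ℝ) : Dep (X := X) A (fun _ => c) := fun _ _ => rfl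

lemma Dep.comp {A : Set ι} {F : (ι → X) → ℝ} (h : Dep A F) (φ : ℝ → ℝ) :
    Dep A (fun s => φ (F s)) := fun s s' => congrArg φ (h s s')

lemma Dep.comp₂ {A : Set ι} {F G : (ι → X) → ℝ} (h : Dep A F) (h' : Dep A G) (φ : ℝ → ℝ → ℝ) :
    Dep A (fun s => φ (F s) (G s)) := fun s s' => congrArg₂ φ (h s s') (h' s s')

lemma Dep.add {A : Set ι} {F G : (ι → X) → ℝ} (h : Dep A F) (h' : Dep A G) :
    Dep A (fun s => F s + G s) := h.comp₂ h' (· + ·)

lemma Dep.sub {A : Set ι} {F G : (ι → X) → ℝ} (h : Dep A F) (h' : Dep A G) :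
    Dep A (fun s => F s - G s) := h.comp₂ h' (· - ·)

lemma Dep.mul {A : Set ι} {F G : (ι → X) → ℝ} (h : Dep A F) (h' : Dep A G) :
    Dep A (fun s => F s * G s) := h.comp₂ h' (· * ·)

lemma Dep.sum {A : Set ι} {κ : Type*} (T : Finset κ) {F : κ → (ι → X) → ℝ}
    (h : ∀ k ∈ T, Dep A (F k)) : Dep A (fun s => ∑ k ∈ T, F k s) := fun s s' =>
  Finset.sum_congr rfl fun k hk => h k hk s s'

/-- bounded measurable functions -/
structure BM [MeasurableSpace X] (F : (ι → X) → ℝ) : Prop where
  meas : Measurable F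
  bdd : ∃ C, ∀ s, |F s| ≤ C

namespace BM
variable [MeasurableSpace X] {F G : (ι → X) → ℝ}

lemma const (c : ℝ) : BM (ι := ι) (X := X) (fun _ => c) := ⟨measurable_const, |c|, fun _ => le_rfl⟩

lemma add (hF : BM F) (hG : BM G) : BM (fun s => F s + G s) := by
  obtain ⟨C, hC⟩ := hF.bdd
  obtain ⟨D, hD⟩ := hG.bdd
  exact ⟨hF.meas.add hG.meas, C + D, fun s => (abs_add_le _ _).trans (add_le_add (hC s) (hD s))⟩

lemma neg (hF : BM F) : BM (fun s => - F s) := by
  obtain ⟨C, hC⟩ := hF.bdd
  exact ⟨hF.meas.neg, C, fun s => by rw [abs_neg]; exact hC s⟩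

lemma sub (hF : BM F) (hG : BM G) : BM (fun s => F s - G s) := by
  simpa [sub_eq_add_neg] using hF.add hG.neg

lemma mul (hF : BM F) (hG : BM G) : BM (fun s => F s * G s) := by
  obtain ⟨C, hC⟩ := hF.bdd
  obtain ⟨D, hD⟩ := hG.bdd
  refine ⟨hF.meas.mul hG.meas, C * D, fun s => ?_⟩
  rw [abs_mul]
  exact mul_le_mul (hC s) (hD s) (abs_nonneg _) ((abs_nonneg _).trans (hC s))

lemma const_mul (hF : BM F) (c : ℝ) : BM (fun s => c * F s) := (BM.const c).mul hF

lemma sq (hF : BM F) : BM (fun s => F s ^ 2) := by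
  simpa [pow_two] using hF.mul hF

lemma pow (hF : BM F) (k : ℕ) : BM (fun s => F s ^ k) := by
  induction k with
  | zero => simpa using BM.const (ι := ι) (X := X) 1
  | succ k ih => simpa [pow_succ] using ih.mul hF

lemma sum {κ : Type*} (T : Finset κ) {F : κ → (ι → X) → ℝ} (h : ∀ k ∈ T, BM (F k)) :
    BM (fun s => ∑ k ∈ T, F k s) := by
  classical
  induction T using Finset.induction_on with
  | empty => simpa using BM.const (ι := ι) (X := X) 0
  | insert a T ha ih =>
    simp only [Finset.sum_insert ha]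
    exact (h a (Finset.mem_insert_self _ _)).add (ih fun k hk => h k (Finset.mem_insert_of_mem hk))

lemma comp {g : (ι → X) → (ι → X)} (hF : BM F) (hg : Measurable g) : BM (fun s => F (g s)) := by
  obtain ⟨C, hC⟩ := hF.bdd
  exact ⟨hF.meas.comp hg, C, fun s => hC _⟩

lemma integrable (hF : BM F) (m : Measure (ι → X)) [IsFiniteMeasure m] : Integrable F m := by
  obtain ⟨C, hC⟩ := hF.bdd
  exact Integrable.of_bound hF.meas.aestronglyMeasurable C
    (Filter.Eventually.of_forall fun s => by simpa using hC s)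

end BM

/-- admissible weights -/
structure Wt [MeasurableSpace X] (w : (ι → X) → ℝ) : Prop where
  meas : Measurable w
  lo : ∃ c, 0 < c ∧ ∀ s, c ≤ w s
  hi : ∃ C, ∀ s, w s ≤ C

namespace Wt
variable [MeasurableSpace X] {w w₁ w₂ : (ι → X) → ℝ}

lemma pos (h : Wt w) (s : ι → X) : 0 < w s := by
  obtain ⟨c, hc, h'⟩ := h.lo
  exact hc.trans_le (h' s)

lemma bm (h : Wt w) : BM w := by
  obtain ⟨C, hC⟩ := h.hi
  exact ⟨h.meas, C, fun s => by rw [abs_of_pos (h.pos s)]; exact hC s⟩

lemma mul (h₁ : Wt w₁) (h₂ : Wt w₂) : Wt (fun s => w₁ s * w₂ s) := by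
  obtain ⟨c, hc, h⟩ := h₁.lo
  obtain ⟨d, hd, h'⟩ := h₂.lo
  obtain ⟨C, hC⟩ := h₁.hi
  obtain ⟨D, hD⟩ := h₂.hi
  refine ⟨h₁.meas.mul h₂.meas, ⟨c * d, mul_pos hc hd, fun s => ?_⟩, C * D, fun s => ?_⟩
  · exact mul_le_mul (h s) (h' s) hd.le (h₁.pos s).le
  · exact mul_le_mul (hC s) (hD s) (h₂.pos s).le ((h₁.pos s).le.trans (hC s))

lemma exp {F : (ι → X) → ℝ} (hF : BM F) : Wt (fun s => Real.exp (F s)) := by
  obtain ⟨C, hC⟩ := hF.bdd
  exact ⟨Real.measurable_exp.comp hF.meas,
    ⟨Real.exp (-C), Real.exp_pos _, fun s => Real.exp_le_exp.2 (neg_le_of_abs_le (hC s))⟩,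
    Real.exp C, fun s => Real.exp_le_exp.2 (le_of_abs_le (hC s))⟩

lemma comp {g : (ι → X) → (ι → X)} (h : Wt w) (hg : Measurable g) : Wt (fun s => w (g s)) := by
  obtain ⟨c, hc, h'⟩ := h.lo
  obtain ⟨C, hC⟩ := h.hi
  exact ⟨h.meas.comp hg, ⟨c, hc, fun s => h' _⟩, C, fun s => hC _⟩

end Wt

section measure

variable [Fintype ι] [MeasurableSpace X] (μ : Measure X) [IsProbabilityMeasure μ]

/-- the product law -/
abbrev nu (ι : Type*) [Fintype ι] {X : Type*} [MeasurableSpace X] (μ : Measure X) :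
    Measure (ι → X) := Measure.pi fun _ : ι => μ

omit [Fintype ι] in
lemma measurable_glue (A : Set ι) :
    Measurable (fun p : (ι → X) × (ι → X) => glue A p.1 p.2) := by
  classical
  refine measurable_pi_lambda _ fun v => ?_
  by_cases h : v ∈ A
  · simp only [glue, h, if_true]
    exact (measurable_pi_apply v).comp measurable_fst
  · simp only [glue, h, if_false]
    exact (measurable_pi_apply v).comp measurable_snd

omit [Fintype ι] in
lemma measurable_glue_right (A : Set ι) (s : ι → X) : Measurable (fun s' => glue A s s') :=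
  (measurable_glue A).comp (measurable_const.prodMk measurable_id)




/-- unnormalised conditional average -/
def N (A : Set ι) (G : (ι → X) → ℝ) (s : ι → X) : ℝ := ∫ s', G (glue A s s') ∂(nu ι μ)

/-- Gibbs average of `F` for the weight `w` with the spins in `A` frozen -/
def P (w : (ι → X) → ℝ) (A : Set ι) (F : (ι → X) → ℝ) (s : ι → X) : ℝ :=
  N μ A (fun t => F t * w t) s / N μ A w s

variable {μ}
variable {w w₁ w₂ : (ι → X) → ℝ} {A A' B S S' U₁ U₂ : Set ι} {F G : (ι → X) → ℝ}



lemma integrable_glue (hG : BM G) (s : ι → X) :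
    Integrable (fun s' => G (glue A s s')) (nu ι μ) :=
  (hG.comp (measurable_glue_right A s)).integrable _

lemma N_add (hF : BM F) (hG : BM G) (s : ι → X) :
    N μ A (fun t => F t + G t) s = N μ A F s + N μ A G s :=
  integral_add (integrable_glue hF s) (integrable_glue hG s)

lemma N_sub (hF : BM F) (hG : BM G) (s : ι → X) :
    N μ A (fun t => F t - G t) s = N μ A F s - N μ A G s :=
  integral_sub (integrable_glue hF s) (integrable_glue hG s)

omit [IsProbabilityMeasure μ] in
lemma N_const_mul (c : ℝ) (s : ι → X) :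
    N μ A (fun t => c * F t) s = c * N μ A F s := integral_const_mul _ _

omit [IsProbabilityMeasure μ] in
/-- pull out functions of the frozen spins -/
lemma N_mul_dep (hF : Dep A F) (s : ι → X) :
    N μ A (fun t => F t * G t) s = F s * N μ A G s := by
  unfold N
  simp_rw [hF s]
  exact integral_const_mul _ _

lemma N_mono (hF : BM F) (hG : BM G) (h : ∀ s, F s ≤ G s) (s : ι → X) :
    N μ A F s ≤ N μ A G s :=
  integral_mono (integrable_glue hF s) (integrable_glue hG s) fun _ => h _

lemma N_pos (hw : Wt w) (A : Set ι) (s : ι → X) : 0 < N μ A w s := by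
  obtain ⟨c, hc, h⟩ := hw.lo
  have := N_mono (μ := μ) (A := A) (BM.const c) hw.bm h s
  refine hc.trans_le (le_trans ?_ this)
  simp [N]



/-! ### basic laws of `P` -/




lemma P_add (hw : Wt w) (hF : BM F) (hG : BM G) (s : ι → X) :
    P μ w A (fun t => F t + G t) s = P μ w A F s + P μ w A G s := by
  unfold P
  rw [← add_div, ← N_add (hF.mul hw.bm) (hG.mul hw.bm)]
  simp_rw [add_mul]

lemma P_sub (hw : Wt w) (hF : BM F) (hG : BM G) (s : ι → X) :
    P μ w A (fun t => F t - G t) s = P μ w A F s - P μ w A G s := by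
  unfold P
  rw [← sub_div, ← N_sub (hF.mul hw.bm) (hG.mul hw.bm)]
  simp_rw [sub_mul]

omit [IsProbabilityMeasure μ] in
lemma P_const_mul (c : ℝ) (F : (ι → X) → ℝ) (s : ι → X) :
    P μ w A (fun t => c * F t) s = c * P μ w A F s := by
  unfold P
  rw [← mul_div_assoc, ← N_const_mul]
  simp_rw [mul_assoc]

omit [IsProbabilityMeasure μ] in
lemma P_neg (F : (ι → X) → ℝ) (s : ι → X) :
    P μ w A (fun t => - F t) s = - P μ w A F s := by
  have := P_const_mul (μ := μ) (w := w) (A := A) (-1) F s
  simpa using this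



omit [IsProbabilityMeasure μ] in
/-- pull out functions of the frozen spins -/
lemma P_mul_dep (hF : Dep A F) (G : (ι → X) → ℝ) (s : ι → X) :
    P μ w A (fun t => F t * G t) s = F s * P μ w A G s := by
  unfold P
  simp_rw [mul_assoc]
  rw [N_mul_dep hF, mul_div_assoc]


lemma P_one (hw : Wt w) (s : ι → X) : P μ w A (fun _ => 1) s = 1 := by
  unfold P
  simp only [one_mul]
  exact div_self (N_pos hw A s).ne'

lemma P_of_dep (hw : Wt w) (hF : Dep A F) (s : ι → X) : P μ w A F s = F s := by
  have := P_mul_dep (μ := μ) (w := w) hF (fun _ => 1) s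
  simpa [P_one hw] using this

lemma P_const (hw : Wt w) (c : ℝ) (s : ι → X) : P μ w A (fun _ => c) s = c :=
  P_of_dep hw (Dep.const A c) s

lemma P_mono (hw : Wt w) (hF : BM F) (hG : BM G) (h : ∀ s, F s ≤ G s) (s : ι → X) :
    P μ w A F s ≤ P μ w A G s := by
  unfold P
  refine div_le_div_of_nonneg_right ?_ (N_pos hw A s).le
  exact N_mono (hF.mul hw.bm) (hG.mul hw.bm)
    (fun t => mul_le_mul_of_nonneg_right (h t) (hw.pos t).le) s

lemma P_nonneg (hw : Wt w) (hF : BM F) (h : ∀ s, 0 ≤ F s) (s : ι → X) : 0 ≤ P μ w A F s := by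
  have := P_mono (μ := μ) (A := A) hw (BM.const 0) hF h s
  rwa [P_const hw] at this

lemma P_abs_le (hw : Wt w) (hF : BM F) (s : ι → X) :
    |P μ w A F s| ≤ P μ w A (fun t => |F t|) s := by
  have hF' : BM (fun t => |F t|) := by
    obtain ⟨C, hC⟩ := hF.bdd
    exact ⟨hF.meas.abs, C, fun s => by rw [abs_abs]; exact hC s⟩
  refine abs_le.2 ⟨?_, P_mono hw hF hF' (fun t => le_abs_self _) s⟩
  rw [← P_neg]
  exact P_mono hw hF'.neg hF (fun t => neg_abs_le _) s



/-! ### `L²` theory: `E = P_{F₀}(·)(τ)` with `F₀ ⊆ A` -/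












/-! ### the Markov property -/











/-! ### symmetries, tilts -/

/-- a `ν`-preserving map compatible with gluing -/
structure Sym (μ : Measure X) (g : (ι → X) → (ι → X)) : Prop where
  mp : MeasurePreserving g (nu ι μ) (nu ι μ)
  glue : ∀ (A : Set ι) (s s' : ι → X), g (PC.glue A s s') = PC.glue A (g s) (g s')


variable {g : (ι → X) → (ι → X)}








end measure

end Crest.Agent.R167.PC
end
end

-- ▼ part R167/PCalc2

/-! Row 167, PCALC part 2 (helper40): Markov property and locality on the frozen definitions. -/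

set_option autoImplicit false
open MeasureTheory Crest.ProbabilityR.SpinModel

namespace Crest.Agent.R167

section bridge
variable {ι E : Type} {n : ℕ}



variable [Fintype ι] [Fintype E]


theorem bm_of_continuous {F : Cf ι n → ℝ} (hF : Continuous F) : PC.BM F := by
  refine ⟨hF.measurable, ?_⟩
  obtain ⟨C, hC⟩ := (isCompact_range hF).isBounded.exists_norm_le
  exact ⟨C, fun s => by simpa using hC _ (Set.mem_range_self s)⟩



open Classical in
/-- the part of the interaction carried by the edges satisfying `p` -/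
noncomputable def IPart (G : Gr ι E) (p : E → Prop) (s : Cf ι n) : ℝ :=
  ∑ e, (if p e then
    G.b e * inner ℝ (s (G.src e) : EuclideanSpace ℝ (Fin n)) (s (G.tgt e)) else 0)

/-- the edges touching `U` -/
def Touch (G : Gr ι E) (U : Set ι) (e : E) : Prop := G.src e ∈ U ∨ G.tgt e ∈ U

variable (G : Gr ι E)

omit [Fintype ι] in
theorem continuous_IPart (p : E → Prop) : Continuous (IPart G p : Cf ι n → ℝ) := by
  classical
  unfold IPart
  refine continuous_finsetSum _ fun e _ => ?_
  split_ifs
  · fun_prop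
  · exact continuous_const

omit [Fintype ι] in
theorem I_eq_add (p : E → Prop) (s : Cf ι n) :
    G.I s = IPart G p s + IPart G (fun e => ¬ p e) s := by
  classical
  unfold Gr.I IPart
  rw [← Finset.sum_add_distrib]
  refine Finset.sum_congr rfl fun e _ => ?_
  by_cases h : p e <;> simp [h]

omit [Fintype ι] in
theorem dep_IPart {p : E → Prop} {Q : Set ι} (h : ∀ e, p e → G.src e ∈ Q ∧ G.tgt e ∈ Q) :
    PC.Dep Q (IPart G p : Cf ι n → ℝ) := by
  classical
  rw [PC.dep_iff]
  intro s t hst
  unfold IPart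
  refine Finset.sum_congr rfl fun e _ => ?_
  by_cases hp : p e
  · simp only [hp, if_true, hst _ (h e hp).1, hst _ (h e hp).2]
  · simp [hp]


end bridge

section markov
variable {ι E : Type} [Fintype ι] [Fintype E] {n : ℕ} [NeZero n]
  (G : Gr ι E) {A B : Set ι} {F H : Cf ι n → ℝ}




/-- product formula for functions of disjoint sets of spins, without any regularity. -/
theorem integral_mul_dep' {U : Set ι} {f h : Cf ι n → ℝ} (hf : Dep U f) (hh : Dep Uᶜ h)
    (s₀ : Cf ι n) :
    ∫ s, f s * h s ∂(nu ι n) = (∫ s, f s ∂(nu ι n)) * ∫ s, h s ∂(nu ι n) := by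
  classical
  let e := MeasurableEquiv.piEquivPiSubtypeProd (fun _ : ι => Sp n) (fun i => i ∈ U)
  have hmp : MeasurePreserving e (nu ι n)
      ((Measure.pi fun _ : {i // i ∈ U} => unif n).prod
        (Measure.pi fun _ : {i // ¬ i ∈ U} => unif n)) :=
    measurePreserving_piEquivPiSubtypeProd (fun _ : ι => unif n) (fun i => i ∈ U)
  have hsymm := hmp.symm e
  have hint : ∀ g : Cf ι n → ℝ, ∫ s, g s ∂(nu ι n) =
      ∫ p, g (e.symm p) ∂((Measure.pi fun _ : {i // i ∈ U} => unif n).prod
        (Measure.pi fun _ : {i // ¬ i ∈ U} => unif n)) := fun g =>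
    (hsymm.integral_comp e.symm.measurableEmbedding g).symm
  set a₀ := (e s₀).1
  set b₀ := (e s₀).2
  have e_mem : ∀ p i (hi : i ∈ U), e.symm p i = p.1 ⟨i, hi⟩ := by
    intro p i hi
    simp [e, MeasurableEquiv.piEquivPiSubtypeProd, Equiv.piEquivPiSubtypeProd, hi]
  have e_not : ∀ p i (hi : ¬ i ∈ U), e.symm p i = p.2 ⟨i, hi⟩ := by
    intro p i hi
    simp [e, MeasurableEquiv.piEquivPiSubtypeProd, Equiv.piEquivPiSubtypeProd, hi]
  have h1 : ∀ p, f (e.symm p) = f (e.symm (p.1, b₀)) := fun p =>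
    hf _ _ fun i hi => by rw [e_mem _ i hi, e_mem _ i hi]
  have h2 : ∀ p, h (e.symm p) = h (e.symm (a₀, p.2)) := fun p =>
    hh _ _ fun i hi => by rw [e_not _ i hi, e_not _ i hi]
  have key : ∀ f h : Cf ι n → ℝ, (∀ p, f (e.symm p) = f (e.symm (p.1, b₀))) →
      (∀ p, h (e.symm p) = h (e.symm (a₀, p.2))) → ∫ s, f s * h s ∂(nu ι n) =
      (∫ a, f (e.symm (a, b₀)) ∂(Measure.pi fun _ : {i // i ∈ U} => unif n)) *
        ∫ b, h (e.symm (a₀, b)) ∂(Measure.pi fun _ : {i // ¬ i ∈ U} => unif n) := by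
    intro f h h1 h2
    rw [hint]
    rw [← integral_prod_mul]
    refine integral_congr_ae (Filter.Eventually.of_forall fun p => ?_)
    simp only
    rw [h1 p, h2 p]
  have k1 := key f h h1 h2
  have k2 := key f (fun _ => 1) h1 (fun _ => rfl)
  have k3 := key (fun _ => 1) h (fun _ => rfl) h2
  simp only [mul_one, one_mul, integral_const, probReal_univ, smul_eq_mul] at k2 k3
  rw [k1, k2, k3]

/-- Markov property: if every vertex of `Q \ S` has all its edges inside `Q` and `F` depends only
on `Q`, then `P_S F` depends only on `S ∩ Q`. -/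
theorem P_dep_of_closed (S Q : Set ι) (hF : Dep Q F)
    (hcl : ∀ e, (G.src e ∈ Q \ S ∨ G.tgt e ∈ Q \ S) → G.src e ∈ Q ∧ G.tgt e ∈ Q) :
    Dep (S ∩ Q) (P G S F) := by
  classical
  set U : Set ι := Q \ S with hU
  set p : E → Prop := Touch G U with hp
  have d1 : ∀ s t : Cf ι n, (∀ v ∈ Q, s v = t v) → IPart G p s = IPart G p t := fun s t hst =>
    PC.dep_iff.1 (dep_IPart G (p := p) hcl) s t hst
  have d2 : ∀ s t : Cf ι n, (∀ v ∈ Uᶜ, s v = t v) →
      IPart G (fun e => ¬ p e) s = IPart G (fun e => ¬ p e) t := fun s t hst =>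
    PC.dep_iff.1 (dep_IPart G (p := fun e => ¬ p e) (Q := Uᶜ) fun e he => not_or.1 he) s t hst
  -- the numerator and the denominator factorize
  have fac : ∀ (K : Cf ι n → ℝ), Dep Q K → ∀ s : Cf ι n,
      ∫ s', K (glue S s s') * Real.exp (G.I (glue S s s')) ∂(nu ι n) =
        (∫ s', K (glue S s s') * Real.exp (IPart G p (glue S s s')) ∂(nu ι n)) *
          ∫ s', Real.exp (IPart G (fun e => ¬ p e) (glue S s s')) ∂(nu ι n) := by
    intro K hK s
    rw [← integral_mul_dep' (U := U) ?_ ?_ s]
    · refine integral_congr_ae (Filter.Eventually.of_forall fun s' => ?_)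
      simp only
      rw [I_eq_add G p, Real.exp_add]
      ring
    · intro t t' htt
      have hg : ∀ v ∈ Q, glue S s t v = glue S s t' v := by
        intro v hv
        by_cases hS : v ∈ S
        · simp [glue, hS]
        · simp only [glue, hS, if_false]
          exact htt v ⟨hv, hS⟩
      simp only
      rw [hK _ _ hg, d1 _ _ hg]
    · intro t t' htt
      simp only
      congr 1
      refine d2 _ _ fun v hv => ?_
      by_cases hS : v ∈ S
      · simp [glue, hS]
      · simp only [glue, hS, if_false]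
        exact htt v hv
  have hpos : ∀ s : Cf ι n,
      0 < ∫ s', Real.exp (IPart G (fun e => ¬ p e) (glue S s s')) ∂(nu ι n) := by
    intro s
    have hc : Continuous fun s' : Cf ι n => IPart G (fun e => ¬ p e) (glue S s s') := by
      refine (continuous_IPart G _).comp ?_
      refine continuous_pi fun v => ?_
      by_cases hS : v ∈ S
      · simpa [glue, hS] using continuous_const
      · simpa [glue, hS] using continuous_apply v
    refine integral_exp_pos ?_
    exact (bm_of_continuous (Real.continuous_exp.comp hc)).integrable _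
  have cong : ∀ (K : Cf ι n → ℝ), Dep Q K → ∀ s t : Cf ι n, (∀ v ∈ S ∩ Q, s v = t v) →
      ∫ s', K (glue S s s') * Real.exp (IPart G p (glue S s s')) ∂(nu ι n) =
        ∫ s', K (glue S t s') * Real.exp (IPart G p (glue S t s')) ∂(nu ι n) := by
    intro K hK s t hst
    refine integral_congr_ae (Filter.Eventually.of_forall fun s' => ?_)
    have hg : ∀ v ∈ Q, glue S s s' v = glue S t s' v := by
      intro v hv
      by_cases hS : v ∈ S
      · simp only [glue, hS, if_true]
        exact hst v ⟨hS, hv⟩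
      · simp [glue, hS]
    simp only
    rw [hK _ _ hg, d1 _ _ hg]
  intro s t hst
  have e1 : ∀ s : Cf ι n, P G S F s =
      (∫ s', F (glue S s s') * Real.exp (IPart G p (glue S s s')) ∂(nu ι n)) /
        ∫ s', (fun _ => (1:ℝ)) (glue S s s') * Real.exp (IPart G p (glue S s s')) ∂(nu ι n) := by
    intro s
    have f1 := fac F hF s
    have f2 := fac (fun _ => 1) (fun _ _ _ => rfl) s
    simp only [one_mul] at f2
    unfold P
    rw [f1, f2]
    simp only [one_mul]
    exact mul_div_mul_right _ _ (hpos s).ne'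
  rw [e1 s, e1 t, cong F hF s t hst, cong (fun _ => 1) (fun _ _ _ => rfl) s t hst]

end markov

end Crest.Agent.R167
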