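import Crest.Agent.R167.Sph
import Crest.Agent.R167.PCalc
import Crest.Agent.R167.Bare
import Crest.Agent.R167.Bil0
import Crest.Agent.R167.PCalc2
import Crest.Agent.R167.Iface
import Crest.Agent.R167.GeoDefs
import Crest.Agent.R167.GeoA
import Mathlib
import Crest.Agent.R167.MomM1
import Crest.Agent.R167.Ward

-- ▼ part R167/BilWard
section

set_option autoImplicit false
open MeasureTheory Crest.ProbabilityR.SpinModel

/-!
# Row 167: Ward identity for flow invariant functions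
-/

namespace Crest.Agent.R167

set_option linter.unusedSectionVars false

variable {ι E : Type} [Fintype ι] [Fintype E] {n : ℕ}

lemma bil_Flow_glue {k l : Fin n} (h : k ≠ l) {f : ι → ℝ} {F0 : Set ι} (hf : ∀ v ∈ F0, f v = 0)
    (t : ℝ) (τ s : Cf ι n) : Flow h f t (glue F0 τ s) = glue F0 τ (Flow h f t s) := by
  funext v
  by_cases hv : v ∈ F0
  · rw [glue_mem hv]
    unfold Flow
    rw [glue_mem hv, hf v hv, mul_zero, rotS_zero]
  · rw [glue_not_mem hv]
    unfold Flow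
    rw [glue_not_mem hv]

lemma bil_deriv_I (G : Gr ι E) {k l : Fin n} (h : k ≠ l) (f : ι → ℝ) (x : Cf ι n) (t0 : ℝ) :
    HasDerivAt (fun t => G.I (Flow h f t x)) (XI G k l f (Flow h f t0 x)) t0 := by
  have h1 := (DX_I G h f).deriv (Flow h f t0 x)
  have h2 : HasDerivAt (fun t => G.I (Flow h f (t - t0) (Flow h f t0 x)))
      (XI G k l f (Flow h f t0 x)) t0 := by
    have h3 : HasDerivAt (fun u => G.I (Flow h f u (Flow h f t0 x)))
        (XI G k l f (Flow h f t0 x)) (t0 - t0) := by rw [sub_self]; exact h1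
    exact h3.comp_sub_const t0 t0
  refine h2.congr_of_eventuallyEq (Filter.Eventually.of_forall fun t => ?_)
  show G.I (Flow h f t x) = G.I (Flow h f (t - t0) (Flow h f t0 x))
  rw [← Flow_add, sub_add_cancel]

theorem bil_ward_inv [NeZero n] (G : Gr ι E) {k l : Fin n} {h : k ≠ l} {f : ι → ℝ}
    {F : Cf ι n → ℝ} {A : Set ι} (hf : ∀ v ∈ A, f v = 0) (hF : Continuous F)
    (hinv : ∀ t s, F (Flow h f t s) = F s) (s : Cf ι n) :
    P G A (fun s => F s * XI G k l f s) s = 0 := by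
  have hcF : ∀ t : ℝ, Continuous fun x : Cf ι n => Flow h f t x := fun t =>
    Continuous.comp (g := fun p : ℝ × Cf ι n => Flow h f p.1 p.2) (f := fun x => (t, x))
      (continuous_Flow h f) (Continuous.prodMk_right t)
  -- the rotated integral
  let φ : ℝ → Cf ι n → ℝ := fun t s' =>
    F (glue A s s') * Real.exp (G.I (Flow h f t (glue A s s')))
  let φ' : ℝ → Cf ι n → ℝ := fun t s' =>
    F (glue A s s') * (Real.exp (G.I (Flow h f t (glue A s s'))) *
      XI G k l f (Flow h f t (glue A s s')))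
  have hconst : ∀ t, ∫ s', φ t s' ∂(nu ι n) = ∫ s', φ 0 s' ∂(nu ι n) := by
    intro t
    have mp := mp_Flow (ι := ι) (n := n) h f t
    have hc : Continuous fun s' : Cf ι n => F (glue A s s') * Real.exp (G.I (glue A s s')) :=
      (hF.mul (continuous_w G)).comp (continuous_glue_right A s)
    have h2 := integral_map (μ := nu ι n) mp.aemeasurable
      (f := fun s' => F (glue A s s') * Real.exp (G.I (glue A s s'))) hc.aestronglyMeasurable
    rw [mp.map_eq] at h2
    have h0 : ∀ s', φ 0 s' = F (glue A s s') * Real.exp (G.I (glue A s s')) := by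
      intro s'
      show F (glue A s s') * Real.exp (G.I (Flow h f 0 (glue A s s'))) = _
      rw [Flow_zero]
    have h1 : ∀ s', φ t s' = F (glue A s (Flow h f t s')) *
        Real.exp (G.I (glue A s (Flow h f t s'))) := by
      intro s'
      show F (glue A s s') * Real.exp (G.I (Flow h f t (glue A s s'))) = _
      rw [← bil_Flow_glue h hf t s s', hinv]
    simp only [h0, h1]
    exact h2.symm
  have hder : HasDerivAt (fun t => ∫ s', φ t s' ∂(nu ι n)) (∫ s', φ' 0 s' ∂(nu ι n)) 0 := by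
    obtain ⟨MF, hMF0, hMF⟩ := cont_bdd hF
    obtain ⟨MI, hMI0, hMI⟩ := cont_bdd (continuous_w (n := n) G)
    obtain ⟨MX, hMX0, hMX⟩ := cont_bdd (continuous_XI (n := n) G k l f)
    have hcφ : ∀ t, Continuous (φ t) := fun t =>
      (hF.comp (continuous_glue_right A s)).mul
        ((continuous_w G).comp ((hcF t).comp (continuous_glue_right A s)))
    have hcφ' : ∀ t, Continuous (φ' t) := fun t =>
      (hF.comp (continuous_glue_right A s)).mul
        (((continuous_w G).comp ((hcF t).comp (continuous_glue_right A s))).mul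
          ((continuous_XI G k l f).comp ((hcF t).comp (continuous_glue_right A s))))
    refine (hasDerivAt_integral_of_dominated_loc_of_deriv_le (μ := nu ι n) (F := φ) (F' := φ')
      (x₀ := (0 : ℝ)) (s := Set.univ) (bound := fun _ => MF * (MI * MX)) Filter.univ_mem
      (Filter.Eventually.of_forall fun t => (hcφ t).aestronglyMeasurable)
      (integrable_of_cont (hcφ 0)) (hcφ' 0).aestronglyMeasurable
      (Filter.Eventually.of_forall fun s' t _ => ?_) (integrable_const _)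
      (Filter.Eventually.of_forall fun s' t _ => ?_)).2
    · show ‖F (glue A s s') * (Real.exp (G.I (Flow h f t (glue A s s'))) *
        XI G k l f (Flow h f t (glue A s s')))‖ ≤ MF * (MI * MX)
      rw [norm_mul, norm_mul]
      exact mul_le_mul (hMF _) (mul_le_mul (hMI _) (hMX _) (norm_nonneg _) hMI0)
        (by positivity) hMF0
    · exact ((bil_deriv_I G h f (glue A s s') t).exp).const_mul (F (glue A s s'))
  have h3 : ∫ s', φ' 0 s' ∂(nu ι n) = 0 := by
    have h4 : (fun t => ∫ s', φ t s' ∂(nu ι n)) = fun _ => ∫ s', φ 0 s' ∂(nu ι n) := by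
      funext t; exact hconst t
    rw [h4] at hder
    exact hder.unique (hasDerivAt_const _ _)
  unfold P
  have h5 : ∫ s', (fun s => F s * XI G k l f s) (glue A s s') * Real.exp (G.I (glue A s s'))
      ∂(nu ι n) = 0 := by
    rw [← h3]
    refine integral_congr_ae (Filter.Eventually.of_forall fun s' => ?_)
    show F (glue A s s') * XI G k l f (glue A s s') * Real.exp (G.I (glue A s s'))
      = F (glue A s s') * (Real.exp (G.I (Flow h f 0 (glue A s s'))) *
        XI G k l f (Flow h f 0 (glue A s s')))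
    rw [Flow_zero]
    ring
  rw [h5, zero_div]

end Crest.Agent.R167
end

-- ▼ part R167/Bil
section

set_option autoImplicit false
open MeasureTheory Crest.ProbabilityR.SpinModel

/-!
# Row 167, NODE STEP, (S1), (S2), (S3), (S5), (B4), (B5): the parts using Markov and Ward
-/

namespace Crest.Agent.R167

set_option linter.unusedSectionVars false

variable {ι E : Type} [Fintype ι] [Fintype E] {n : ℕ}

/-! ### (S1): `P_S X_ψ I` depends only on the spins of the cell -/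

section S1

variable [NeZero n] (G : Gr ι E) (k l : Fin n) {S Q Qo : Set ι}

theorem dep_P_XI (hcl : ∀ e, (G.src e ∈ Qo ∨ G.tgt e ∈ Qo) → G.src e ∈ Q ∧ G.tgt e ∈ Q)
    (hbd : Q \ Qo ⊆ S) {ψ : ι → ℝ} (hψ : ∀ v, v ∉ Qo → ψ v = 0) :
    Dep (S ∩ Q) (P G S (XI G k l ψ : Cf ι n → ℝ)) := by
  refine P_dep_of_closed G S Q (dep_XI G k l hcl hψ) fun e he => hcl e ?_
  have h1 : ∀ v, v ∈ Q \ S → v ∈ Qo := fun v hv => by
    by_contra hvo
    exact hv.2 (hbd ⟨hv.1, hvo⟩)
  exact he.imp (h1 _) (h1 _)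

/-- locality: conditional averages over `S` and `S \ Qo` agree on functions not seeing `Qo`. -/
theorem P_eq_diff (hcl : ∀ e, (G.src e ∈ Qo ∨ G.tgt e ∈ Qo) → G.src e ∈ Q ∧ G.tgt e ∈ Q)
    (hbd : Q \ Qo ⊆ S) {F : Cf ι n → ℝ} (hF : Continuous F) (hd : Dep Qoᶜ F) (s : Cf ι n) :
    P G (S \ Qo) F s = P G S F s := by
  have h1 : Dep (S ∩ Qoᶜ) (P G S F) := by
    refine P_dep_of_closed G S Qoᶜ hd fun e he => ?_
    rcases he with he | he
    · refine ⟨he.1, fun h2 => ?_⟩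
      exact he.2 (hbd ⟨(hcl e (Or.inr h2)).1, he.1⟩)
    · refine ⟨fun h2 => ?_, he.1⟩
      exact he.2 (hbd ⟨(hcl e (Or.inl h2)).2, he.1⟩)
  rw [← P_tower (B := S) G Set.sdiff_subset hF s, P_of_dep (A := S \ Qo) G h1]

/-- (B5) -/
theorem loc (hcl : ∀ e, (G.src e ∈ Qo ∨ G.tgt e ∈ Qo) → G.src e ∈ Q ∧ G.tgt e ∈ Q)
    (hbd : Q \ Qo ⊆ S) {g h : ι → ℝ} {c : ℝ} (hgh : ∀ v ∈ Q, g v - h v = c) (s : Cf ι n) :
    P G S (XI G k l g) s - P G (S \ Qo) (XI G k l g) s
      = P G S (XI G k l h) s - P G (S \ Qo) (XI G k l h) s := by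
  have h1 := P_eq_diff G hcl hbd (continuous_XI G k l (fun v => g v - h v))
    (dep_XI_compl G k l hcl hgh) s
  have h2 : ∀ A : Set ι, P G A (XI G k l (fun v => g v - h v)) s
      = P G A (XI G k l g) s - P G A (XI G k l h) s := by
    intro A
    rw [← P_sub G (continuous_XI G k l g) (continuous_XI G k l h) s]
    congr 1
    funext s
    exact XI_sub G k l g h s
  rw [h2, h2] at h1
  linarith

end S1

/-! ### the bilinear form on cells -/

section BBcell

variable [NeZero n] (G : Gr ι E) {F0 S : Set ι} {k l : Fin n} (τ : Cf ι n)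

variable {Q Qo : Set ι}

/-- (B4): `BB(ψ,h) = 0` if `ψ` is supported in the open cell and `h` is constant on the closed
cell and vanishes on `F0`. -/
theorem BB_eq_zero (hkl : k ≠ l) (hS : F0 ⊆ S)
    (hcl : ∀ e, (G.src e ∈ Qo ∨ G.tgt e ∈ Qo) → G.src e ∈ Q ∧ G.tgt e ∈ Q)
    (hbd : Q \ Qo ⊆ S) {ψ h : ι → ℝ} (hψ : ∀ v, v ∉ Qo → ψ v = 0) {c : ℝ}
    (hc : ∀ v ∈ Q, h v = c) (hh : ∀ v ∈ F0, h v = 0) :
    BB G F0 S k l ψ h τ = 0 := by
  unfold BB
  rw [← P_selfadj G hS (continuous_XI G k l ψ) (continuous_XI G k l h) τ]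
  refine bil_ward_inv G (h := hkl) hh (continuous_PXI G k l S ψ) (fun t s => ?_) τ
  have h1 : P G S (XI G k l ψ) (Flow hkl h t s)
      = P G S (XI G k l ψ) (Flow hkl (fun _ => 1) (t * c) s) := by
    refine dep_P_XI G k l hcl hbd hψ _ _ fun v hv => ?_
    rw [Flow_one_apply]
    unfold Flow
    rw [hc v hv.2]
  rw [h1]
  exact P_inv G hkl S (continuous_XI G k l ψ) (fun t s => XI_inv G hkl ψ t s) _ _



end BBcell

end Crest.Agent.R167
end

-- ▼ part R167/StepGain
section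

/-! # Row 167, NODE STEP: the gain of one class of cells (telescoping form). -/

set_option autoImplicit false
open MeasureTheory Crest.ProbabilityR.SpinModel

namespace Crest.Agent.R167

variable {ι E : Type} [Fintype ι] [Fintype E] {n : ℕ}

/-- `P_S F = P_{S'} F` if `F` lives on `Q` and `S, S'` agree on `Q`. -/
theorem P_eq_of_inter [NeZero n] (G : Gr ι E) {S S' Q : Set ι} {F : Cf ι n → ℝ} (hF : Continuous F)
    (hd : Dep Q F) (hcl : ∀ e, (G.src e ∈ Q \ S ∨ G.tgt e ∈ Q \ S) → G.src e ∈ Q ∧ G.tgt e ∈ Q)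
    (hS : S' ⊆ S) (hi : S ∩ Q ⊆ S') (s : Cf ι n) : P G S' F s = P G S F s := by
  have h1 : Dep (S ∩ Q) (P G S F) := P_dep_of_closed G S Q hd hcl
  have h2 : Dep S' (P G S F) := fun s t hst => h1 s t fun v hv => hst v (hi hv)
  rw [← P_tower G hS hF s, P_of_dep G h2]

theorem step_gain [NeZero n] (G : Gr ι E) {Z : Type} (c : Finset Z) (Q Qo : Z → Set ι)
    (F0 S : Set ι)
    (hF0 : F0 ⊆ S) (hF0' : ∀ z ∈ c, Disjoint F0 (Qo z))
    (hbd : ∀ z ∈ c, Q z \ Qo z ⊆ S)
    (hcl : ∀ z ∈ c, ∀ e, (G.src e ∈ Qo z ∨ G.tgt e ∈ Qo z) → G.src e ∈ Q z ∧ G.tgt e ∈ Q z)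
    (hdisj : ∀ z ∈ c, ∀ z' ∈ c, z ≠ z' → Disjoint (Q z) (Qo z'))
    (F : Cf ι n → ℝ) (hF : Continuous F)
    (hdec : ∀ z ∈ c, ∃ F1 F2 : Cf ι n → ℝ, Continuous F1 ∧ Continuous F2 ∧ Dep (Q z) F1 ∧
      Dep (Qo z)ᶜ F2 ∧ ∀ s, F s = F1 s + F2 s) (τ : Cf ι n) :
    ∑ z ∈ c, P G F0 (fun s => (P G S F s - P G (S \ Qo z) F s) ^ 2) τ
      = P G F0 (fun s => P G S F s ^ 2) τ
        - P G F0 (fun s => P G (S \ ⋃ z ∈ c, Qo z) F s ^ 2) τ := by
  classical
  induction c using Finset.induction_on with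
  | empty => simp
  | insert z0 c hz0 ih =>
    have ih' := ih (fun z hz => hF0' z (Finset.mem_insert_of_mem hz))
      (fun z hz => hbd z (Finset.mem_insert_of_mem hz))
      (fun z hz => hcl z (Finset.mem_insert_of_mem hz))
      (fun z hz z' hz' => hdisj z (Finset.mem_insert_of_mem hz) z' (Finset.mem_insert_of_mem hz'))
      (fun z hz => hdec z (Finset.mem_insert_of_mem hz))
    rw [Finset.sum_insert hz0, ih']
    set S' : Set ι := S \ ⋃ z ∈ c, Qo z with hS'
    have hz0m := Finset.mem_insert_self z0 c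
    have hun : S \ ⋃ z ∈ insert z0 c, Qo z = S' \ Qo z0 := by
      rw [hS', Finset.set_biUnion_insert, Set.sdiff_sdiff, Set.union_comm]
    rw [hun]
    -- the sets agree on `Q z0`
    have hag : S ∩ Q z0 ⊆ S' := by
      rintro v ⟨hv, hvQ⟩
      refine ⟨hv, ?_⟩
      rw [Set.mem_iUnion₂]
      rintro ⟨z, hz, hvz⟩
      exact Set.disjoint_left.1 (hdisj z0 hz0m z (Finset.mem_insert_of_mem hz)
        (fun h => hz0 (h ▸ hz))) hvQ hvz
    have hS'S : S' ⊆ S := Set.sdiff_subset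
    have hF0S' : F0 ⊆ S' \ Qo z0 := by
      intro v hv
      refine ⟨⟨hF0 hv, ?_⟩, fun h => Set.disjoint_left.1 (hF0' z0 hz0m) hv h⟩
      rw [Set.mem_iUnion₂]
      rintro ⟨z, hz, hvz⟩
      exact Set.disjoint_left.1 (hF0' z (Finset.mem_insert_of_mem hz)) hv hvz
    obtain ⟨F1, F2, c1, c2, d1, d2, hsum⟩ := hdec z0 hz0m
    have hFe : F = fun s => F1 s + F2 s := funext hsum
    have hPF : ∀ (A : Set ι) (s : Cf ι n), P G A F s = P G A F1 s + P G A F2 s := by
      intro A s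
      rw [hFe]
      exact P_add G c1 c2 s
    have hQo : ∀ v, v ∈ Q z0 \ S → v ∈ Qo z0 := fun v hv => by
      by_contra h
      exact hv.2 (hbd z0 hz0m ⟨hv.1, h⟩)
    have hQo' : ∀ v, v ∈ Q z0 \ (S \ Qo z0) → v ∈ Qo z0 := fun v hv => by
      by_contra h
      exact hv.2 ⟨hbd z0 hz0m ⟨hv.1, h⟩, h⟩
    have hbd' : Q z0 \ Qo z0 ⊆ S' := fun v hv => hag ⟨hbd z0 hz0m hv, hv.1⟩
    have key : ∀ s : Cf ι n, P G S F s - P G (S \ Qo z0) F s
        = P G S' F s - P G (S' \ Qo z0) F s := by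
      intro s
      rw [hPF, hPF, hPF, hPF]
      have e1 : P G S' F1 s = P G S F1 s :=
        P_eq_of_inter G c1 d1 (fun e he => hcl z0 hz0m e (he.imp (hQo _) (hQo _))) hS'S hag s
      have e2 : P G (S' \ Qo z0) F1 s = P G (S \ Qo z0) F1 s :=
        P_eq_of_inter G (S := S \ Qo z0) (S' := S' \ Qo z0) c1 d1
          (fun e he => hcl z0 hz0m e (he.imp (hQo' _) (hQo' _)))
          (fun v hv => ⟨hS'S hv.1, hv.2⟩) (fun v hv => ⟨hag ⟨hv.1.1, hv.2⟩, hv.1.2⟩) s
      have e3 : P G (S \ Qo z0) F2 s = P G S F2 s := P_eq_diff G (hcl z0 hz0m) (hbd z0 hz0m) c2 d2 s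
      have e4 : P G (S' \ Qo z0) F2 s = P G S' F2 s := P_eq_diff G (hcl z0 hz0m) hbd' c2 d2 s
      linarith
    have hfun : (fun s : Cf ι n => (P G S F s - P G (S \ Qo z0) F s) ^ 2)
        = fun s => (P G S' F s - P G (S' \ Qo z0) F s) ^ 2 := by
      funext s; rw [key s]
    rw [hfun, P_pyth G hF0S' Set.sdiff_subset hF τ]
    ring

end Crest.Agent.R167
end

-- ▼ part R167/GeoB
section

/-! Row 167, node GEO-B: integer geometry of the boxes, nodes and grids (helper681). -/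

set_option autoImplicit false

namespace Crest.Agent.R167.GeoB

open Crest.ProbabilityR.SpinModel

/-- closed box -/
def cbox (z : ℤ × ℤ) (a : ℕ) : Set (ℤ × ℤ) := {v | |v.1 - z.1| ≤ a ∧ |v.2 - z.2| ≤ a}
/-- open box -/
def obox (z : ℤ × ℤ) (a : ℕ) : Set (ℤ × ℤ) := {v | |v.1 - z.1| < a ∧ |v.2 - z.2| < a}
/-- grid lines of mesh `a` through `o` -/
def grid (a : ℕ) (o : ℤ × ℤ) : Set (ℤ × ℤ) := {v | (a : ℤ) ∣ v.1 - o.1 ∨ (a : ℤ) ∣ v.2 - o.2}
/-- nodes of the grid -/
def Node (a : ℕ) (o z : ℤ × ℤ) : Prop := (a : ℤ) ∣ z.1 - o.1 ∧ (a : ℤ) ∣ z.2 - o.2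

instance (a : ℕ) (o z : ℤ × ℤ) : Decidable (Node a o z) := by unfold Node; infer_instance

lemma mem_cbox {z v : ℤ × ℤ} {a : ℕ} : v ∈ cbox z a ↔ |v.1 - z.1| ≤ a ∧ |v.2 - z.2| ≤ a := Iff.rfl
lemma mem_obox {z v : ℤ × ℤ} {a : ℕ} : v ∈ obox z a ↔ |v.1 - z.1| < a ∧ |v.2 - z.2| < a := Iff.rfl

lemma obox_subset_cbox (z : ℤ × ℤ) (a : ℕ) : obox z a ⊆ cbox z a := fun _ h => ⟨h.1.le, h.2.le⟩



lemma dir_fst (i : Fin 2) : |(latticeDir i).1| ≤ 1 := by fin_cases i <;> simp [latticeDir]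
lemma dir_snd (i : Fin 2) : |(latticeDir i).2| ≤ 1 := by fin_cases i <;> simp [latticeDir]

/-- forward neighbours of the open box are in the closed box -/
lemma nbr_fwd {z u : ℤ × ℤ} {a : ℕ} (h : u ∈ obox z a) (i : Fin 2) : u + latticeDir i ∈ cbox z a := by
  have h1 := dir_fst i
  have h2 := dir_snd i
  obtain ⟨hu1, hu2⟩ := h
  refine ⟨?_, ?_⟩
  · have : (u + latticeDir i).1 - z.1 = (u.1 - z.1) + (latticeDir i).1 := by simp; ring
    rw [this]
    have := abs_add_le (u.1 - z.1) (latticeDir i).1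
    omega
  · have : (u + latticeDir i).2 - z.2 = (u.2 - z.2) + (latticeDir i).2 := by simp; ring
    rw [this]
    have := abs_add_le (u.2 - z.2) (latticeDir i).2
    omega

/-- backward neighbours of the open box are in the closed box -/
lemma nbr_bwd {z u : ℤ × ℤ} {a : ℕ} {i : Fin 2} (h : u + latticeDir i ∈ obox z a) : u ∈ cbox z a := by
  have h1 := dir_fst i
  have h2 := dir_snd i
  obtain ⟨hu1, hu2⟩ := h
  refine ⟨?_, ?_⟩
  · have e : u.1 - z.1 = ((u + latticeDir i).1 - z.1) - (latticeDir i).1 := by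
      rw [Prod.fst_add]; ring
    rw [e]
    have := abs_sub ((u + latticeDir i).1 - z.1) (latticeDir i).1
    omega
  · have e : u.2 - z.2 = ((u + latticeDir i).2 - z.2) - (latticeDir i).2 := by
      rw [Prod.snd_add]; ring
    rw [e]
    have := abs_sub ((u + latticeDir i).2 - z.2) (latticeDir i).2
    omega

/-- the boundary of the box of a node lies on the grid -/
lemma bdry_subset_grid {a : ℕ} {o z : ℤ × ℤ} (hz : Node a o z) : cbox z a \ obox z a ⊆ grid a o := by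
  rintro v ⟨⟨h1, h2⟩, h3⟩
  rw [mem_obox, not_and_or, not_lt, not_lt] at h3
  rcases h3 with h3 | h3
  · left
    have h4 : |v.1 - z.1| = a := le_antisymm h1 h3
    have h5 : (a : ℤ) ∣ v.1 - z.1 := by
      rw [← dvd_abs, h4]
    have e : v.1 - o.1 = (v.1 - z.1) + (z.1 - o.1) := by ring
    rw [e]; exact dvd_add h5 hz.1
  · right
    have h4 : |v.2 - z.2| = a := le_antisymm h2 h3
    have h5 : (a : ℤ) ∣ v.2 - z.2 := by
      rw [← dvd_abs, h4]
    have e : v.2 - o.2 = (v.2 - z.2) + (z.2 - o.2) := by ring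
    rw [e]; exact dvd_add h5 hz.2

/-- two nodes in the same class -/
def Same (a : ℕ) (z z' : ℤ × ℤ) : Prop := (2 * a : ℤ) ∣ z.1 - z'.1 ∧ (2 * a : ℤ) ∣ z.2 - z'.2

instance (a : ℕ) (z z' : ℤ × ℤ) : Decidable (Same a z z') := by unfold Same; infer_instance

lemma Same.refl (a : ℕ) (z : ℤ × ℤ) : Same a z z := by simp [Same]
lemma Same.symm {a : ℕ} {z z' : ℤ × ℤ} (h : Same a z z') : Same a z' z :=
  ⟨by have := h.1; rw [← dvd_neg] at this; simpa using this,
   by have := h.2; rw [← dvd_neg] at this; simpa using this⟩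
lemma Same.trans {a : ℕ} {z z' z'' : ℤ × ℤ} (h : Same a z z') (h' : Same a z' z'') : Same a z z'' :=
  ⟨by have := dvd_add h.1 h'.1; rwa [sub_add_sub_cancel] at this,
   by have := dvd_add h.2 h'.2; rwa [sub_add_sub_cancel] at this⟩

lemma eq_of_dvd_of_abs_lt {m t : ℤ} (h : m ∣ t) (h' : |t| < m) : t = 0 := Int.eq_zero_of_abs_lt_dvd h h'

/-- distinct nodes of one class: the closed box of one misses the open box of the other -/
lemma disj_same {a : ℕ} {z z' : ℤ × ℤ} (h : Same a z z') (hne : z ≠ z') :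
    Disjoint (cbox z a) (obox z' a) := by
  rw [Set.disjoint_left]
  rintro v ⟨h1, h2⟩ ⟨h3, h4⟩
  apply hne
  have e1 : z.1 - z'.1 = 0 := by
    apply eq_of_dvd_of_abs_lt h.1
    have e : z.1 - z'.1 = (v.1 - z'.1) - (v.1 - z.1) := by ring
    rw [e]
    have := abs_sub (v.1 - z'.1) (v.1 - z.1)
    omega
  have e2 : z.2 - z'.2 = 0 := by
    apply eq_of_dvd_of_abs_lt h.2
    have e : z.2 - z'.2 = (v.2 - z'.2) - (v.2 - z.2) := by ring
    rw [e]
    have := abs_sub (v.2 - z'.2) (v.2 - z.2)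
    omega
  exact Prod.ext (by linarith) (by linarith)

/-- offset of the next grid when the class of `z` is removed -/
def nxt (a : ℕ) (z : ℤ × ℤ) : ℤ × ℤ := (z.1 + a, z.2 + a)

lemma grid_nxt_subset {a : ℕ} {o z : ℤ × ℤ} (hz : Node a o z) : grid (2 * a) (nxt a z) ⊆ grid a o := by
  rintro v (h | h)
  · left
    have h1 : (a : ℤ) ∣ v.1 - (z.1 + a) := by
      refine dvd_trans ?_ h
      push_cast; exact dvd_mul_left _ _
    have e : v.1 - o.1 = (v.1 - (z.1 + a)) + (z.1 - o.1) + a := by ring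
    rw [e]; exact dvd_add (dvd_add h1 hz.1) dvd_rfl
  · right
    have h1 : (a : ℤ) ∣ v.2 - (z.2 + a) := by
      refine dvd_trans ?_ h
      push_cast; exact dvd_mul_left _ _
    have e : v.2 - o.2 = (v.2 - (z.2 + a)) + (z.2 - o.2) + a := by ring
    rw [e]; exact dvd_add (dvd_add h1 hz.2) dvd_rfl

lemma grid_nxt_disj {a : ℕ} {z z' : ℤ × ℤ} (h : Same a z z') :
    Disjoint (grid (2 * a) (nxt a z)) (obox z' a) := by
  rw [Set.disjoint_left]
  rintro v hv ⟨h3, h4⟩
  have key : ∀ (p q r : ℤ), (2 * a : ℤ) ∣ p - (q + a) → (2 * a : ℤ) ∣ q - r → |p - r| < a → False := by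
    intro p q r h1 h2 h5
    have h6 := dvd_add h1 h2
    have e : p - (q + a) + (q - r) = p - r - a := by ring
    rw [e] at h6
    have h7 : |p - r - a| < 2 * a := by
      have := abs_sub (p - r) (a : ℤ)
      have h8 : |(a : ℤ)| = a := abs_of_nonneg (by positivity)
      omega
    have h9 := eq_of_dvd_of_abs_lt h6 h7
    have : p - r = a := by linarith
    rw [this, abs_of_nonneg (by positivity : (0 : ℤ) ≤ a)] at h5
    exact lt_irrefl _ h5
  rcases hv with hv | hv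
  · exact key _ _ _ (by simpa [nxt] using hv) h.1 h3
  · exact key _ _ _ (by simpa [nxt] using hv) h.2 h4

/-- the four classes of nodes -/
noncomputable def rep (a : ℕ) (o : ℤ × ℤ) (c : Bool × Bool) : ℤ × ℤ :=
  (o.1 + (if c.1 then (a : ℤ) else 0), o.2 + (if c.2 then (a : ℤ) else 0))

lemma node_rep (a : ℕ) (o : ℤ × ℤ) (c : Bool × Bool) : Node a o (rep a o c) := by
  constructor <;> (simp only [rep]; split_ifs <;> simp)


/-- nodes with `|z - x| ≤ M` -/
noncomputable def nodes (x : ℤ × ℤ) (M a : ℕ) (o : ℤ × ℤ) : Finset (ℤ × ℤ) :=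
  ((Finset.Icc (x.1 - M) (x.1 + M)) ×ˢ (Finset.Icc (x.2 - M) (x.2 + M))).filter (Node a o)


/-- one dimensional count -/
lemma card_1d (x : ℤ) (M a : ℕ) (o : ℤ) (ha : 1 ≤ a) :
    (((Finset.Icc (x - M) (x + M)).filter (fun z : ℤ => (a : ℤ) ∣ z - o)).card : ℝ) ≤ 2 * M / a + 1 := by
  set s := (Finset.Icc (x - M) (x + M)).filter (fun z : ℤ => (a : ℤ) ∣ z - o) with hs
  have ha' : (0 : ℤ) < a := by exact_mod_cast ha
  -- injection to quotients
  have himg : s.card ≤ (Finset.Icc ((x - M - o + (a - 1)) / a) ((x + M - o) / a)).card := by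
    apply Finset.card_le_card_of_injOn (fun z => (z - o) / a)
    · intro z hz
      simp only [hs, Finset.coe_filter, Finset.mem_Icc, Set.mem_setOf_eq] at hz
      obtain ⟨⟨h1, h2⟩, t, ht⟩ := hz
      simp only [Finset.coe_Icc, Set.mem_Icc]
      have e : (z - o) / (a : ℤ) = t := by rw [ht]; exact Int.mul_ediv_cancel_left _ ha'.ne'
      rw [e]
      constructor
      · have : x - M - o + (a - 1) < (t + 1) * a := by nlinarith
        have := Int.ediv_lt_of_lt_mul ha' this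
        omega
      · apply Int.le_ediv_of_mul_le ha'
        nlinarith
    · intro z hz z' hz' h
      simp only [hs, Finset.coe_filter, Finset.mem_Icc, Set.mem_setOf_eq] at hz hz'
      obtain ⟨-, t, ht⟩ := hz
      obtain ⟨-, t', ht'⟩ := hz'
      simp only at h
      rw [ht, ht', Int.mul_ediv_cancel_left _ ha'.ne', Int.mul_ediv_cancel_left _ ha'.ne'] at h
      subst h
      linarith
  have h2 : ((Finset.Icc ((x - M - o + (a - 1)) / a) ((x + M - o) / a)).card : ℝ) ≤ 2 * M / a + 1 := by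
    rw [Int.card_Icc]
    have h3 : ((x + M - o) / (a : ℤ)) * a ≤ x + M - o := Int.ediv_mul_le _ ha'.ne'
    have h4 : x - M - o + (a - 1) < ((x - M - o + (a - 1)) / (a : ℤ) + 1) * a :=
      Int.lt_ediv_add_one_mul_self _ ha'
    set p := (x + M - o) / (a : ℤ)
    set q := (x - M - o + (a - 1)) / (a : ℤ)
    have h5 : (p - q) * a ≤ 2 * M := by
      have : x - M - o + a ≤ (q + 1) * a := by omega
      nlinarith
    have haR : (0 : ℝ) < a := by exact_mod_cast ha
    have h6 : ((p - q : ℤ) : ℝ) ≤ 2 * M / a := by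
      rw [le_div_iff₀ haR]; exact_mod_cast h5
    have h7 : ((p + 1 - q).toNat : ℝ) ≤ max 0 ((p - q : ℤ) + 1 : ℝ) := by
      rcases le_total 0 (p + 1 - q) with h | h
      · have : (((p + 1 - q).toNat : ℤ) : ℝ) = ((p + 1 - q : ℤ) : ℝ) := by rw [Int.toNat_of_nonneg h]
        have h8 : ((p + 1 - q).toNat : ℝ) = ((p + 1 - q : ℤ) : ℝ) := by exact_mod_cast this
        rw [h8]; apply le_max_of_le_right; push_cast; linarith
      · rw [Int.toNat_of_nonpos h]; simp
    refine h7.trans (max_le (by positivity) (by linarith))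
  exact le_trans (by exact_mod_cast himg) h2






end Crest.Agent.R167.GeoB
end

-- ▼ part R167/GeoB2
section

/-! Row 167, node GEO-B, part 2: the integer geometry in terms of the frozen definitions
`bx`, `ocell`, `Grid`, `hat`, `cut`, `Geo.nodes`, `Geo.act` (helper681). -/

set_option autoImplicit false

namespace Crest.Agent.R167.GeoB

open Crest.ProbabilityR.SpinModel

variable {V : Finset (ℤ × ℤ)} {b : ℤ × ℤ → Fin 2 → ℝ} {R a : ℕ} {x o z z' : ℤ × ℤ}


/-! ### membership -/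

lemma mem_gnodes : z ∈ Geo.nodes R a x o ↔ z ∈ cbox x (3 * R) ∧ Node a o z := by
  simp only [Geo.nodes, Finset.mem_filter, Finset.mem_product, Finset.mem_Icc, mem_cbox, abs_le,
    Node]
  push_cast
  constructor
  · rintro ⟨⟨⟨h1, h2⟩, h3⟩, ⟨h4, h5⟩, h6⟩
    exact ⟨⟨⟨by linarith, by linarith⟩, by linarith, by linarith⟩, h3, h6⟩
  · rintro ⟨⟨⟨h1, h2⟩, h4, h5⟩, h3, h6⟩
    exact ⟨⟨⟨by linarith, by linarith⟩, h3⟩, ⟨by linarith, by linarith⟩, h6⟩

lemma node_of_mem_gnodes (h : z ∈ Geo.nodes R a x o) : Node a o z := (mem_gnodes.1 h).2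

lemma mem_act : z ∈ Geo.act R a x o ↔ z ∈ Geo.nodes R a x o ∧ Geo.IsAct R a x z := by
  classical
  simp only [Geo.act, Finset.mem_filter]

lemma node_of_mem_act (h : z ∈ Geo.act R a x o) : Node a o z := node_of_mem_gnodes (mem_act.1 h).1

/-- a node which is not active: the cut-off is constant on the closed box. -/
lemma cut_const_of_not_act (h : z ∈ Geo.nodes R a x o) (h' : z ∉ Geo.act R a x o) {v : ℤ × ℤ}
    (h1 : |v.1 - z.1| ≤ a) (h2 : |v.2 - z.2| ≤ a) : cut x R v = cut x R z := by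
  by_contra hc
  exact h' (mem_act.2 ⟨h, v, h1, h2, hc⟩)

/-! ### N3 -/

lemma hat1_eq_zero (ha : 1 ≤ a) {t : ℤ} (h : ¬ |t| < a) : hat1 a t = 0 := by
  have ha0 : (0 : ℝ) < a := by exact_mod_cast ha
  have h1 : (a : ℝ) ≤ |(t : ℝ)| := by
    have : (a : ℤ) ≤ |t| := not_lt.1 h
    exact_mod_cast this
  have h2 : 1 ≤ |(t : ℝ)| / a := by rw [le_div_iff₀ ha0]; linarith
  unfold hat1
  exact max_eq_left (by linarith)

lemma hat_eq_zero (ha : 1 ≤ a) {v : ℤ × ℤ} (h : ¬ (|v.1 - z.1| < a ∧ |v.2 - z.2| < a)) :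
    hat a z v = 0 := by
  unfold hat
  rcases not_and_or.1 h with h | h
  · rw [hat1_eq_zero ha h, zero_mul]
  · rw [hat1_eq_zero ha h, mul_zero]


/-! ### the cut-off -/

lemma phi_eq_one (hR : 1 ≤ R) {t : ℤ} (h : 2 * |t| ≤ 3 * R) : phi R t = 1 := by
  have hR0 : (0 : ℝ) < R := by exact_mod_cast hR
  have h1 : 2 * |(t : ℝ)| ≤ 3 * R := by exact_mod_cast h
  have h2 : |(t : ℝ)| / R ≤ 3 / 2 := by rw [div_le_iff₀ hR0]; linarith
  unfold phi
  rw [min_eq_left (by linarith), max_eq_right (by norm_num)]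

lemma phi_eq_zero (hR : 1 ≤ R) {t : ℤ} (h : 5 * R ≤ 2 * |t|) : phi R t = 0 := by
  have hR0 : (0 : ℝ) < R := by exact_mod_cast hR
  have h1 : 5 * (R : ℝ) ≤ 2 * |(t : ℝ)| := by exact_mod_cast h
  have h2 : 5 / 2 ≤ |(t : ℝ)| / R := by rw [le_div_iff₀ hR0]; linarith
  unfold phi
  exact max_eq_left ((min_le_right _ _).trans (by linarith))



lemma cut_eq_one (hR : 1 ≤ R) {v : ℤ × ℤ} (h1 : 2 * |v.1 - x.1| ≤ 3 * R)
    (h2 : 2 * |v.2 - x.2| ≤ 3 * R) : cut x R v = 1 := by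
  unfold cut; rw [phi_eq_one hR h1, phi_eq_one hR h2, one_mul]

lemma cut_eq_zero (hR : 1 ≤ R) {v : ℤ × ℤ} (h : 5 * R ≤ 2 * |v.1 - x.1| ∨ 5 * R ≤ 2 * |v.2 - x.2|) :
    cut x R v = 0 := by
  unfold cut
  rcases h with h | h
  · rw [phi_eq_zero hR h, zero_mul]
  · rw [phi_eq_zero hR h, mul_zero]

/-! ### N4 -/

/-- the closed box of an active node misses `|v - x| ≤ R`. -/
lemma act_miss (ha : 1 ≤ a) (haR : 100 * a ≤ R) (h : Geo.IsAct R a x z) {w : ℤ × ℤ}
    (h1 : |w.1 - z.1| ≤ a) (h2 : |w.2 - z.2| ≤ a) : ¬ (|w.1 - x.1| ≤ R ∧ |w.2 - x.2| ≤ R) := by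
  rintro ⟨h3, h4⟩
  obtain ⟨v, h5, h6, h7⟩ := h
  have hR : 1 ≤ R := by omega
  apply h7
  rw [cut_eq_one hR (v := v), cut_eq_one hR (v := z)]
  all_goals
    rw [abs_le] at h1 h2 h3 h4 h5 h6
    have haR' : 100 * (a : ℤ) ≤ R := by exact_mod_cast haR
    have ha' : (1 : ℤ) ≤ a := by exact_mod_cast ha
    cases abs_cases (v.1 - x.1) <;> cases abs_cases (v.2 - x.2) <;>
      cases abs_cases (z.1 - x.1) <;> cases abs_cases (z.2 - x.2) <;> omega



lemma act_disj_bx' (ha : 1 ≤ a) (haR : 100 * a ≤ R) (h : z ∈ Geo.act R a x o) :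
    Disjoint (bx V x R) (ocell V z a) := by
  rw [Set.disjoint_left]
  rintro v h1 ⟨h2, h3⟩
  exact act_miss ha haR (mem_act.1 h).2 h2.le h3.le h1


/-! ### closed cells, open cells, the grid and the edges -/

lemma ocell_sub_bx (V : Finset (ℤ × ℤ)) (z : ℤ × ℤ) (a : ℕ) : ocell V z a ⊆ bx V z a :=
  fun _ h => ⟨h.1.le, h.2.le⟩


/-- the boundary of the cell of a node lies on the grid. -/
lemma bd_sub_Grid (hz : Node a o z) : bx V z a \ ocell V z a ⊆ Grid V a o := by
  rintro v ⟨h1, h2⟩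
  exact bdry_subset_grid hz ⟨h1, h2⟩

/-- an edge with an end in the open cell lies in the closed cell. -/
lemma edge_cell (e : V × Fin 2)
    (h : (latG V b).src e ∈ ocell V z a ∨ (latG V b).tgt e ∈ ocell V z a) :
    (latG V b).src e ∈ bx V z a ∧ (latG V b).tgt e ∈ bx V z a := by
  by_cases hV : (e.1 : ℤ × ℤ) + latticeDir e.2 ∈ V
  · have et : (latG V b).tgt e = ⟨(e.1 : ℤ × ℤ) + latticeDir e.2, hV⟩ := by
      simp [latG, hV]
    have es : (latG V b).src e = e.1 := rfl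
    rw [et, es] at h ⊢
    rcases h with h | h
    · exact ⟨obox_subset_cbox _ _ h, nbr_fwd (z := z) (u := (e.1 : ℤ × ℤ)) h e.2⟩
    · exact ⟨nbr_bwd (z := z) (u := (e.1 : ℤ × ℤ)) h, obox_subset_cbox _ _ h⟩
  · have et : (latG V b).tgt e = e.1 := by simp [latG, hV]
    have es : (latG V b).src e = e.1 := rfl
    rw [et, es] at h ⊢
    have h' : (e.1 : V) ∈ ocell V z a := by rcases h with h | h <;> exact h
    exact ⟨ocell_sub_bx _ _ _ h', ocell_sub_bx _ _ _ h'⟩

/-- cells of nodes `|z - x| ≤ 3R` do not meet the frozen set. -/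
lemma bx_node_sub (haR : a ≤ R) (h : z ∈ Geo.nodes R a x o) : bx V z a ⊆ bx V x (4 * R) := by
  rintro v ⟨h1, h2⟩
  obtain ⟨⟨h3, h4⟩, -⟩ := mem_gnodes.1 h
  have haR' : (a : ℤ) ≤ R := by exact_mod_cast haR
  push_cast at h3 h4
  refine ⟨?_, ?_⟩
  · push_cast
    have e : (v : ℤ × ℤ).1 - x.1 = ((v : ℤ × ℤ).1 - z.1) + (z.1 - x.1) := by ring
    rw [e]
    have := abs_add_le ((v : ℤ × ℤ).1 - z.1) (z.1 - x.1)
    omega
  · push_cast
    have e : (v : ℤ × ℤ).2 - x.2 = ((v : ℤ × ℤ).2 - z.2) + (z.2 - x.2) := by ring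
    rw [e]
    have := abs_add_le ((v : ℤ × ℤ).2 - z.2) (z.2 - x.2)
    omega

lemma F0_disj_bx (haR : a ≤ R) (h : z ∈ Geo.nodes R a x o) :
    Disjoint (bx V x (4 * R))ᶜ (bx V z a) := by
  rw [Set.disjoint_left]
  intro v hv h1
  exact hv (bx_node_sub haR h h1)

lemma F0_disj_ocell (haR : a ≤ R) (h : z ∈ Geo.nodes R a x o) :
    Disjoint (bx V x (4 * R))ᶜ (ocell V z a) :=
  (F0_disj_bx haR h).mono_right (ocell_sub_bx V z a)

/-! ### N5 -/

lemma card_gnodes (ha : 1 ≤ a) (haR : a ≤ R) (x o : ℤ × ℤ) :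
    ((Geo.nodes R a x o).card : ℝ) ≤ 49 * ((R : ℝ) / a) ^ 2 := by
  have ha0 : (0 : ℝ) < a := by exact_mod_cast ha
  have haR' : (a : ℝ) ≤ R := by exact_mod_cast haR
  have h1 := card_1d x.1 (3 * R) a o.1 ha
  have h2 := card_1d x.2 (3 * R) a o.2 ha
  have h3 : 2 * ((3 * R : ℕ) : ℝ) / a + 1 ≤ 7 * (R / a) := by
    push_cast
    rw [div_add_one ha0.ne', mul_div_assoc', div_le_div_iff_of_pos_right ha0]
    linarith
  push_cast at h1 h2 h3
  unfold Geo.nodes
  rw [Finset.card_product]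
  push_cast
  calc _ ≤ (7 * ((R : ℝ) / a)) * (7 * (R / a)) :=
        mul_le_mul (h1.trans h3) (h2.trans h3) (by positivity) (by positivity)
    _ = 49 * ((R : ℝ) / a) ^ 2 := by ring

lemma card_act (ha : 1 ≤ a) (haR : a ≤ R) (x o : ℤ × ℤ) :
    ((Geo.act R a x o).card : ℝ) ≤ 49 * ((R : ℝ) / a) ^ 2 := by
  classical
  refine le_trans ?_ (card_gnodes ha haR x o)
  exact_mod_cast Finset.card_le_card (fun z hz => (mem_act.1 hz).1)

/-! ### N8: the four classes -/

/-- class of a node: parity of `(z - o) / a`. -/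
noncomputable def cl (a : ℕ) (o z : ℤ × ℤ) : Fin 4 :=
  if (2 * a : ℤ) ∣ z.1 - o.1 then (if (2 * a : ℤ) ∣ z.2 - o.2 then 0 else 1)
  else (if (2 * a : ℤ) ∣ z.2 - o.2 then 2 else 3)

/-- the offset of the next grid if the class `c` is removed. -/
noncomputable def op (a : ℕ) (o : ℤ × ℤ) (c : Fin 4) : ℤ × ℤ :=
  nxt a (rep a o (decide (c = 2 ∨ c = 3), decide (c = 1 ∨ c = 3)))

lemma same_rep_cl (hz : Node a o z) :
    Same a (rep a o (decide (cl a o z = 2 ∨ cl a o z = 3), decide (cl a o z = 1 ∨ cl a o z = 3)))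
      z := by
  have key : ∀ p q : ℤ, (a : ℤ) ∣ p - q → ¬ (2 * a : ℤ) ∣ p - q → (2 * a : ℤ) ∣ (q + a) - p := by
    rintro p q ⟨t, ht⟩ h2
    rcases Int.even_or_odd' t with ⟨s, hs | hs⟩
    · exact absurd ⟨s, by rw [ht, hs]; ring⟩ h2
    · refine ⟨-s, ?_⟩
      have : p = q + a * t := by linarith
      rw [this, hs]; ring
  have key2 : ∀ p q : ℤ, (2 * a : ℤ) ∣ p - q → (2 * a : ℤ) ∣ q + 0 - p := by
    intro p q h
    have e : q + 0 - p = -(p - q) := by ring
    rw [e]; exact (dvd_neg).2 h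
  unfold cl
  split_ifs with h1 h2 h2
  · exact ⟨by simpa [rep] using key2 _ _ h1, by simpa [rep] using key2 _ _ h2⟩
  · exact ⟨by simpa [rep] using key2 _ _ h1, by simpa [rep] using key _ _ hz.2 h2⟩
  · exact ⟨by simpa [rep] using key _ _ hz.1 h1, by simpa [rep] using key2 _ _ h2⟩
  · exact ⟨by simpa [rep] using key _ _ hz.1 h1, by simpa [rep] using key _ _ hz.2 h2⟩

lemma same_of_cl (hz : Node a o z) (hz' : Node a o z') (h : cl a o z = cl a o z') :
    Same a z z' := by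
  have h1 := same_rep_cl hz
  have h2 := same_rep_cl hz'
  rw [h] at h1
  exact h1.symm.trans h2

/-- different nodes of the same class: closed cell and open cell are disjoint. -/
lemma disj_cl (hz : Node a o z) (hz' : Node a o z') (h : cl a o z = cl a o z') (hne : z ≠ z') :
    Disjoint (bx V z a) (ocell V z' a) := by
  rw [Set.disjoint_left]
  intro v h1 h2
  exact Set.disjoint_left.1 (disj_same (same_of_cl hz hz' h) hne) h1 h2

lemma Grid_op_sub (c : Fin 4) : Grid V (2 * a) (op a o c) ⊆ Grid V a o := by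
  intro v hv
  exact grid_nxt_subset (node_rep a o _) hv

lemma Grid_op_disj (hz : Node a o z) : Disjoint (Grid V (2 * a) (op a o (cl a o z))) (ocell V z a) := by
  rw [Set.disjoint_left]
  intro v h1 h2
  exact Set.disjoint_left.1 (grid_nxt_disj (same_rep_cl hz)) h1 h2

lemma Grid_op_disj' {c : Fin 4} (hz : Node a o z) (h : cl a o z = c) :
    Disjoint (Grid V (2 * a) (op a o c)) (ocell V z a) := h ▸ Grid_op_disj hz

/-- the next set `S' = S \ ⋃ Qo_z` (active `z` of the class `c`). -/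
lemma next_set (ha : 1 ≤ a) (haR : 100 * a ≤ R) (c : Fin 4) {S : Set V}
    (h1 : (bx V x (4 * R))ᶜ ⊆ S) (h2 : bx V x R ⊆ S) (h3 : Grid V a o ⊆ S)
    (Z : Finset (ℤ × ℤ)) (hZ : ∀ z ∈ Z, z ∈ Geo.act R a x o ∧ cl a o z = c) :
    S \ (⋃ z ∈ Z, ocell V z a) ⊆ S ∧ (bx V x (4 * R))ᶜ ⊆ S \ (⋃ z ∈ Z, ocell V z a) ∧
      bx V x R ⊆ S \ (⋃ z ∈ Z, ocell V z a) ∧
      Grid V (2 * a) (op a o c) ⊆ S \ (⋃ z ∈ Z, ocell V z a) := by
  refine ⟨Set.sdiff_subset, ?_, ?_, ?_⟩
  · intro v hv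
    refine ⟨h1 hv, ?_⟩
    rw [Set.mem_iUnion₂]
    rintro ⟨z, hz, hvz⟩
    exact Set.disjoint_left.1 (F0_disj_ocell (by omega) (mem_act.1 (hZ z hz).1).1) hv hvz
  · intro v hv
    refine ⟨h2 hv, ?_⟩
    rw [Set.mem_iUnion₂]
    rintro ⟨z, hz, hvz⟩
    exact Set.disjoint_left.1 (act_disj_bx' ha haR (hZ z hz).1) hv hvz
  · intro v hv
    refine ⟨h3 (Grid_op_sub c hv), ?_⟩
    rw [Set.mem_iUnion₂]
    rintro ⟨z, hz, hvz⟩
    exact Set.disjoint_left.1 (Grid_op_disj' (node_of_mem_act (hZ z hz).1) (hZ z hz).2) hv hvz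

end Crest.Agent.R167.GeoB
end

-- ▼ part R167/StepGeo
section

/-! # Row 167, NODE STEP: adaptors from GEO -/

set_option autoImplicit false
open MeasureTheory Crest.ProbabilityR.SpinModel

namespace Crest.Agent.R167.SGeo

open Geo GeoB

variable {R a : ℕ} {x o : ℤ × ℤ} {V : Finset (ℤ × ℤ)} {b : ℤ × ℤ → Fin 2 → ℝ} {β : ℝ}

theorem cut_off (hR : 1 ≤ R) {v : ℤ × ℤ} (h : ¬ (|v.1 - x.1| ≤ 3 * R ∧ |v.2 - x.2| ≤ 3 * R)) :
    cut x R v = 0 := by
  apply GeoB.cut_eq_zero hR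
  rw [not_and_or, not_le, not_le] at h
  rcases h with h | h
  · left; omega
  · right; omega

theorem hat_off {z v : ℤ × ℤ} (ha : 1 ≤ a) (h : ¬ (|v.1 - z.1| < a ∧ |v.2 - z.2| < a)) :
    hat a z v = 0 := GeoB.hat_eq_zero ha h

theorem node_box (haR : 100 * a ≤ R) {z v : ℤ × ℤ} (hz : z ∈ nodes R a x o)
    (h1 : |v.1 - z.1| ≤ a) (h2 : |v.2 - z.2| ≤ a) : |v.1 - x.1| ≤ 4 * R ∧ |v.2 - x.2| ≤ 4 * R := by
  obtain ⟨⟨h3, h4⟩, -⟩ := GeoB.mem_gnodes.1 hz
  push_cast at h3 h4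
  constructor
  · have e : v.1 - x.1 = (v.1 - z.1) + (z.1 - x.1) := by ring
    rw [e]
    have := abs_add_le (v.1 - z.1) (z.1 - x.1)
    omega
  · have e : v.2 - x.2 = (v.2 - z.2) + (z.2 - x.2) := by ring
    rw [e]
    have := abs_add_le (v.2 - z.2) (z.2 - x.2)
    omega

theorem qz_off (ha : 1 ≤ a) (haR : 100 * a ≤ R) {z v : ℤ × ℤ} (hz : z ∈ nodes R a x o)
    (h : ¬ (|v.1 - x.1| ≤ 4 * R ∧ |v.2 - x.2| ≤ 4 * R)) : qz R a x z v = 0 := by
  apply Geo.qz_eq_zero ha
  rintro ⟨h1, h2⟩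
  apply h
  obtain ⟨⟨h3, h4⟩, -⟩ := GeoB.mem_gnodes.1 hz
  push_cast at h3 h4
  constructor
  · have e : v.1 - x.1 = (v.1 - z.1) + (z.1 - x.1) := by ring
    rw [e]
    have := abs_add_le (v.1 - z.1) (z.1 - x.1)
    omega
  · have e : v.2 - x.2 = (v.2 - z.2) + (z.2 - x.2) := by ring
    rw [e]
    have := abs_add_le (v.2 - z.2) (z.2 - x.2)
    omega

end Crest.Agent.R167.SGeo
end

-- ▼ part R167/StepAbs
section

/-! # Row 167, NODE STEP: the real-number part of one coarse-graining step, and the chain. -/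

set_option autoImplicit false

namespace Crest.Agent.R167.Step

open Finset

/-- Cauchy–Schwarz part. -/
lemma sum_sqrt_le {Z : Type} (A : Finset Z) (D D' : Z → ℝ)
    (hD : ∀ z ∈ A, 0 ≤ D z) (hD' : ∀ z ∈ A, 0 ≤ D' z) :
    ∑ z ∈ A, (Real.sqrt (D z) + Real.sqrt (D' z)) ≤
      Real.sqrt (A.card) * Real.sqrt (2 * ∑ z ∈ A, (D z + D' z)) := by
  have h1 : (∑ z ∈ A, (Real.sqrt (D z) + Real.sqrt (D' z))) ^ 2 ≤
      A.card * (2 * ∑ z ∈ A, (D z + D' z)) := by
    have h2 : (∑ z ∈ A, (Real.sqrt (D z) + Real.sqrt (D' z))) ^ 2 ≤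
        A.card * ∑ z ∈ A, (Real.sqrt (D z) + Real.sqrt (D' z)) ^ 2 :=
      sq_sum_le_card_mul_sum_sq
    refine h2.trans ?_
    refine mul_le_mul_of_nonneg_left ?_ (Nat.cast_nonneg _)
    rw [mul_sum]
    refine sum_le_sum fun z hz => ?_
    have e1 := Real.sq_sqrt (hD z hz)
    have e2 := Real.sq_sqrt (hD' z hz)
    nlinarith [sq_nonneg (Real.sqrt (D z) - Real.sqrt (D' z))]
  rw [← Real.sqrt_mul (Nat.cast_nonneg _)]
  exact Real.le_sqrt_of_sq_le h1

/-- One coarse-graining step, real numbers only. -/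
theorem step_abs {Z : Type} (Act : Finset Z) (cl : Z → Fin 4) (DA DB : Z → ℝ)
    (hDA : ∀ z ∈ Act, 0 ≤ DA z) (hDB : ∀ z ∈ Act, 0 ≤ DB z) (Dl : Fin 4 → ℝ)
    (hgain : ∀ c, ∑ z ∈ Act.filter (fun z => cl z = c), (DA z + DB z) ≤ Dl c)
    (bil : Z → ℝ) (lam C2 C5 e1 : ℝ) (hlam : 0 ≤ lam) (hC2 : 0 ≤ C2)
    (hbil : ∀ z ∈ Act, |bil z| ≤ lam * C2 * (Real.sqrt (DA z) + Real.sqrt (DB z)))
    (Bff Bif Brest : ℝ) (h1 : Bff = Bif + Brest) (h2 : ∑ z ∈ Act, bil z = -2 * Bif)
    (h3 : |Brest| ≤ e1) (h4 : lam ^ 2 * Act.card ≤ C5) :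
    ∃ c, Bff ≤ C2 * Real.sqrt (2 * C5) * Real.sqrt (Dl c) + e1 := by
  classical
  -- the sum over all classes
  have hsum : ∑ z ∈ Act, (DA z + DB z) ≤ ∑ c, Dl c := by
    rw [← sum_fiberwise_of_maps_to (s := Act) (t := univ) (g := cl) (fun _ _ => mem_univ _)]
    exact sum_le_sum fun c _ => hgain c
  obtain ⟨c, -, hc⟩ := exists_max_image (univ : Finset (Fin 4)) Dl ⟨0, mem_univ _⟩
  have hle : ∑ c', Dl c' ≤ 4 * Dl c := by
    have : ∑ c', Dl c' ≤ ∑ _c' : Fin 4, Dl c := sum_le_sum fun c' _ => hc c' (mem_univ _)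
    simpa using this
  have hS : ∑ z ∈ Act, (DA z + DB z) ≤ 4 * Dl c := hsum.trans hle
  have hS0 : 0 ≤ ∑ z ∈ Act, (DA z + DB z) :=
    sum_nonneg fun z hz => add_nonneg (hDA z hz) (hDB z hz)
  have hDc : 0 ≤ Dl c := by linarith
  refine ⟨c, ?_⟩
  have hB : |(2 : ℝ) * Bif| ≤ lam * C2 * ∑ z ∈ Act, (Real.sqrt (DA z) + Real.sqrt (DB z)) := by
    have : (2 : ℝ) * Bif = -∑ z ∈ Act, bil z := by linarith
    rw [this, abs_neg, mul_sum]
    exact (abs_sum_le_sum_abs _ _).trans (sum_le_sum hbil)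
  have hcs := sum_sqrt_le Act DA DB hDA hDB
  have hcs2 : Real.sqrt (2 * ∑ z ∈ Act, (DA z + DB z)) ≤ Real.sqrt (8 * Dl c) :=
    Real.sqrt_le_sqrt (by linarith)
  have hlc : lam * Real.sqrt Act.card ≤ Real.sqrt C5 := by
    apply Real.le_sqrt_of_sq_le
    rw [mul_pow, Real.sq_sqrt (Nat.cast_nonneg _)]
    exact h4
  have h8 : Real.sqrt (8 * Dl c) = 2 * (Real.sqrt 2 * Real.sqrt (Dl c)) := by
    rw [← Real.sqrt_mul (by norm_num : (0:ℝ) ≤ 2), show (8 : ℝ) * Dl c = 2 ^ 2 * (2 * Dl c) by ring,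
      Real.sqrt_mul (by norm_num), Real.sqrt_sq (by norm_num)]
  have hkey : |(2 : ℝ) * Bif| ≤ 2 * (C2 * Real.sqrt (2 * C5) * Real.sqrt (Dl c)) := by
    calc |(2 : ℝ) * Bif| ≤ lam * C2 * ∑ z ∈ Act, (Real.sqrt (DA z) + Real.sqrt (DB z)) := hB
      _ ≤ lam * C2 * (Real.sqrt Act.card * Real.sqrt (8 * Dl c)) := by
          refine mul_le_mul_of_nonneg_left ?_ (mul_nonneg hlam hC2)
          exact hcs.trans (mul_le_mul_of_nonneg_left hcs2 (Real.sqrt_nonneg _))
      _ = C2 * (lam * Real.sqrt Act.card) * (2 * (Real.sqrt 2 * Real.sqrt (Dl c))) := by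
          rw [h8]; ring
      _ ≤ C2 * Real.sqrt C5 * (2 * (Real.sqrt 2 * Real.sqrt (Dl c))) := by
          refine mul_le_mul_of_nonneg_right ?_ (by positivity)
          exact mul_le_mul_of_nonneg_left hlc hC2
      _ = 2 * (C2 * Real.sqrt (2 * C5) * Real.sqrt (Dl c)) := by
          rw [Real.sqrt_mul (by norm_num : (0:ℝ) ≤ 2)]; ring
  have hBif : Bif ≤ C2 * Real.sqrt (2 * C5) * Real.sqrt (Dl c) := by
    have := (le_abs_self ((2 : ℝ) * Bif)).trans hkey
    linarith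
  have := le_abs_self Brest
  rw [h1]
  linarith


end Crest.Agent.R167.Step
end

-- ▼ part R167/GeoA2
section

/-! Row 167, node GEO-A (helper725), part 2: partition of unity, hull rectangle, interpolation
error (N1, N2, N7). -/

set_option autoImplicit false
set_option linter.unusedVariables false
open Crest.ProbabilityR.SpinModel

namespace Crest.Agent.R167.Geo

/-! ### one-dimensional interpolation -/

/-- one-dimensional nodes -/
noncomputable def N1 (R a : ℕ) (c o : ℤ) : Finset ℤ :=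
  (Finset.Icc (c - 3 * R) (c + 3 * R)).filter fun t => (a : ℤ) ∣ t - o

theorem mem_N1 {R a : ℕ} {c o t : ℤ} :
    t ∈ N1 R a c o ↔ (c - 3 * R ≤ t ∧ t ≤ c + 3 * R) ∧ (a : ℤ) ∣ t - o := by
  rw [N1, Finset.mem_filter, Finset.mem_Icc]

theorem nodes_eq (R a : ℕ) (x o : ℤ × ℤ) :
    nodes R a x o = N1 R a x.1 o.1 ×ˢ N1 R a x.2 o.2 := rfl

/-- one-dimensional interpolant of `F` -/
noncomputable def SF (R a : ℕ) (c o : ℤ) (F : ℤ → ℝ) (t : ℤ) : ℝ :=
  ∑ z ∈ N1 R a c o, F z * hat1 a (t - z)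

theorem exists_node (a : ℕ) (ha : 1 ≤ a) (o t : ℤ) :
    ∃ c0 : ℤ, (a : ℤ) ∣ c0 - o ∧ c0 ≤ t ∧ t < c0 + a := by
  have ha' : (0:ℤ) < a := by exact_mod_cast ha
  refine ⟨t - (t - o) % a, ⟨(t - o) / a, ?_⟩, ?_, ?_⟩
  · have := Int.emod_add_mul_ediv (t - o) a
    linarith
  · have := Int.emod_nonneg (t - o) ha'.ne'
    linarith
  · have := Int.emod_lt_of_pos (t - o) ha'
    linarith

theorem SF_cell {R a : ℕ} (ha : 1 ≤ a) {c o : ℤ} (F : ℤ → ℝ) {c0 t : ℤ}
    (hm0 : c0 ∈ N1 R a c o) (hm1 : c0 + a ∈ N1 R a c o) (h1 : c0 ≤ t) (h2 : t ≤ c0 + a) :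
    SF R a c o F t = F c0 * (1 - ((t - c0 : ℤ) : ℝ) / a)
      + F (c0 + a) * (((t - c0 : ℤ) : ℝ) / a) := by
  have ha' : (0:ℤ) < a := by exact_mod_cast ha
  have haR : (0:ℝ) < a := by exact_mod_cast ha
  have hsub : ({c0, c0 + (a:ℤ)} : Finset ℤ) ⊆ N1 R a c o := by
    intro z hz
    rw [Finset.mem_insert, Finset.mem_singleton] at hz
    rcases hz with rfl | rfl <;> assumption
  unfold SF
  rw [← Finset.sum_subset hsub, Finset.sum_pair (by omega)]
  · have e1 : hat1 a (t - c0) = 1 - ((t - c0 : ℤ) : ℝ) / a := by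
      unfold hat1
      have h3 : (0:ℝ) ≤ ((t - c0 : ℤ) : ℝ) := by exact_mod_cast (by omega : 0 ≤ t - c0)
      rw [abs_of_nonneg h3]
      apply max_eq_right
      have h4 : ((t - c0 : ℤ) : ℝ) ≤ a := by exact_mod_cast (by omega : t - c0 ≤ a)
      have h5 : ((t - c0 : ℤ) : ℝ) / a ≤ 1 := by rw [div_le_iff₀ haR]; linarith
      linarith
    have e2 : hat1 a (t - (c0 + a)) = ((t - c0 : ℤ) : ℝ) / a := by
      unfold hat1
      have h3 : ((t - (c0 + a) : ℤ) : ℝ) ≤ 0 := by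
        exact_mod_cast (by omega : t - (c0 + (a:ℤ)) ≤ 0)
      rw [abs_of_nonpos h3]
      have e3 : 1 - -((t - (c0 + a) : ℤ) : ℝ) / a = ((t - c0 : ℤ) : ℝ) / a := by
        push_cast; field_simp; ring
      rw [e3]
      apply max_eq_right
      have h4 : (0:ℝ) ≤ ((t - c0 : ℤ) : ℝ) := by exact_mod_cast (by omega : 0 ≤ t - c0)
      positivity
    rw [e1, e2]
  · intro z hz hne
    rw [Finset.mem_insert, Finset.mem_singleton, not_or] at hne
    have hd1 := (mem_N1.mp hz).2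
    have hd2 := (mem_N1.mp hm0).2
    have hd : (a : ℤ) ∣ z - c0 := by
      have := dvd_sub hd1 hd2
      rwa [show z - o - (c0 - o) = z - c0 by ring] at this
    obtain ⟨k, hk⟩ := hd
    rw [hat1_eq_zero ha, mul_zero]
    rw [le_abs]
    have hk0 : k ≠ 0 := by rintro rfl; apply hne.1; linarith
    have hk1 : k ≠ 1 := by rintro rfl; apply hne.2; linarith
    rcases (by omega : k ≤ -1 ∨ 2 ≤ k) with hk' | hk'
    · left; nlinarith
    · right; nlinarith

/-- existence of the cell containing `t` with both ends in `N1` -/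
theorem exists_cell {R a : ℕ} (ha : 1 ≤ a) {c o t : ℤ} (ht : |t - c| ≤ 3 * R - a) :
    ∃ c0, c0 ∈ N1 R a c o ∧ c0 + a ∈ N1 R a c o ∧ c0 ≤ t ∧ t < c0 + a := by
  obtain ⟨c0, hd, h1, h2⟩ := exists_node a ha o t
  rw [abs_le] at ht
  refine ⟨c0, mem_N1.mpr ⟨⟨by omega, by omega⟩, hd⟩, mem_N1.mpr ⟨⟨by omega, by omega⟩, ?_⟩, h1, h2⟩
  rw [show c0 + (a:ℤ) - o = (c0 - o) + a by ring]
  exact dvd_add hd (dvd_refl _)

/-- one-dimensional partition of unity -/
theorem sum_hat1 {R a : ℕ} (ha : 1 ≤ a) {c o t : ℤ} (ht : |t - c| ≤ 3 * R - a) :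
    ∑ z ∈ N1 R a c o, hat1 a (t - z) = 1 := by
  obtain ⟨c0, hm0, hm1, h1, h2⟩ := exists_cell (o := o) ha ht
  have := SF_cell ha (fun _ => 1) hm0 hm1 h1 h2.le
  unfold SF at this
  simp only [one_mul] at this
  rw [this]; ring

/-- the centred profile -/
noncomputable def Fc (R : ℕ) (c : ℤ) (z : ℤ) : ℝ := phi R (z - c)

theorem Fc_zero {R : ℕ} (hR : 1 ≤ R) {c t : ℤ} (ht : 5 * (R:ℤ) ≤ 2 * |t - c|) : Fc R c t = 0 :=
  phi_eq_zero hR ht

theorem SF_zero {R a : ℕ} (ha : 1 ≤ a) (hR : 1 ≤ R) {c o t : ℤ}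
    (ht : 5 * (R:ℤ) + 2 * a ≤ 2 * |t - c|) : SF R a c o (Fc R c) t = 0 := by
  unfold SF
  apply Finset.sum_eq_zero
  intro z _
  by_cases h : (a:ℤ) ≤ |t - z|
  · rw [hat1_eq_zero ha h, mul_zero]
  · rw [Fc_zero hR, zero_mul]
    have h3 : |t - c| ≤ |t - z| + |z - c| := by
      have := abs_add_le (t - z) (z - c)
      rwa [show t - z + (z - c) = t - c by ring] at this
    omega

theorem SF_nonneg {R a : ℕ} {c o : ℤ} {F : ℤ → ℝ} (hF : ∀ z, 0 ≤ F z) (t : ℤ) :
    0 ≤ SF R a c o F t :=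
  Finset.sum_nonneg fun z _ => mul_nonneg (hF z) (hat1_nonneg _ _)

theorem SF_le_one {R a : ℕ} (ha : 1 ≤ a) (h100 : 100 * a ≤ R) {c o : ℤ} (t : ℤ) :
    SF R a c o (Fc R c) t ≤ 1 := by
  by_cases ht : |t - c| ≤ 3 * R - a
  · rw [← sum_hat1 (o := o) ha ht]
    unfold SF
    apply Finset.sum_le_sum
    intro z _
    have := mul_le_mul_of_nonneg_right (phi_le_one R (z - c)) (hat1_nonneg a (t - z))
    simpa [Fc] using this
  · rw [SF_zero ha (by omega)]
    · exact zero_le_one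
    · omega

theorem SF_step {R a : ℕ} (ha : 1 ≤ a) (h100 : 100 * a ≤ R) {c o : ℤ} (t : ℤ) :
    |SF R a c o (Fc R c) (t + 1) - SF R a c o (Fc R c) t| ≤ 1 / R := by
  have haR : (0:ℝ) < a := by exact_mod_cast ha
  have hR1 : 1 ≤ R := by omega
  have hRR : (0:ℝ) < R := by exact_mod_cast hR1
  by_cases ht : |t - c| ≤ 3 * R - a
  · obtain ⟨c0, hm0, hm1, h1, h2⟩ := exists_cell (o := o) ha ht
    rw [SF_cell ha _ hm0 hm1 h1 h2.le, SF_cell ha _ hm0 hm1 (t := t + 1) (by omega) (by omega)]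
    have e : Fc R c c0 * (1 - ((t + 1 - c0 : ℤ) : ℝ) / a)
        + Fc R c (c0 + a) * (((t + 1 - c0 : ℤ) : ℝ) / a)
        - (Fc R c c0 * (1 - ((t - c0 : ℤ) : ℝ) / a) + Fc R c (c0 + a) * (((t - c0 : ℤ) : ℝ) / a))
        = (Fc R c (c0 + a) - Fc R c c0) / a := by
      push_cast; ring
    rw [e, abs_div, abs_of_pos haR, div_le_iff₀ haR]
    have h3 := phi_lip R (c0 + a - c) (c0 - c)
    rw [show c0 + (a:ℤ) - c - (c0 - c) = a by ring] at h3
    unfold Fc
    refine h3.trans (le_of_eq ?_)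
    rw [Int.cast_natCast, abs_of_pos haR]; ring
  · have h4 : |t - c| ≤ |t + 1 - c| + 1 := by
      have := abs_add_le (t + 1 - c) (-1)
      rw [show t + 1 - c + -1 = t - c by ring] at this
      simpa using this
    rw [SF_zero ha hR1 (t := t) (by omega), SF_zero ha hR1 (t := t + 1) (by omega)]
    simp

/-! ### away from the kinks the interpolant is exact -/

theorem phi_mid_pos {R : ℕ} (hR : 1 ≤ R) {s : ℤ} (h1 : 3 * (R:ℤ) ≤ 2 * s) (h2 : 2 * s ≤ 5 * R) :
    phi R s = 5 / 2 - (s:ℝ) / R := by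
  have hRR : (0:ℝ) < R := by exact_mod_cast hR
  have h0 : (0:ℤ) ≤ s := by omega
  have h0' : (0:ℝ) ≤ s := by exact_mod_cast h0
  have h1' : (3:ℝ) * R ≤ 2 * s := by exact_mod_cast h1
  have h2' : (2:ℝ) * s ≤ 5 * R := by exact_mod_cast h2
  have h3 : 3 / 2 ≤ (s:ℝ) / R := by rw [le_div_iff₀ hRR]; linarith
  have h4 : (s:ℝ) / R ≤ 5 / 2 := by rw [div_le_iff₀ hRR]; linarith
  unfold phi
  rw [abs_of_nonneg h0', min_eq_right (by linarith), max_eq_right (by linarith)]

theorem phi_mid_neg {R : ℕ} (hR : 1 ≤ R) {s : ℤ} (h1 : 3 * (R:ℤ) ≤ -(2 * s))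
    (h2 : -(2 * s) ≤ 5 * R) : phi R s = 5 / 2 + (s:ℝ) / R := by
  have h := phi_mid_pos hR (s := -s) (by omega) (by omega)
  have e : phi R (-s) = phi R s := by unfold phi; simp
  rw [← e, h]; push_cast; ring

/-- points near the kinks -/
noncomputable def Kk (R m : ℕ) (c : ℤ) : Finset ℤ :=
  ((Finset.Icc (c + 3 * (R:ℤ) / 2 - m) (c + 3 * (R:ℤ) / 2 + m)) ∪
    (Finset.Icc (c + (-(3 * (R:ℤ))) / 2 - m) (c + (-(3 * (R:ℤ))) / 2 + m))) ∪
  ((Finset.Icc (c + 5 * (R:ℤ) / 2 - m) (c + 5 * (R:ℤ) / 2 + m)) ∪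
    (Finset.Icc (c + (-(5 * (R:ℤ))) / 2 - m) (c + (-(5 * (R:ℤ))) / 2 + m)))

theorem card_Kk (R m : ℕ) (c : ℤ) : ((Kk R m c).card : ℝ) ≤ 4 * (2 * m + 1) := by
  have h : (Kk R m c).card ≤ 4 * (2 * m + 1) := by
    unfold Kk
    refine (Finset.card_union_le _ _).trans ?_
    refine (add_le_add (Finset.card_union_le _ _) (Finset.card_union_le _ _)).trans ?_
    simp only [Int.card_Icc]
    omega
  exact_mod_cast h

theorem not_mem_Kk {R m : ℕ} {c t : ℤ} (h : t ∉ Kk R m c) :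
    (t < c + 3 * (R:ℤ) / 2 - m ∨ c + 3 * (R:ℤ) / 2 + m < t) ∧
    (t < c + (-(3 * (R:ℤ))) / 2 - m ∨ c + (-(3 * (R:ℤ))) / 2 + m < t) ∧
    (t < c + 5 * (R:ℤ) / 2 - m ∨ c + 5 * (R:ℤ) / 2 + m < t) ∧
    (t < c + (-(5 * (R:ℤ))) / 2 - m ∨ c + (-(5 * (R:ℤ))) / 2 + m < t) := by
  unfold Kk at h
  simp only [Finset.mem_union, Finset.mem_Icc, not_or, not_and_or, not_le] at h
  tauto

theorem affine_cell {A B c0 c t a : ℝ} (ha : 0 < a) {y0 y1 yt : ℝ} (h0 : y0 = A + B * (c0 - c))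
    (h1 : y1 = A + B * (c0 + a - c)) (ht : yt = A + B * (t - c)) :
    y0 * (1 - (t - c0) / a) + y1 * ((t - c0) / a) = yt := by
  rw [h0, h1, ht]; field_simp; ring

theorem SF_eq {R a : ℕ} (ha : 1 ≤ a) (h100 : 100 * a ≤ R) {c o t : ℤ} (ht : t ∉ Kk R a c) :
    SF R a c o (Fc R c) t = Fc R c t := by
  have haR : (0:ℝ) < a := by exact_mod_cast ha
  have hR1 : 1 ≤ R := by omega
  have hRR : (0:ℝ) < R := by exact_mod_cast hR1
  by_cases h3 : |t - c| ≤ 3 * R - a
  · obtain ⟨c0, hm0, hm1, h1, h2⟩ := exists_cell (o := o) ha h3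
    rw [SF_cell ha _ hm0 hm1 h1 h2.le]
    obtain ⟨k1, k2, k3, k4⟩ := not_mem_Kk ht
    have key : ∀ A B : ℝ, (∀ s : ℤ, c0 ≤ s → s ≤ c0 + a → Fc R c s = A + B * ((s:ℝ) - c)) →
        Fc R c c0 * (1 - ((t - c0 : ℤ) : ℝ) / a) + Fc R c (c0 + a) * (((t - c0 : ℤ) : ℝ) / a)
          = Fc R c t := by
      intro A B hAB
      have g0 := hAB c0 le_rfl (by omega)
      have g1 := hAB (c0 + a) (by omega) le_rfl
      have gt := hAB t h1 h2.le
      push_cast at g1 ⊢
      exact affine_cell haR g0 g1 gt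
    rcases (by omega : 2 * (c0 + a - c) ≤ -(5 * (R:ℤ)) ∨
        (-(5 * (R:ℤ)) ≤ 2 * (c0 - c) ∧ 2 * (c0 + a - c) ≤ -(3 * (R:ℤ))) ∨
        (-(3 * (R:ℤ)) ≤ 2 * (c0 - c) ∧ 2 * (c0 + a - c) ≤ 3 * (R:ℤ)) ∨
        (3 * (R:ℤ) ≤ 2 * (c0 - c) ∧ 2 * (c0 + a - c) ≤ 5 * (R:ℤ)) ∨
        5 * (R:ℤ) ≤ 2 * (c0 - c)) with g | g | g | g | g
    · apply key 0 0
      intro s hs1 hs2
      rw [Fc_zero hR1]
      · ring
      · rw [abs_of_nonpos (by omega)]; omega
    · apply key (5/2) (1/R)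
      intro s hs1 hs2
      unfold Fc
      rw [phi_mid_neg hR1 (by omega) (by omega)]
      push_cast; ring
    · apply key 1 0
      intro s hs1 hs2
      unfold Fc
      rw [phi_eq_one hR1]
      · ring
      · rcases abs_cases (s - c) with ⟨e, _⟩ | ⟨e, _⟩ <;> rw [e] <;> omega
    · apply key (5/2) (-(1/R))
      intro s hs1 hs2
      unfold Fc
      rw [phi_mid_pos hR1 (by omega) (by omega)]
      push_cast; ring
    · apply key 0 0
      intro s hs1 hs2
      rw [Fc_zero hR1]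
      · ring
      · rw [abs_of_nonneg (by omega)]; omega
  · rw [SF_zero ha hR1 (by omega), Fc_zero hR1 (by omega)]

end Crest.Agent.R167.Geo
end

-- ▼ part R167/GeoA3
section

/-! Row 167, node GEO-A (helper725), part 3: two-dimensional statements N1, N2, N7. -/

set_option autoImplicit false
set_option linter.unusedVariables false
open Crest.ProbabilityR.SpinModel

namespace Crest.Agent.R167.Geo

/-! ### N1: partition of unity -/

theorem sum_hat {R a : ℕ} (ha : 1 ≤ a) {x o v : ℤ × ℤ} (h1 : |v.1 - x.1| ≤ 3 * R - a)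
    (h2 : |v.2 - x.2| ≤ 3 * R - a) : ∑ z ∈ nodes R a x o, hat a z v = 1 := by
  rw [nodes_eq, Finset.sum_product]
  simp only [hat]
  rw [← Finset.sum_mul_sum, sum_hat1 ha h1, sum_hat1 ha h2, mul_one]



/-! ### N2: hull rectangle aligned with the mesh -/

/-- upper end: the largest node coordinate `≤ c + 3R - a` -/
noncomputable def up (R a : ℕ) (c o : ℤ) : ℤ := o + a * ((c + 3 * R - a - o) / a)

/-- lower end: the smallest node coordinate `≥ c - 3R + a` -/
noncomputable def lo (R a : ℕ) (c o : ℤ) : ℤ := o - a * ((o - (c - 3 * R + a)) / a)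

theorem up_le (R a : ℕ) (ha : 1 ≤ a) (c o : ℤ) : up R a c o ≤ c + 3 * R - a := by
  have ha' : (0:ℤ) < a := by exact_mod_cast ha
  have := Int.mul_ediv_self_le (x := c + 3 * R - a - o) (k := (a:ℤ)) ha'.ne'
  unfold up; linarith

theorem lt_up (R a : ℕ) (ha : 1 ≤ a) (c o : ℤ) : c + 3 * R - 2 * a < up R a c o := by
  have ha' : (0:ℤ) < a := by exact_mod_cast ha
  have := Int.lt_mul_ediv_self_add (x := c + 3 * R - a - o) (k := (a:ℤ)) ha'
  unfold up; linarith

theorem le_lo (R a : ℕ) (ha : 1 ≤ a) (c o : ℤ) : c - 3 * R + a ≤ lo R a c o := by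
  have ha' : (0:ℤ) < a := by exact_mod_cast ha
  have := Int.mul_ediv_self_le (x := o - (c - 3 * R + a)) (k := (a:ℤ)) ha'.ne'
  unfold lo; linarith

theorem lo_lt (R a : ℕ) (ha : 1 ≤ a) (c o : ℤ) : lo R a c o < c - 3 * R + 2 * a := by
  have ha' : (0:ℤ) < a := by exact_mod_cast ha
  have := Int.lt_mul_ediv_self_add (x := o - (c - 3 * R + a)) (k := (a:ℤ)) ha'
  unfold lo; linarith

theorem dvd_up (R a : ℕ) (c o : ℤ) : (a:ℤ) ∣ up R a c o - o :=
  ⟨(c + 3 * R - a - o) / a, by unfold up; ring⟩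

theorem dvd_lo (R a : ℕ) (c o : ℤ) : (a:ℤ) ∣ lo R a c o - o :=
  ⟨-((o - (c - 3 * R + a)) / a), by unfold lo; ring⟩

/-- closed hull -/
def Hc (R a : ℕ) (x o : ℤ × ℤ) : Set (ℤ × ℤ) :=
  {v | (lo R a x.1 o.1 ≤ v.1 ∧ v.1 ≤ up R a x.1 o.1) ∧
    (lo R a x.2 o.2 ≤ v.2 ∧ v.2 ≤ up R a x.2 o.2)}

/-- open hull -/
def Ho (R a : ℕ) (x o : ℤ × ℤ) : Set (ℤ × ℤ) :=
  {v | (lo R a x.1 o.1 < v.1 ∧ v.1 < up R a x.1 o.1) ∧
    (lo R a x.2 o.2 < v.2 ∧ v.2 < up R a x.2 o.2)}

theorem Ho_subset_Hc (R a : ℕ) (x o : ℤ × ℤ) : Ho R a x o ⊆ Hc R a x o := by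
  rintro v ⟨⟨h1, h2⟩, h3, h4⟩
  exact ⟨⟨h1.le, h2.le⟩, h3.le, h4.le⟩

theorem Hc_bound {R a : ℕ} (ha : 1 ≤ a) {x o v : ℤ × ℤ} (hv : v ∈ Hc R a x o) :
    |v.1 - x.1| ≤ 3 * R - a ∧ |v.2 - x.2| ≤ 3 * R - a := by
  obtain ⟨⟨h1, h2⟩, h3, h4⟩ := hv
  have a1 := up_le R a ha x.1 o.1
  have a2 := up_le R a ha x.2 o.2
  have a3 := le_lo R a ha x.1 o.1
  have a4 := le_lo R a ha x.2 o.2
  rw [abs_le, abs_le]
  constructor <;> constructor <;> linarith

theorem sum_hat_Hc {R a : ℕ} (ha : 1 ≤ a) {x o v : ℤ × ℤ} (hv : v ∈ Hc R a x o) :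
    ∑ z ∈ nodes R a x o, hat a z v = 1 :=
  sum_hat ha (Hc_bound ha hv).1 (Hc_bound ha hv).2

theorem phi_zero_of {R a : ℕ} (ha : 1 ≤ a) (h100 : 100 * a ≤ R) {c o t : ℤ}
    (h : ¬ (lo R a c o < t ∧ t < up R a c o)) : phi R (t - c) = 0 := by
  have a1 := lt_up R a ha c o
  have a3 := lo_lt R a ha c o
  apply phi_eq_zero (by omega)
  rcases abs_cases (t - c) with ⟨e, _⟩ | ⟨e, _⟩ <;> rw [e] <;> omega

theorem cut_eq_zero_off_Ho {R a : ℕ} (ha : 1 ≤ a) (h100 : 100 * a ≤ R) {x o v : ℤ × ℤ}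
    (hv : v ∉ Ho R a x o) : cut x R v = 0 := by
  have : ¬ (lo R a x.1 o.1 < v.1 ∧ v.1 < up R a x.1 o.1) ∨
      ¬ (lo R a x.2 o.2 < v.2 ∧ v.2 < up R a x.2 o.2) := not_and_or.mp hv
  unfold cut
  rcases this with h | h
  · rw [phi_zero_of ha h100 h, zero_mul]
  · rw [phi_zero_of ha h100 h, mul_zero]

/-- lattice neighbours of the open hull are in the closed hull -/
theorem Ho_nbr {R a : ℕ} {x o u : ℤ × ℤ} (i : Fin 2) :
    (u ∈ Ho R a x o → u + latticeDir i ∈ Hc R a x o) ∧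
    (u + latticeDir i ∈ Ho R a x o → u ∈ Hc R a x o) := by
  fin_cases i
  · simp only [Fin.zero_eta, latDir_zero]
    constructor
    · rintro ⟨⟨h1, h2⟩, h3, h4⟩
      exact ⟨⟨by simp only; omega, by simp only; omega⟩, by simp only; omega, by simp only; omega⟩
    · rintro ⟨⟨h1, h2⟩, h3, h4⟩
      simp only at h1 h2 h3 h4
      exact ⟨⟨by omega, by omega⟩, by omega, by omega⟩
  · simp only [Fin.mk_one, latDir_one]
    constructor
    · rintro ⟨⟨h1, h2⟩, h3, h4⟩
      exact ⟨⟨by simp only; omega, by simp only; omega⟩, by simp only; omega, by simp only; omega⟩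
    · rintro ⟨⟨h1, h2⟩, h3, h4⟩
      simp only at h1 h2 h3 h4
      exact ⟨⟨by omega, by omega⟩, by omega, by omega⟩

/-- the boundary of the hull lies on grid lines -/
theorem Hc_diff_Ho {R a : ℕ} {x o v : ℤ × ℤ} (h1 : v ∈ Hc R a x o) (h2 : v ∉ Ho R a x o) :
    (a : ℤ) ∣ v.1 - o.1 ∨ (a : ℤ) ∣ v.2 - o.2 := by
  obtain ⟨⟨p1, p2⟩, p3, p4⟩ := h1
  have : ¬ (lo R a x.1 o.1 < v.1 ∧ v.1 < up R a x.1 o.1) ∨
      ¬ (lo R a x.2 o.2 < v.2 ∧ v.2 < up R a x.2 o.2) := not_and_or.mp h2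
  rcases this with h | h
  · left
    rcases (by omega : v.1 = lo R a x.1 o.1 ∨ v.1 = up R a x.1 o.1) with e | e
    · rw [e]; exact dvd_lo _ _ _ _
    · rw [e]; exact dvd_up _ _ _ _
  · right
    rcases (by omega : v.2 = lo R a x.2 o.2 ∨ v.2 = up R a x.2 o.2) with e | e
    · rw [e]; exact dvd_lo _ _ _ _
    · rw [e]; exact dvd_up _ _ _ _

/-- the boundary of the hull, inside `V` -/
theorem Hc_diff_Ho_Grid {R a : ℕ} {x o : ℤ × ℤ} {V : Finset (ℤ × ℤ)} {v : V}
    (h1 : (v : ℤ × ℤ) ∈ Hc R a x o) (h2 : (v : ℤ × ℤ) ∉ Ho R a x o) : v ∈ Grid V a o :=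
  Hc_diff_Ho h1 h2

/-! ### N7: the interpolation error -/

theorem interp_eq (R a : ℕ) (x o v : ℤ × ℤ) :
    interp R a x o v = SF R a x.1 o.1 (Fc R x.1) v.1 * SF R a x.2 o.2 (Fc R x.2) v.2 := by
  unfold interp SF
  rw [nodes_eq, Finset.sum_product, Finset.sum_mul_sum]
  apply Finset.sum_congr rfl
  intro p _
  apply Finset.sum_congr rfl
  intro q _
  simp only [cut, hat, Fc]
  ring

theorem cut_eq (R : ℕ) (x v : ℤ × ℤ) : cut x R v = Fc R x.1 v.1 * Fc R x.2 v.2 := rfl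

theorem Fc_nonneg (R : ℕ) (c z : ℤ) : 0 ≤ Fc R c z := phi_nonneg _ _

theorem abs_SF_le_one {R a : ℕ} (ha : 1 ≤ a) (h100 : 100 * a ≤ R) {c o : ℤ} (t : ℤ) :
    |SF R a c o (Fc R c) t| ≤ 1 :=
  abs_le_one_of (SF_nonneg (Fc_nonneg R c) t) (SF_le_one ha h100 t)


theorem interp_step {R a : ℕ} (ha : 1 ≤ a) (h100 : 100 * a ≤ R) (x o u : ℤ × ℤ) (i : Fin 2) :
    |interp R a x o (u + latticeDir i) - interp R a x o u| ≤ 1 / R := by
  rw [interp_eq, interp_eq]
  have := prod_step (A := SF R a x.1 o.1 (Fc R x.1)) (B := SF R a x.2 o.2 (Fc R x.2))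
    (L := 1 / R) (SF_step ha h100) (SF_step ha h100) (abs_SF_le_one ha h100)
    (abs_SF_le_one ha h100) (0, 0) u i
  simpa using this

/-- support set of the increments of the interpolation error -/
noncomputable def WW (R a : ℕ) (x : ℤ × ℤ) : Finset (ℤ × ℤ) :=
  (Kk R (a + 1) x.1 ×ˢ Finset.Icc (x.2 - 3 * R) (x.2 + 3 * R)) ∪
    (Finset.Icc (x.1 - 3 * R) (x.1 + 3 * R) ×ˢ Kk R (a + 1) x.2)

theorem card_WW {R a : ℕ} (ha : 1 ≤ a) (h100 : 100 * a ≤ R) (x : ℤ × ℤ) :
    ((WW R a x).card : ℝ) ≤ 280 * a * R := by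
  have hicc : ∀ c : ℤ, ((Finset.Icc (c - 3 * (R:ℤ)) (c + 3 * R)).card : ℝ) ≤ 7 * R := by
    intro c
    rw [Int.card_Icc]
    have : (c + 3 * (R:ℤ) + 1 - (c - 3 * R)).toNat ≤ 7 * R := by omega
    exact_mod_cast this
  have hk : ∀ c : ℤ, ((Kk R (a + 1) c).card : ℝ) ≤ 20 * a := by
    intro c
    refine (card_Kk R (a + 1) c).trans ?_
    have : (1:ℝ) ≤ a := by exact_mod_cast ha
    push_cast; linarith
  have hR : (0:ℝ) ≤ R := Nat.cast_nonneg R
  have h0 : (0:ℝ) ≤ a := Nat.cast_nonneg a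
  have h1 : ((WW R a x).card : ℝ) ≤ (Kk R (a + 1) x.1).card
      * (Finset.Icc (x.2 - 3 * (R:ℤ)) (x.2 + 3 * R)).card
      + (Finset.Icc (x.1 - 3 * (R:ℤ)) (x.1 + 3 * R)).card * (Kk R (a + 1) x.2).card := by
    have := Finset.card_union_le (Kk R (a + 1) x.1 ×ˢ Finset.Icc (x.2 - 3 * (R:ℤ)) (x.2 + 3 * R))
      (Finset.Icc (x.1 - 3 * (R:ℤ)) (x.1 + 3 * R) ×ˢ Kk R (a + 1) x.2)
    rw [Finset.card_product, Finset.card_product] at this
    exact_mod_cast this
  have h2 := mul_le_mul (hk x.1) (hicc x.2) (Nat.cast_nonneg _) (by positivity)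
  have h3 := mul_le_mul (hicc x.1) (hk x.2) (Nat.cast_nonneg _) (by positivity)
  nlinarith

theorem mem_Kk_mono {R : ℕ} {a : ℕ} {c t : ℤ} (h : t ∉ Kk R (a + 1) c) :
    t ∉ Kk R a c ∧ t + 1 ∉ Kk R a c := by
  obtain ⟨k1, k2, k3, k4⟩ := not_mem_Kk h
  push_cast at k1 k2 k3 k4
  constructor <;>
  · unfold Kk
    simp only [Finset.mem_union, Finset.mem_Icc, not_or, not_and_or, not_le]
    refine ⟨⟨?_, ?_⟩, ?_, ?_⟩ <;> omega

theorem err_zero_of_Kk {R a : ℕ} (ha : 1 ≤ a) (h100 : 100 * a ≤ R) {x o v : ℤ × ℤ}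
    (h1 : v.1 ∉ Kk R a x.1) (h2 : v.2 ∉ Kk R a x.2) :
    cut x R v - interp R a x o v = 0 := by
  rw [cut_eq, interp_eq, SF_eq ha h100 h1, SF_eq ha h100 h2, sub_self]

theorem err_zero_far1 {R a : ℕ} (ha : 1 ≤ a) (h100 : 100 * a ≤ R) {x o v : ℤ × ℤ}
    (h : 3 * (R:ℤ) ≤ |v.1 - x.1|) : cut x R v - interp R a x o v = 0 := by
  have hR1 : 1 ≤ R := by omega
  rw [cut_eq, interp_eq, SF_zero ha hR1 (by omega), Fc_zero hR1 (by omega)]
  ring

theorem err_zero_far2 {R a : ℕ} (ha : 1 ≤ a) (h100 : 100 * a ≤ R) {x o v : ℤ × ℤ}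
    (h : 3 * (R:ℤ) ≤ |v.2 - x.2|) : cut x R v - interp R a x o v = 0 := by
  have hR1 : 1 ≤ R := by omega
  rw [cut_eq, interp_eq, SF_zero (c := x.2) ha hR1 (by omega), Fc_zero (c := x.2) hR1 (by omega)]
  ring

theorem err_support {R a : ℕ} (ha : 1 ≤ a) (h100 : 100 * a ≤ R) {x o u : ℤ × ℤ} (i : Fin 2)
    (h : cut x R (u + latticeDir i) - interp R a x o (u + latticeDir i)
      ≠ cut x R u - interp R a x o u) : u ∈ WW R a x := by
  by_contra hW
  apply h
  have hI1 : |u.1 - x.1| ≤ 3 * R ↔ u.1 ∈ Finset.Icc (x.1 - 3 * (R:ℤ)) (x.1 + 3 * R) := by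
    rw [Finset.mem_Icc, abs_le]; constructor <;> rintro ⟨p, q⟩ <;> constructor <;> linarith
  have hI2 : |u.2 - x.2| ≤ 3 * R ↔ u.2 ∈ Finset.Icc (x.2 - 3 * (R:ℤ)) (x.2 + 3 * R) := by
    rw [Finset.mem_Icc, abs_le]; constructor <;> rintro ⟨p, q⟩ <;> constructor <;> linarith
  unfold WW at hW
  rw [Finset.mem_union, not_or, Finset.mem_product, Finset.mem_product, ← hI1, ← hI2] at hW
  by_cases f1 : |u.1 - x.1| ≤ 3 * R
  · by_cases f2 : |u.2 - x.2| ≤ 3 * R
    · have k1 : u.1 ∉ Kk R (a + 1) x.1 := fun hk => hW.1 ⟨hk, f2⟩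
      have k2 : u.2 ∉ Kk R (a + 1) x.2 := fun hk => hW.2 ⟨f1, hk⟩
      obtain ⟨k1, k1'⟩ := mem_Kk_mono k1
      obtain ⟨k2, k2'⟩ := mem_Kk_mono k2
      rw [err_zero_of_Kk ha h100 (v := u) k1 k2]
      fin_cases i
      · simp only [Fin.zero_eta, latDir_zero]
        exact err_zero_of_Kk ha h100 k1' k2
      · simp only [Fin.mk_one, latDir_one]
        exact err_zero_of_Kk ha h100 k1 k2'
    · rw [err_zero_far2 ha h100 (v := u) (by omega)]
      fin_cases i
      · simp only [Fin.zero_eta, latDir_zero]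
        exact err_zero_far2 ha h100 (by simp only; omega)
      · simp only [Fin.mk_one, latDir_one]
        apply err_zero_far2 ha h100
        simp only
        rcases abs_cases (u.2 - x.2) with ⟨e, _⟩ | ⟨e, _⟩ <;>
          rcases abs_cases (u.2 + 1 - x.2) with ⟨e', _⟩ | ⟨e', _⟩ <;> omega
  · rw [err_zero_far1 ha h100 (v := u) (by omega)]
    fin_cases i
    · simp only [Fin.zero_eta, latDir_zero]
      apply err_zero_far1 ha h100
      simp only
      rcases abs_cases (u.1 - x.1) with ⟨e, _⟩ | ⟨e, _⟩ <;>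
        rcases abs_cases (u.1 + 1 - x.1) with ⟨e', _⟩ | ⟨e', _⟩ <;> omega
    · simp only [Fin.mk_one, latDir_one]
      exact err_zero_far1 ha h100 (by simp only; omega)

/-- N7, second half -/
theorem En_err_le (V : Finset (ℤ × ℤ)) (b : ℤ × ℤ → Fin 2 → ℝ) (β : ℝ) (hβ : 0 ≤ β)
    (hb : ∀ u i, 0 ≤ b u i ∧ b u i ≤ β) (R a : ℕ) (ha : 1 ≤ a) (h100 : 100 * a ≤ R)
    (x o : ℤ × ℤ) :
    (latG V b).En (rs V (fun v => cut x R v - interp R a x o v)) ≤ 2240 * β * (a / R) := by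
  have hR1 : 1 ≤ R := by omega
  have hRR : (0:ℝ) < R := by exact_mod_cast hR1
  have haR : (0:ℝ) < a := by exact_mod_cast ha
  refine (En_le_dirE V b β hb _).trans ?_
  have h1 := dirE_le V (fun v => cut x R v - interp R a x o v) (fun _ => WW R a x) (2 / R)
    (fun u i => by
      have e : (cut x R (u + latticeDir i) - interp R a x o (u + latticeDir i))
          - (cut x R u - interp R a x o u)
          = (cut x R (u + latticeDir i) - cut x R u)
            - (interp R a x o (u + latticeDir i) - interp R a x o u) := by ring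
      show |_| ≤ _
      rw [e]
      refine (abs_sub _ _).trans ?_
      have := cut_step x R u i
      have := interp_step ha h100 x o u i
      calc _ ≤ 1 / (R:ℝ) + 1 / R := by linarith
        _ = 2 / R := by ring)
    (fun u i h => err_support ha h100 i h)
  have h2 := card_WW ha h100 x
  have h3 : ((((WW R a x).card : ℝ) + (WW R a x).card) * (2 / (R:ℝ)) ^ 2) ≤ 2240 * (a / R) := by
    have h4 : (0:ℝ) ≤ (2 / (R:ℝ)) ^ 2 := sq_nonneg _
    calc _ ≤ (280 * a * R + 280 * a * R) * (2 / (R:ℝ)) ^ 2 :=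
          mul_le_mul_of_nonneg_right (by linarith) h4
      _ = 2240 * (a / R) := by field_simp; ring
  calc β * dirE V _ ≤ β * (2240 * (a / R)) := mul_le_mul_of_nonneg_left (h1.trans h3) hβ
    _ = _ := by ring

end Crest.Agent.R167.Geo
end

-- ▼ part R167/Step
section

/-! # Row 167, NODE STEP: one coarse-graining step. -/

set_option autoImplicit false
open MeasureTheory Crest.ProbabilityR.SpinModel

namespace Crest.Agent.R167

section lat
variable {V : Finset (ℤ × ℤ)} {b : ℤ × ℤ → Fin 2 → ℝ}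

/-- restriction of a subset of `ℤ²` to `V` -/
def rset (V : Finset (ℤ × ℤ)) (H : Set (ℤ × ℤ)) : Set V := {v | (v : ℤ × ℤ) ∈ H}

lemma lat_closed {Ho H : Set (ℤ × ℤ)} (hsub : Ho ⊆ H)
    (h1 : ∀ v ∈ Ho, ∀ i, v + latticeDir i ∈ H) (h2 : ∀ v, ∀ i, v + latticeDir i ∈ Ho → v ∈ H)
    (e : V × Fin 2) (he : (latG V b).src e ∈ rset V Ho ∨ (latG V b).tgt e ∈ rset V Ho) :
      (latG V b).src e ∈ rset V H ∧ (latG V b).tgt e ∈ rset V H := by
  obtain ⟨u, i⟩ := e
  by_cases hV : (u : ℤ × ℤ) + latticeDir i ∈ V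
  · have ht : (latG V b).tgt (u, i) = ⟨(u : ℤ × ℤ) + latticeDir i, hV⟩ := by
      simp only [latG]; rw [dif_pos hV]
    have hs : (latG V b).src (u, i) = u := rfl
    rw [ht, hs] at he ⊢
    rcases he with he | he
    · exact ⟨hsub he, h1 _ he i⟩
    · exact ⟨h2 _ i he, hsub he⟩
  · have ht : (latG V b).tgt (u, i) = u := by
      simp only [latG]; rw [dif_neg hV]
    have hs : (latG V b).src (u, i) = u := rfl
    rw [ht, hs] at he ⊢
    rcases he with he | he
    · exact ⟨hsub he, hsub he⟩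
    · exact ⟨hsub he, hsub he⟩

lemma lat_b_nonneg {β : ℝ} (hb : ∀ u i, 0 ≤ b u i ∧ b u i ≤ β) (e : V × Fin 2) :
    0 ≤ (latG V b).b e := by
  simp only [latG]
  split_ifs
  · exact (hb _ _).1
  · exact le_rfl

end lat

section sumrule
variable {n : ℕ} [NeZero n] {V : Finset (ℤ × ℤ)} {b : ℤ × ℤ → Fin 2 → ℝ} {β : ℝ} {R a : ℕ}
  {x o : ℤ × ℤ} {k l : Fin n} {S : Set V}

lemma F0_cut (hR : 1 ≤ R) (v : V) (hv : v ∈ (bx V x (4 * R))ᶜ) : rs V (cut x R) v = 0 := by
  apply SGeo.cut_off hR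
  rintro ⟨h1, h2⟩
  apply hv
  have hR0 : (0 : ℤ) ≤ R := Int.natCast_nonneg R
  constructor
  · push_cast; linarith
  · push_cast; linarith

lemma F0_qz (ha : 1 ≤ a) (haR : 100 * a ≤ R) {z : ℤ × ℤ} (hz : z ∈ Geo.nodes R a x o) (v : V)
    (hv : v ∈ (bx V x (4 * R))ᶜ) : rs V (Geo.qz R a x z) v = 0 := by
  apply SGeo.qz_off ha haR hz
  rintro ⟨h1, h2⟩
  exact hv ⟨by push_cast; exact h1, by push_cast; exact h2⟩

lemma F0_hat (ha : 1 ≤ a) (haR : 100 * a ≤ R) {z : ℤ × ℤ} (hz : z ∈ Geo.nodes R a x o) (v : V)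
    (hv : v ∈ (bx V x (4 * R))ᶜ) : hat a z (v : ℤ × ℤ) = 0 := by
  apply SGeo.hat_off ha
  rintro ⟨h1, h2⟩
  have := SGeo.node_box haR hz h1.le h2.le
  exact hv ⟨by push_cast; exact this.1, by push_cast; exact this.2⟩

/-- the sum rule -/
theorem sum_rule (hkl : k ≠ l) (ha : 1 ≤ a) (haR : 100 * a ≤ R)
    (hF0 : (bx V x (4 * R))ᶜ ⊆ S) (hgrid : Grid V a o ⊆ S) (τ : Cf V n) :
    ∑ z ∈ Geo.act R a x o, BB (latG V b) (bx V x (4 * R))ᶜ S k l (rs V (hat a z))
        (fun v => ((16 * a / R : ℝ) * rs V (Geo.qz R a x z) v) ^ 2) τ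
      = -2 * BB (latG V b) (bx V x (4 * R))ᶜ S k l (rs V (Geo.interp R a x o))
          (rs V (cut x R)) τ := by
  classical
  have hR : 1 ≤ R := by omega
  set G := latG V b with hG
  set F0 : Set V := (bx V x (4 * R))ᶜ with hF0d
  set f : V → ℝ := rs V (cut x R) with hf
  have hbd : ∀ z ∈ Geo.nodes R a x o, bx V z a \ ocell V z a ⊆ S := fun z hz v hv =>
    hgrid (GeoB.bd_sub_Grid (GeoB.node_of_mem_gnodes hz) hv)
  have hψoff : ∀ z : ℤ × ℤ, ∀ v : V, v ∉ ocell V z a → rs V (hat a z) v = 0 :=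
    fun z v hv => SGeo.hat_off ha hv
  have hsq : ∀ v ∈ F0, f v = 0 := fun v hv => F0_cut hR v hv
  -- the individual terms
  have hterm : ∀ z ∈ Geo.nodes R a x o,
      BB G F0 S k l (rs V (hat a z)) (fun v => f v ^ 2 + (-2 * cut x R z) * f v) τ =
      if z ∈ Geo.act R a x o then BB G F0 S k l (rs V (hat a z))
        (fun v => ((16 * a / R : ℝ) * rs V (Geo.qz R a x z) v) ^ 2) τ else 0 := by
    intro z hz
    split_ifs with hact
    · -- active
      have hz0 : BB G F0 S k l (rs V (hat a z))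
            (fun v => (f v ^ 2 + (-2 * cut x R z) * f v)
              - ((16 * a / R : ℝ) * rs V (Geo.qz R a x z) v) ^ 2) τ = 0 := by
        refine BB_eq_zero G τ hkl hF0 GeoB.edge_cell (hbd z hz) (hψoff z)
          (c := -(cut x R z) ^ 2) ?_ ?_
        · intro v hv
          have h1 := Geo.qz_spec (x := x) ha hR hv
          have h2 : (16 * a / R : ℝ) * rs V (Geo.qz R a x z) v = f v - cut x R z := h1
          simp only [h2]
          ring
        · intro v hv
          simp only [hsq v hv, F0_qz ha haR hz v hv]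
          ring
      rw [BB_sub_right] at hz0
      linarith
    · -- inactive
      refine BB_eq_zero G τ hkl hF0 GeoB.edge_cell (hbd z hz) (hψoff z)
          (c := -(cut x R z) ^ 2) ?_ ?_
      · intro v hv
        have h2 : f v = cut x R z := GeoB.cut_const_of_not_act hz hact hv.1 hv.2
        rw [h2]
        ring
      · intro v hv
        simp only [hsq v hv]
        ring
  -- the sum over all nodes
  have hact_sub : Geo.act R a x o ⊆ Geo.nodes R a x o := fun z hz => (GeoB.mem_act.1 hz).1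
  have hsum : ∑ z ∈ Geo.act R a x o, BB G F0 S k l (rs V (hat a z))
        (fun v => ((16 * a / R : ℝ) * rs V (Geo.qz R a x z) v) ^ 2) τ =
      ∑ z ∈ Geo.nodes R a x o,
        BB G F0 S k l (rs V (hat a z)) (fun v => f v ^ 2 + (-2 * cut x R z) * f v) τ := by
    rw [Finset.sum_congr rfl hterm, Finset.sum_ite_mem, Finset.inter_eq_right.2 hact_sub]
  rw [hsum]
  -- expand
  have hexp : ∀ z ∈ Geo.nodes R a x o,
      BB G F0 S k l (rs V (hat a z)) (fun v => f v ^ 2 + (-2 * cut x R z) * f v) τ =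
      BB G F0 S k l (rs V (hat a z)) (fun v => f v ^ 2) τ +
        (-2) * BB G F0 S k l (fun v => cut x R z * rs V (hat a z) v) f τ := by
    intro z _
    rw [BB_add_right G F0 S k l τ (rs V (hat a z)) (fun v => f v ^ 2)
      (fun v => (-2 * cut x R z) * f v), BB_const_mul_right, BB_const_mul_left]
    ring
  rw [Finset.sum_congr rfl hexp, Finset.sum_add_distrib, ← Finset.mul_sum (a := (-2 : ℝ)),
    ← BB_sum_left, ← BB_sum_left]
  -- the constant part vanishes
  have hzero : BB G F0 S k l (fun v => ∑ z ∈ Geo.nodes R a x o, rs V (hat a z) v)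
      (fun v => f v ^ 2) τ = 0 := by
    rw [BB_comm]
    refine BB_eq_zero G τ hkl hF0 (Q := rset V (Geo.Hc R a x o)) (Qo := rset V (Geo.Ho R a x o))
      (lat_closed (Geo.Ho_subset_Hc R a x o) (fun v hv i => (Geo.Ho_nbr i).1 hv)
        (fun v i hv => (Geo.Ho_nbr i).2 hv)) ?_ ?_ (c := 1) ?_ ?_
    · intro v hv
      exact hgrid (Geo.Hc_diff_Ho_Grid hv.1 hv.2)
    · intro v hv
      have : f v = 0 := Geo.cut_eq_zero_off_Ho ha haR hv
      simp only [this]; ring
    · intro v hv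
      exact Geo.sum_hat_Hc ha hv
    · intro v hv
      exact Finset.sum_eq_zero fun z hz => F0_hat ha haR hz v hv
  rw [hzero, zero_add]
  rfl

end sumrule

/-- NODE STEP -/
theorem stepProp_of (hkey : KeyIneq) : StepProp := by
  classical
  intro n hn β hβ
  have : NeZero n := ⟨by omega⟩
  obtain ⟨C2, hC2, hkey⟩ := hkey n hn (2240 * β)
  refine ⟨C2 * Real.sqrt (2 * 256000) + 2240 * β, by positivity, ?_⟩
  intro R a ha haR V b hb x k l m hkl hlm hmk o S hF0 hbx hgrid τ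
  have hR : 1 ≤ R := by omega
  have hRr : (0 : ℝ) < R := by exact_mod_cast (by omega : 0 < R)
  have har : (0 : ℝ) < a := by exact_mod_cast (by omega : 0 < a)
  set G := latG V b with hG
  set F0 : Set V := (bx V x (4 * R))ᶜ with hF0d
  set f : V → ℝ := rs V (cut x R) with hf
  have hbn : ∀ e, 0 ≤ G.b e := lat_b_nonneg hb
  have hsq : ∀ v ∈ F0, f v = 0 := fun v hv => F0_cut hR v hv
  have hactN : ∀ z ∈ Geo.act R a x o, z ∈ Geo.nodes R a x o := fun z hz => (GeoB.mem_act.1 hz).1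
  have hbd : ∀ z ∈ Geo.nodes R a x o, bx V z a \ ocell V z a ⊆ S := fun z hz v hv =>
    hgrid (GeoB.bd_sub_Grid (GeoB.node_of_mem_gnodes hz) hv)
  have hdjF0 : ∀ z ∈ Geo.nodes R a x o, Disjoint F0 (ocell V z a) := fun z hz =>
    GeoB.F0_disj_ocell (by omega) hz
  -- the gains
  set DD : Fin n → Fin n → (ℤ × ℤ) → ℝ := fun i j z =>
    P G F0 (fun s => (P G S (XI G i j f) s - P G (S \ ocell V z a) (XI G i j f) s) ^ 2) τ with hDD
  have hDD0 : ∀ i j z, 0 ≤ DD i j z := fun i j z => P_nonneg G (fun s => sq_nonneg _) τ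
  set Sc : Fin 4 → Set V := fun c =>
    S \ ⋃ z ∈ (Geo.act R a x o).filter (fun z => GeoB.cl a o z = c), ocell V z a with hSc
  have hgain : ∀ i j : Fin n, i ≠ j → ∀ c,
      ∑ z ∈ (Geo.act R a x o).filter (fun z => GeoB.cl a o z = c), DD i j z ≤
        KK G F0 S i j f τ - KK G F0 (Sc c) i j f τ := by
    intro i j hij c
    refine (step_gain G ((Geo.act R a x o).filter (fun z => GeoB.cl a o z = c))
      (fun z => bx V z a) (fun z => ocell V z a) F0 S hF0 ?_ ?_ ?_ ?_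
      (XI G i j f) (continuous_XI G i j f) ?_ τ).le
    · intro z hz
      exact hdjF0 z (hactN z (Finset.mem_filter.1 hz).1)
    · intro z hz
      exact hbd z (hactN z (Finset.mem_filter.1 hz).1)
    · intro z hz
      exact GeoB.edge_cell
    · intro z hz z' hz' hne
      exact GeoB.disj_cl (GeoB.node_of_mem_act (Finset.mem_filter.1 hz).1)
        (GeoB.node_of_mem_act (Finset.mem_filter.1 hz').1)
        ((Finset.mem_filter.1 hz).2.trans (Finset.mem_filter.1 hz').2.symm) hne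
    · intro z hz
      exact XI_decomp G i j GeoB.edge_cell f
  -- apply the abstract step
  have hlam : (0 : ℝ) ≤ 16 * a / R := by positivity
  have hstep := Step.step_abs (Geo.act R a x o) (GeoB.cl a o) (DD l m) (DD m k)
    (fun z _ => hDD0 _ _ z) (fun z _ => hDD0 _ _ z)
    (fun c => (KK G F0 S l m f τ + KK G F0 S m k f τ)
      - (KK G F0 (Sc c) l m f τ + KK G F0 (Sc c) m k f τ))
    (by
      intro c
      have e1 := hgain l m hlm c
      have e2 := hgain m k hmk c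
      rw [Finset.sum_add_distrib]
      linarith)
    (fun z => BB G F0 S k l (rs V (hat a z))
        (fun v => ((16 * a / R : ℝ) * rs V (Geo.qz R a x z) v) ^ 2) τ)
    (16 * a / R) C2 256000 (2240 * β * Real.sqrt (a / R)) hlam hC2
    (by
      intro z hz
      have hzN := hactN z hz
      have hEh := Geo.En_hat_le V b β hβ.le hb a ha z
      have hEq := Geo.En_qz_le V b β hβ.le hb R a ha hR x z
      have hk := hkey V (V × Fin 2) G hbn k l m hkl hlm hmk F0 (S \ ocell V z a) S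
        (fun v hv => ⟨hF0 hv, fun h => (Set.disjoint_left.1 (hdjF0 z hzN)) hv h⟩)
        Set.sdiff_subset (rs V (hat a z)) (rs V (Geo.qz R a x z)) (16 * a / R) hlam
        (fun v hv => SGeo.hat_off ha hv.2) (fun v hv => F0_qz ha haR hzN v hv)
        (fun v => Geo.abs_qz_le ha hR x z v) (by linarith) (by linarith) τ
      have hloc : ∀ i j : Fin n, ∀ s : Cf V n,
          P G S (XI G i j (fun v => (16 * a / R : ℝ) * rs V (Geo.qz R a x z) v)) s
            - P G (S \ ocell V z a) (XI G i j (fun v => (16 * a / R : ℝ) * rs V (Geo.qz R a x z) v)) s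
          = P G S (XI G i j f) s - P G (S \ ocell V z a) (XI G i j f) s := by
        intro i j s
        apply loc G i j GeoB.edge_cell (hbd z hzN) (c := - cut x R z)
        intro v hv
        have h1 := Geo.qz_spec (x := x) ha hR hv
        have h2 : (16 * a / R : ℝ) * rs V (Geo.qz R a x z) v = f v - cut x R z := h1
        rw [h2]; ring
      have e1 : (fun s : Cf V n => (P G S (XI G l m (fun v => (16 * a / R : ℝ) * rs V (Geo.qz R a x z) v)) s
            - P G (S \ ocell V z a) (XI G l m (fun v => (16 * a / R : ℝ) * rs V (Geo.qz R a x z) v)) s) ^ 2)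
          = fun s => (P G S (XI G l m f) s - P G (S \ ocell V z a) (XI G l m f) s) ^ 2 := by
        funext s; rw [hloc l m s]
      have e2 : (fun s : Cf V n => (P G S (XI G m k (fun v => (16 * a / R : ℝ) * rs V (Geo.qz R a x z) v)) s
            - P G (S \ ocell V z a) (XI G m k (fun v => (16 * a / R : ℝ) * rs V (Geo.qz R a x z) v)) s) ^ 2)
          = fun s => (P G S (XI G m k f) s - P G (S \ ocell V z a) (XI G m k f) s) ^ 2 := by
        funext s; rw [hloc m k s]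
      rw [e1, e2] at hk
      exact hk)
    (KK G F0 S k l f τ) (BB G F0 S k l (rs V (Geo.interp R a x o)) f τ)
    (BB G F0 S k l (rs V (fun v => cut x R v - Geo.interp R a x o v)) f τ)
    (by
      rw [← BB_self_eq_KK]
      have h2 : rs V (fun v => cut x R v - Geo.interp R a x o v) =
          fun v => f v - rs V (Geo.interp R a x o) v := rfl
      rw [h2, BB_sub_left]
      ring)
    (sum_rule hkl ha haR hF0 hgrid τ)
    (by
      have h1 := abs_BB_le G (F0 := F0) (S := S) (τ := τ) hbn hkl hF0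
        (g := rs V (fun v => cut x R v - Geo.interp R a x o v)) (h := f) (by
          intro v hv
          have h2 : cut x R (v : ℤ × ℤ) = 0 := hsq v hv
          have h3 : Geo.interp R a x o v = 0 := by
            unfold Geo.interp
            apply Finset.sum_eq_zero
            intro z hz
            rw [F0_hat ha haR hz v hv, mul_zero]
          simp only [rs]
          rw [h2, h3, sub_zero]) hsq
      refine h1.trans ?_
      have h2 := Geo.En_err_le V b β hβ.le hb R a ha haR x o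
      have h3 := Geo.En_cut_le V b β hβ.le hb R hR x
      have h4 : Real.sqrt (G.En (rs V fun v => cut x R v - Geo.interp R a x o v)) ≤
          Real.sqrt (2240 * β) * Real.sqrt (a / R) := by
        rw [← Real.sqrt_mul (by positivity)]
        exact Real.sqrt_le_sqrt h2
      have h5 : Real.sqrt (G.En f) ≤ Real.sqrt (2240 * β) := Real.sqrt_le_sqrt (by linarith)
      calc _ ≤ (Real.sqrt (2240 * β) * Real.sqrt (a / R)) * Real.sqrt (2240 * β) :=
            mul_le_mul h4 h5 (Real.sqrt_nonneg _) (by positivity)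
        _ = (Real.sqrt (2240 * β)) ^ 2 * Real.sqrt (a / R) := by ring
        _ = 2240 * β * Real.sqrt (a / R) := by rw [Real.sq_sqrt (by positivity)])
    (by
      have h1 := GeoB.card_act (R := R) ha (by omega) x o
      calc (16 * (a : ℝ) / R) ^ 2 * (Geo.act R a x o).card
          ≤ (16 * (a : ℝ) / R) ^ 2 * (49 * ((R : ℝ) / a) ^ 2) :=
            mul_le_mul_of_nonneg_left h1 (by positivity)
        _ ≤ 256000 := by
            have : (16 * (a : ℝ) / R) ^ 2 * (49 * ((R : ℝ) / a) ^ 2) = 12544 := by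
              field_simp; norm_num
            rw [this]; norm_num)
  obtain ⟨c, hc⟩ := hstep
  obtain ⟨n1, n2, n3, n4⟩ := GeoB.next_set (V := V) ha haR c hF0 hbx hgrid
    ((Geo.act R a x o).filter (fun z => GeoB.cl a o z = c))
    (fun z hz => ⟨(Finset.mem_filter.1 hz).1, (Finset.mem_filter.1 hz).2⟩)
  refine ⟨GeoB.op a o c, Sc c, n1, n2, n3, n4, ?_⟩
  refine hc.trans ?_
  have h1 : 0 ≤ Real.sqrt ((KK G F0 S l m f τ + KK G F0 S m k f τ)
    - (KK G F0 (Sc c) l m f τ + KK G F0 (Sc c) m k f τ)) := Real.sqrt_nonneg _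
  have h2 : 0 ≤ Real.sqrt ((a : ℝ) / R) := Real.sqrt_nonneg _
  have h3 : 0 ≤ C2 * Real.sqrt (2 * 256000) := by positivity
  nlinarith [mul_nonneg (by positivity : (0:ℝ) ≤ 2240 * β) h1, mul_nonneg h3 h2]

end Crest.Agent.R167
end

-- ▼ part R167/MomA
section

/-!
# Row 167 (S0253), node MOM, part A: exponentials of skew operators
-/

set_option autoImplicit false
open NormedSpace

namespace Crest.Agent.R167.Mom

variable {E : Type*} [NormedAddCommGroup E] [InnerProductSpace ℝ E] [CompleteSpace E]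

noncomputable local instance : NormedAlgebra ℚ (E →L[ℝ] E) :=
  NormedAlgebra.restrictScalars ℚ ℝ (E →L[ℝ] E)

/-- skew operators -/
def Skew (A : E →L[ℝ] E) : Prop := ∀ x y : E, inner ℝ (A x) y = - inner ℝ x (A y)

lemma Skew.mem {A : E →L[ℝ] E} (hA : Skew A) : A ∈ skewAdjoint (E →L[ℝ] E) := by
  rw [skewAdjoint.mem_iff, ContinuousLinearMap.star_eq_adjoint]
  symm
  rw [ContinuousLinearMap.eq_adjoint_iff]
  intro x y
  rw [ContinuousLinearMap.neg_apply, inner_neg_left, hA x y, neg_neg]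

lemma Skew.smul {A : E →L[ℝ] E} (hA : Skew A) (t : ℝ) : Skew (t • A) := by
  intro x y
  simp only [ContinuousLinearMap.smul_apply, inner_smul_left, inner_smul_right, hA x y]
  simp

lemma Skew.add {A B : E →L[ℝ] E} (hA : Skew A) (hB : Skew B) : Skew (A + B) := by
  intro x y
  simp only [ContinuousLinearMap.add_apply, inner_add_left, inner_add_right, hA x y, hB x y]
  ring

lemma Skew.neg {A : E →L[ℝ] E} (hA : Skew A) : Skew (-A) := by
  intro x y
  simp only [ContinuousLinearMap.neg_apply, inner_neg_left, inner_neg_right, hA x y]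

lemma Skew.sub {A B : E →L[ℝ] E} (hA : Skew A) (hB : Skew B) : Skew (A - B) := by
  rw [sub_eq_add_neg]
  exact hA.add hB.neg

lemma exp_mem {A : E →L[ℝ] E} (hA : Skew A) : exp A ∈ unitary (E →L[ℝ] E) :=
  exp_mem_unitary_of_mem_skewAdjoint hA.mem

lemma norm_exp_apply {A : E →L[ℝ] E} (hA : Skew A) (x : E) : ‖exp A x‖ = ‖x‖ :=
  ContinuousLinearMap.norm_map_of_mem_unitary (exp_mem hA) x

lemma norm_exp_le {A : E →L[ℝ] E} (hA : Skew A) : ‖exp A‖ ≤ 1 :=
  ContinuousLinearMap.opNorm_le_bound _ zero_le_one fun x => by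
    rw [norm_exp_apply hA, one_mul]

lemma norm_exp_sub_one_le {A : E →L[ℝ] E} (hA : Skew A) {t : ℝ} (ht : 0 ≤ t) :
    ‖exp (t • A) - 1‖ ≤ t * ‖A‖ := by
  have h := norm_image_sub_le_of_norm_deriv_le_segment' (f := fun t : ℝ => exp (t • A))
    (f' := fun t => exp (t • A) * A) (C := ‖A‖) (a := 0) (b := t)
    (fun s _ => (hasDerivAt_exp_smul_const A s).hasDerivWithinAt)
    (fun s _ => by
      calc ‖exp (s • A) * A‖ ≤ ‖exp (s • A)‖ * ‖A‖ := norm_mul_le _ _
        _ ≤ 1 * ‖A‖ := by gcongr; exact norm_exp_le (hA.smul s)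
        _ = ‖A‖ := one_mul _) t ⟨ht, le_rfl⟩
  simp only [zero_smul, exp_zero, sub_zero] at h
  linarith [mul_comm t ‖A‖]

lemma norm_exp_sub_one_sub_le {A : E →L[ℝ] E} (hA : Skew A) :
    ‖exp A - 1 - A‖ ≤ ‖A‖ ^ 2 / 2 := by
  have h := image_norm_le_of_norm_deriv_right_le_deriv_boundary'
    (f := fun t : ℝ => exp (t • A) - 1 - t • A)
    (f' := fun t => exp (t • A) * A - A) (a := 0) (b := 1)
    (B := fun t => ‖A‖ ^ 2 / 2 * t ^ 2) (B' := fun t => ‖A‖ ^ 2 * t)
    (by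
      have : ∀ s, HasDerivAt (fun t : ℝ => exp (t • A) - 1 - t • A) (exp (s • A) * A - A) s := by
        intro s
        have h1 := ((hasDerivAt_exp_smul_const A s).sub_const 1).sub
          ((hasDerivAt_id s).smul_const A)
        exact h1.congr_deriv (by simp)
      exact fun s _ => (this s).continuousAt.continuousWithinAt)
    (by
      intro s _
      have h1 := ((hasDerivAt_exp_smul_const A s).sub_const 1).sub
        ((hasDerivAt_id s).smul_const A)
      have h2 : HasDerivAt (fun t : ℝ => exp (t • A) - 1 - t • A) (exp (s • A) * A - A) s :=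
        h1.congr_deriv (by simp)
      exact h2.hasDerivWithinAt)
    (by simp)
    (by fun_prop)
    (by
      intro s _
      have h1 := ((hasDerivAt_id s).pow 2).const_mul (‖A‖ ^ 2 / 2)
      refine (h1.congr_deriv ?_).hasDerivWithinAt
      simp
      ring)
    (by
      intro s hs
      have h2 : exp (s • A) * A - A = (exp (s • A) - 1) * A := by
        rw [sub_mul, one_mul]
      rw [h2]
      calc ‖(exp (s • A) - 1) * A‖ ≤ ‖exp (s • A) - 1‖ * ‖A‖ := norm_mul_le _ _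
        _ ≤ (s * ‖A‖) * ‖A‖ := by gcongr; exact norm_exp_sub_one_le hA hs.1
        _ = ‖A‖ ^ 2 * s := by ring) (x := 1) (by simp)
  simpa using h

/-- conjugation formula -/
lemma conj_formula {A B C : E →L[ℝ] E} (h1 : C * A - A * C = B) (h2 : C * B - B * C = -A)
    (ψ : ℝ) :
    exp ((-ψ) • C) * A * exp (ψ • C) = Real.cos ψ • A - Real.sin ψ • B := by
  set M : ℝ → (E →L[ℝ] E) := fun ψ =>
    exp (ψ • C) * (Real.cos ψ • A - Real.sin ψ • B) * exp (ψ • (-C)) with hM
  have hd : ∀ s, HasDerivAt M 0 s := by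
    intro s
    have e1 := hasDerivAt_exp_smul_const C s
    have e3 := hasDerivAt_exp_smul_const' (-C) s
    have e2 : HasDerivAt (fun ψ => Real.cos ψ • A - Real.sin ψ • B)
        ((-Real.sin s) • A - Real.cos s • B) s :=
      ((Real.hasDerivAt_cos s).smul_const A).sub ((Real.hasDerivAt_sin s).smul_const B)
    have e4 := (e1.mul e2).mul e3
    refine e4.congr_deriv ?_
    have key : C * (Real.cos s • A - Real.sin s • B) + ((-Real.sin s) • A - Real.cos s • B)
        - (Real.cos s • A - Real.sin s • B) * C = 0 := by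
      have : C * (Real.cos s • A - Real.sin s • B) - (Real.cos s • A - Real.sin s • B) * C
          = Real.cos s • (C * A - A * C) - Real.sin s • (C * B - B * C) := by
        simp only [mul_sub, sub_mul, mul_smul_comm, smul_mul_assoc, smul_sub]
        abel
      have h3 : C * (Real.cos s • A - Real.sin s • B) + ((-Real.sin s) • A - Real.cos s • B)
        - (Real.cos s • A - Real.sin s • B) * C =
          (C * (Real.cos s • A - Real.sin s • B) - (Real.cos s • A - Real.sin s • B) * C) +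
          ((-Real.sin s) • A - Real.cos s • B) := by abel
      rw [h3, this, h1, h2]
      simp only [smul_neg, neg_smul]
      abel
    have : (exp (s • C) * C * (Real.cos s • A - Real.sin s • B) +
        exp (s • C) * ((-Real.sin s) • A - Real.cos s • B)) * exp (s • (-C)) +
        exp (s • C) * (Real.cos s • A - Real.sin s • B) * (-C * exp (s • (-C))) =
        exp (s • C) * (C * (Real.cos s • A - Real.sin s • B) +
          ((-Real.sin s) • A - Real.cos s • B)
          - (Real.cos s • A - Real.sin s • B) * C) * exp (s • (-C)) := by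
      noncomm_ring
    refine Eq.trans ?_ (this.trans (by rw [key]; simp))
    rfl
  have hc : M ψ = M 0 := by
    apply is_const_of_deriv_eq_zero (fun s => (hd s).differentiableAt) (fun s => (hd s).deriv)
  have hM0 : M 0 = A := by simp [hM]
  rw [hM0] at hc
  have hinv : exp ((-ψ) • C) * exp (ψ • C) = 1 := by
    rw [← exp_add_of_commute]
    · simp
    · exact (Commute.refl C).smul_left _ |>.smul_right _
  have hinv' : exp (ψ • (-C)) * exp (ψ • C) = 1 := by
    rw [show ψ • (-C) = (-ψ) • C by simp]; exact hinv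
  calc exp ((-ψ) • C) * A * exp (ψ • C) = exp ((-ψ) • C) * (M ψ) * exp (ψ • C) := by rw [hc]
    _ = (exp ((-ψ) • C) * exp (ψ • C)) * (Real.cos ψ • A - Real.sin ψ • B) *
        (exp (ψ • (-C)) * exp (ψ • C)) := by
          simp only [hM, mul_assoc]
    _ = _ := by rw [hinv, hinv', one_mul, mul_one]

/-- the composite rotation -/
noncomputable def rot (A C : E →L[ℝ] E) (p ψ : ℝ) : E →L[ℝ] E := exp (p • A) * exp (ψ • C)

lemma rot_mem {A C : E →L[ℝ] E} (hA : Skew A) (hC : Skew C) (p ψ : ℝ) :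
    rot A C p ψ ∈ unitary (E →L[ℝ] E) :=
  mul_mem (exp_mem (hA.smul p)) (exp_mem (hC.smul ψ))

/-- the isometry given by the composite rotation -/
noncomputable def rotIso {A C : E →L[ℝ] E} (hA : Skew A) (hC : Skew C) (p ψ : ℝ) : E ≃ₗᵢ[ℝ] E :=
  Unitary.linearIsometryEquiv ⟨rot A C p ψ, rot_mem hA hC p ψ⟩

lemma rotIso_apply {A C : E →L[ℝ] E} (hA : Skew A) (hC : Skew C) (p ψ : ℝ) (x : E) :
    rotIso hA hC p ψ x = rot A C p ψ x := rfl

lemma rotIso_zero {A C : E →L[ℝ] E} (hA : Skew A) (hC : Skew C) :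
    rotIso hA hC 0 0 = LinearIsometryEquiv.refl ℝ E := by
  ext x
  rw [rotIso_apply]
  simp [rot]

lemma exp_mul_exp (C : E →L[ℝ] E) (a b : ℝ) : exp (a • C) * exp (b • C) = exp ((a + b) • C) := by
  rw [← exp_add_of_commute ((Commute.refl C).smul_left _ |>.smul_right _), add_smul]

lemma norm_prod_exp_le {X Y : E →L[ℝ] E} (hX : Skew X) (hY : Skew Y) :
    ‖exp X * exp Y - 1 - X - Y‖ ≤ ‖X‖ ^ 2 + ‖Y‖ ^ 2 := by
  have h1 : exp X * exp Y - 1 - X - Y =
      (exp X - 1 - X) * exp Y + X * (exp Y - 1) + (exp Y - 1 - Y) := by noncomm_ring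
  have h2 : ‖exp Y - 1‖ ≤ ‖Y‖ := by
    have := norm_exp_sub_one_le hY zero_le_one
    simpa using this
  rw [h1]
  calc _ ≤ ‖(exp X - 1 - X) * exp Y‖ + ‖X * (exp Y - 1)‖ + ‖exp Y - 1 - Y‖ := norm_add₃_le
    _ ≤ ‖exp X - 1 - X‖ * ‖exp Y‖ + ‖X‖ * ‖exp Y - 1‖ + ‖exp Y - 1 - Y‖ := by
        gcongr <;> exact norm_mul_le _ _
    _ ≤ (‖X‖ ^ 2 / 2) * 1 + ‖X‖ * ‖Y‖ + ‖Y‖ ^ 2 / 2 := by
        gcongr
        · exact norm_exp_sub_one_sub_le hX
        · exact norm_exp_le hY
        · exact norm_exp_sub_one_sub_le hY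
    _ ≤ _ := by nlinarith [sq_nonneg (‖X‖ - ‖Y‖)]

/-- second order expansion of the composite rotation -/
lemma rot_expansion {A B C : E →L[ℝ] E} (hA : Skew A) (hB : Skew B) (hC : Skew C)
    (nA : ‖A‖ ≤ 1) (nC : ‖C‖ ≤ 1)
    (h1 : C * A - A * C = B) (h2 : C * B - B * C = -A)
    (p p' ψ ψ' : ℝ) {x y : E} (hx : ‖x‖ = 1) (hy : ‖y‖ = 1) :
    |inner ℝ (rot A C p ψ x) (rot A C p' ψ' y) - inner ℝ x y -
      ((ψ' - ψ) * inner ℝ x (C y) + (p' - p) * Real.cos ψ' * inner ℝ x (A y) -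
        (p' - p) * Real.sin ψ' * inner ℝ x (B y))| ≤ (ψ' - ψ) ^ 2 + (p' - p) ^ 2 := by
  set X : E →L[ℝ] E := (ψ' - ψ) • C with hX
  set Y : E →L[ℝ] E := (p' - p) • (Real.cos ψ' • A - Real.sin ψ' • B) with hY
  have sX : Skew X := hC.smul _
  have sY : Skew Y := ((hA.smul _).sub (hB.smul _)).smul _
  have nX : ‖X‖ ≤ |ψ' - ψ| := by
    rw [hX, norm_smul, Real.norm_eq_abs]
    nlinarith [abs_nonneg (ψ' - ψ)]
  have hconj := conj_formula h1 h2 ψ'
  have nY : ‖Y‖ ≤ |p' - p| := by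
    rw [hY, ← hconj, norm_smul, Real.norm_eq_abs]
    have : ‖exp ((-ψ') • C) * A * exp (ψ' • C)‖ ≤ 1 := by
      calc _ ≤ ‖exp ((-ψ') • C)‖ * ‖A‖ * ‖exp (ψ' • C)‖ :=
            (norm_mul_le _ _).trans (mul_le_mul_of_nonneg_right (norm_mul_le _ _) (norm_nonneg _))
        _ ≤ 1 * 1 * 1 := by
            gcongr
            · exact norm_exp_le (hC.smul _)
            · exact norm_exp_le (hC.smul _)
        _ = 1 := by norm_num
    nlinarith [abs_nonneg (p' - p)]
  -- the product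
  have hY2 : exp ((-ψ') • C) * exp ((p' - p) • A) = exp Y * exp ((-ψ') • C) := by
    have hs : SemiconjBy (exp ((-ψ') • C)) ((p' - p) • A) Y := by
      unfold SemiconjBy
      have h3 : exp ((-ψ') • C) * A = (Real.cos ψ' • A - Real.sin ψ' • B) * exp ((-ψ') • C) := by
        rw [← hconj, mul_assoc, mul_assoc, exp_mul_exp]
        simp
      rw [hY, mul_smul_comm, smul_mul_assoc, h3]
    exact hs.exp_right
  have hprod : star (rot A C p ψ) * rot A C p' ψ' = exp X * exp Y := by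
    have hstar : star (rot A C p ψ) = exp ((-ψ) • C) * exp ((-p) • A) := by
      unfold rot
      rw [star_mul, star_exp, star_exp, skewAdjoint.mem_iff.1 (hC.smul ψ).mem,
        skewAdjoint.mem_iff.1 (hA.smul p).mem, neg_smul, neg_smul]
    rw [hstar]
    unfold rot
    calc exp ((-ψ) • C) * exp ((-p) • A) * (exp (p' • A) * exp (ψ' • C))
        = exp ((-ψ) • C) * (exp ((-p) • A) * exp (p' • A)) * exp (ψ' • C) := by
          simp only [mul_assoc]
      _ = exp ((-ψ) • C) * exp ((p' - p) • A) * exp (ψ' • C) := by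
          rw [exp_mul_exp, show -p + p' = p' - p by ring]
      _ = exp ((ψ' - ψ) • C) * (exp ((-ψ') • C) * exp ((p' - p) • A)) * exp (ψ' • C) := by
          rw [← mul_assoc (exp ((ψ' - ψ) • C)), exp_mul_exp, show ψ' - ψ + -ψ' = -ψ by ring]
      _ = exp X * exp Y * (exp ((-ψ') • C) * exp (ψ' • C)) := by
          rw [hY2, hX]; simp only [mul_assoc]
      _ = _ := by rw [exp_mul_exp]; simp
  have hin : inner ℝ (rot A C p ψ x) (rot A C p' ψ' y) = inner ℝ x ((exp X * exp Y) y) := by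
    rw [← hprod, ContinuousLinearMap.mul_apply, ContinuousLinearMap.star_eq_adjoint,
      ContinuousLinearMap.adjoint_inner_right]
  have hlin : (ψ' - ψ) * inner ℝ x (C y) + (p' - p) * Real.cos ψ' * inner ℝ x (A y) -
        (p' - p) * Real.sin ψ' * inner ℝ x (B y) = inner ℝ x (X y) + inner ℝ x (Y y) := by
    simp only [hX, hY, ContinuousLinearMap.smul_apply, ContinuousLinearMap.sub_apply,
      inner_smul_right, inner_sub_right]
    ring
  rw [hin, hlin]
  have : inner ℝ x ((exp X * exp Y) y) - inner ℝ x y - (inner ℝ x (X y) + inner ℝ x (Y y)) =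
      inner ℝ x ((exp X * exp Y - 1 - X - Y) y) := by
    simp only [ContinuousLinearMap.sub_apply, inner_sub_right, ContinuousLinearMap.one_apply]
    ring
  rw [this]
  calc |inner ℝ x ((exp X * exp Y - 1 - X - Y) y)| ≤
        ‖x‖ * ‖(exp X * exp Y - 1 - X - Y) y‖ := abs_real_inner_le_norm _ _
    _ ≤ ‖x‖ * (‖exp X * exp Y - 1 - X - Y‖ * ‖y‖) := by
        gcongr; exact ContinuousLinearMap.le_opNorm _ _
    _ = ‖exp X * exp Y - 1 - X - Y‖ := by rw [hx, hy]; ring
    _ ≤ ‖X‖ ^ 2 + ‖Y‖ ^ 2 := norm_prod_exp_le sX sY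
    _ ≤ |ψ' - ψ| ^ 2 + |p' - p| ^ 2 := by gcongr
    _ = _ := by rw [sq_abs, sq_abs]

end Crest.Agent.R167.Mom
end

-- ▼ part R167/MomB
section

/-!
# Row 167 (S0253), node MOM, part B: coordinate rotations, exponential moments (M2)
-/

set_option autoImplicit false
open NormedSpace MeasureTheory Crest.ProbabilityR.SpinModel

namespace Crest.Agent.R167.Mom

variable {n : ℕ}

/-- the generator `L_{kl}` -/
noncomputable def Lop (k l : Fin n) :
    EuclideanSpace ℝ (Fin n) →L[ℝ] EuclideanSpace ℝ (Fin n) :=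
  LinearMap.toContinuousLinearMap
    { toFun := fun x => x k • EuclideanSpace.single l (1:ℝ) - x l • EuclideanSpace.single k (1:ℝ)
      map_add' := by
        intro x y
        simp only [PiLp.add_apply, add_smul]
        abel
      map_smul' := by
        intro c x
        simp only [PiLp.smul_apply, smul_eq_mul, mul_smul, RingHom.id_apply, smul_sub] }

lemma Lop_apply (k l : Fin n) (x : EuclideanSpace ℝ (Fin n)) :
    Lop k l x = x k • EuclideanSpace.single l (1:ℝ) - x l • EuclideanSpace.single k (1:ℝ) := rfl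

lemma inner_Lop (k l : Fin n) (x y : EuclideanSpace ℝ (Fin n)) :
    inner ℝ x (Lop k l y) = cur k l x y := by
  rw [Lop_apply, inner_sub_right, inner_smul_right, inner_smul_right,
    EuclideanSpace.inner_single_right, EuclideanSpace.inner_single_right, cur]
  simp
  ring

lemma skew_Lop (k l : Fin n) : Skew (Lop k l) := by
  intro x y
  rw [real_inner_comm, inner_Lop, inner_Lop, cur, cur]
  ring

lemma norm_Lop_le {k l : Fin n} (h : k ≠ l) : ‖Lop k l‖ ≤ 1 := by
  refine ContinuousLinearMap.opNorm_le_bound _ zero_le_one fun x => ?_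
  rw [one_mul]
  refine abs_le_of_sq_le_sq' ?_ (norm_nonneg _) |>.2
  have h1 : ‖Lop k l x‖ ^ 2 = x k ^ 2 + x l ^ 2 := by
    rw [← real_inner_self_eq_norm_sq, inner_Lop, cur, Lop_apply]
    simp [h, h.symm]
    ring
  rw [h1, EuclideanSpace.norm_sq_eq]
  have h2 := Finset.add_sum_erase (Finset.univ) (fun i => ‖x i‖ ^ 2) (Finset.mem_univ k)
  have h3 := Finset.add_sum_erase (Finset.univ.erase k) (fun i => ‖x i‖ ^ 2)
    (Finset.mem_erase.2 ⟨h.symm, Finset.mem_univ l⟩)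
  have h4 : 0 ≤ ∑ i ∈ (Finset.univ.erase k).erase l, ‖x i‖ ^ 2 :=
    Finset.sum_nonneg fun i _ => by positivity
  simp only [Real.norm_eq_abs, sq_abs] at h2 h3 h4 ⊢
  linarith

lemma Lop_comm_A {k l m : Fin n} (hkl : k ≠ l) (hlm : l ≠ m) (hmk : m ≠ k) :
    Lop k l * Lop l m - Lop l m * Lop k l = Lop m k := by
  ext x i
  simp only [ContinuousLinearMap.sub_apply, ContinuousLinearMap.mul_apply, Lop_apply,
    PiLp.sub_apply, PiLp.smul_apply, smul_eq_mul, PiLp.single_apply]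
  simp only [hkl, hkl.symm, hlm, hlm.symm, hmk, hmk.symm, if_true, if_false]
  split_ifs <;> simp_all

lemma Lop_comm_B {k l m : Fin n} (hkl : k ≠ l) (hlm : l ≠ m) (hmk : m ≠ k) :
    Lop k l * Lop m k - Lop m k * Lop k l = -Lop l m := by
  ext x i
  simp only [ContinuousLinearMap.sub_apply, ContinuousLinearMap.mul_apply, Lop_apply,
    PiLp.sub_apply, PiLp.smul_apply, smul_eq_mul, PiLp.single_apply,
    ContinuousLinearMap.neg_apply, PiLp.neg_apply]
  simp only [hkl, hkl.symm, hlm, hlm.symm, hmk, hmk.symm, if_true, if_false]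
  split_ifs <;> simp_all

end Crest.Agent.R167.Mom
end

-- ▼ part R167/MomC
section

/-!
# Row 167 (S0253), node MOM, part C: (M2), (M3), (M4)
-/

set_option autoImplicit false
open NormedSpace MeasureTheory Crest.ProbabilityR.SpinModel

namespace Crest.Agent.R167.Mom

variable {ι E : Type} [Fintype ι] [Fintype E] {n : ℕ}

lemma measurable_glue_right (A : Set ι) (τ : Cf ι n) : Measurable fun s' : Cf ι n => glue A τ s' := by
  classical
  refine measurable_pi_lambda _ fun v => ?_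
  unfold glue
  by_cases h : v ∈ A
  · simp only [h, if_true]; exact measurable_const
  · simp only [h, if_false]; exact measurable_pi_apply v

/-- the partition function is positive -/
lemma Z_pos [NeZero n] (G : Gr ι E) (A : Set ι) (τ : Cf ι n) :
    0 < ∫ s', Real.exp (G.I (glue A τ s')) ∂(nu ι n) := by
  have h1 : Continuous fun s' : Cf ι n => Real.exp (G.I (glue A τ s')) := by
    refine Real.continuous_exp.comp ((continuous_I G).comp ?_)
    classical
    refine continuous_pi fun v => ?_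
    unfold glue
    by_cases h : v ∈ A
    · simp only [h, if_true]; exact continuous_const
    · simp only [h, if_false]; exact continuous_apply v
  have hint : Integrable (fun s' : Cf ι n => Real.exp (G.I (glue A τ s'))) (nu ι n) := by
    obtain ⟨M, hM⟩ := (isCompact_range h1).isBounded.exists_norm_le
    exact Integrable.of_bound h1.aestronglyMeasurable M
      (Filter.Eventually.of_forall fun s => hM _ ⟨s, rfl⟩)
  exact integral_exp_pos hint

/-- `E e^{I∘g - I} = 1`. -/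
theorem expI_one [NeZero n] (G : Gr ι E) {F0 : Set ι}
    (g : ι → (EuclideanSpace ℝ (Fin n) ≃ₗᵢ[ℝ] EuclideanSpace ℝ (Fin n)))
    (hg : ∀ v ∈ F0, g v = LinearIsometryEquiv.refl ℝ _) (τ : Cf ι n) :
    P G F0 (fun s => Real.exp (G.I (fun v => isoS (g v) (s v)) - G.I s)) τ = 1 := by
  have hmp : MeasurePreserving (fun (s : Cf ι n) v => isoS (g v) (s v)) (nu ι n) (nu ι n) :=
    measurePreserving_pi _ _ fun v => mp_isoS (g v)
  unfold P
  have hZ := Z_pos G F0 τ
  rw [div_eq_one_iff_eq hZ.ne']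
  have h1 : ∀ s' : Cf ι n, Real.exp (G.I (fun v => isoS (g v) (glue F0 τ s' v)) -
      G.I (glue F0 τ s')) * Real.exp (G.I (glue F0 τ s')) =
      (fun s' => Real.exp (G.I (glue F0 τ s'))) ((fun (s : Cf ι n) v => isoS (g v) (s v)) s') := by
    intro s'
    rw [← Real.exp_add, sub_add_cancel]
    congr 2
    funext v
    unfold glue
    by_cases h : v ∈ F0
    · simp only [h, if_true]
      rw [hg v h]
      ext
      simp [isoS]
    · simp only [h, if_false]
  simp only [h1]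
  have hmeas : AEStronglyMeasurable (fun s' : Cf ι n => Real.exp (G.I (glue F0 τ s')))
      (Measure.map (fun (s : Cf ι n) v => isoS (g v) (s v)) (nu ι n)) := by
    have : Measurable (fun s' : Cf ι n => Real.exp (G.I (glue F0 τ s'))) :=
      Real.measurable_exp.comp ((continuous_I G).measurable.comp (measurable_glue_right F0 τ))
    exact this.aestronglyMeasurable
  rw [← integral_map hmp.measurable.aemeasurable hmeas, hmp.map_eq]

/-- edge error -/
lemma En_nonneg (G : Gr ι E) (hb : ∀ e, 0 ≤ G.b e) (f : ι → ℝ) : 0 ≤ G.En f :=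
  Finset.sum_nonneg fun e _ => mul_nonneg (hb e) (sq_nonneg _)

lemma En_neg (G : Gr ι E) (f : ι → ℝ) : G.En (fun v => - f v) = G.En f := by
  unfold Gr.En
  exact Finset.sum_congr rfl fun e _ => by ring

/-- the bracket -/
noncomputable def Br (G : Gr ι E) (A B C : EuclideanSpace ℝ (Fin n) →L[ℝ] EuclideanSpace ℝ (Fin n))
    (p ψ : ι → ℝ) (s : Cf ι n) : ℝ :=
  ∑ e, G.b e * ((ψ (G.tgt e) - ψ (G.src e)) *
      inner ℝ (s (G.src e) : EuclideanSpace ℝ (Fin n)) (C (s (G.tgt e))) +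
    (p (G.tgt e) - p (G.src e)) * Real.cos (ψ (G.tgt e)) *
      inner ℝ (s (G.src e) : EuclideanSpace ℝ (Fin n)) (A (s (G.tgt e))) -
    (p (G.tgt e) - p (G.src e)) * Real.sin (ψ (G.tgt e)) *
      inner ℝ (s (G.src e) : EuclideanSpace ℝ (Fin n)) (B (s (G.tgt e))))

/-- the sine term -/
noncomputable def KB (G : Gr ι E) (B : EuclideanSpace ℝ (Fin n) →L[ℝ] EuclideanSpace ℝ (Fin n))
    (p ψ : ι → ℝ) (s : Cf ι n) : ℝ :=
  ∑ e, G.b e * ((p (G.tgt e) - p (G.src e)) * Real.sin (ψ (G.tgt e)) *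
      inner ℝ (s (G.src e) : EuclideanSpace ℝ (Fin n)) (B (s (G.tgt e))))

lemma continuous_spin (v : ι) : Continuous fun s : Cf ι n => (s v : EuclideanSpace ℝ (Fin n)) :=
  continuous_subtype_val.comp (continuous_apply v)

lemma continuous_Br (G : Gr ι E)
    (A B C : EuclideanSpace ℝ (Fin n) →L[ℝ] EuclideanSpace ℝ (Fin n)) (p ψ : ι → ℝ) :
    Continuous (Br G A B C p ψ) := by
  unfold Br
  refine continuous_finset_sum _ fun e _ => ?_
  have h1 := continuous_spin (n := n) (G.src e)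
  have h2 := continuous_spin (n := n) (G.tgt e)
  have h3 : ∀ D : EuclideanSpace ℝ (Fin n) →L[ℝ] EuclideanSpace ℝ (Fin n),
      Continuous fun s : Cf ι n => inner ℝ (s (G.src e) : EuclideanSpace ℝ (Fin n))
        (D (s (G.tgt e))) := fun D => h1.inner (D.continuous.comp h2)
  exact continuous_const.mul (((continuous_const.mul (h3 C)).add
    (continuous_const.mul (h3 A))).sub (continuous_const.mul (h3 B)))

lemma continuous_KB (G : Gr ι E)
    (B : EuclideanSpace ℝ (Fin n) →L[ℝ] EuclideanSpace ℝ (Fin n)) (p ψ : ι → ℝ) :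
    Continuous (KB G B p ψ) := by
  unfold KB
  refine continuous_finset_sum _ fun e _ => ?_
  have h1 := continuous_spin (n := n) (G.src e)
  have h2 := continuous_spin (n := n) (G.tgt e)
  exact continuous_const.mul (continuous_const.mul (h1.inner (B.continuous.comp h2)))

variable {A B C : EuclideanSpace ℝ (Fin n) →L[ℝ] EuclideanSpace ℝ (Fin n)}

lemma KB_eq (G : Gr ι E) (p ψ : ι → ℝ) (s : Cf ι n) :
    KB G B p ψ s = (Br G A B C (fun v => - p v) ψ s + Br G A B C p (fun v => - ψ v) s) / 2 := by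
  unfold KB Br
  rw [← Finset.sum_add_distrib, Finset.sum_div]
  refine Finset.sum_congr rfl fun e _ => ?_
  rw [Real.cos_neg, Real.sin_neg]
  ring

/-- the lower bound for `I∘g - I`. -/
lemma I_rot_ge (G : Gr ι E) (hb : ∀ e, 0 ≤ G.b e) (hA : Skew A) (hB : Skew B) (hC : Skew C)
    (nA : ‖A‖ ≤ 1) (nC : ‖C‖ ≤ 1) (h1 : C * A - A * C = B) (h2 : C * B - B * C = -A)
    (p ψ : ι → ℝ) (s : Cf ι n) :
    Br G A B C p ψ s - (G.En p + G.En ψ) ≤
      G.I (fun v => isoS (rotIso hA hC (p v) (ψ v)) (s v)) - G.I s := by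
  unfold Br Gr.En Gr.I
  rw [← Finset.sum_add_distrib, ← Finset.sum_sub_distrib, ← Finset.sum_sub_distrib]
  refine Finset.sum_le_sum fun e _ => ?_
  have hx : ‖(s (G.src e) : EuclideanSpace ℝ (Fin n))‖ = 1 := by simp
  have hy : ‖(s (G.tgt e) : EuclideanSpace ℝ (Fin n))‖ = 1 := by simp
  have h := rot_expansion hA hB hC nA nC h1 h2 (p (G.src e)) (p (G.tgt e)) (ψ (G.src e))
    (ψ (G.tgt e)) hx hy
  have h' := (abs_le.1 h).1
  have hbe := hb e
  have e1 : inner ℝ ((isoS (rotIso hA hC (p (G.src e)) (ψ (G.src e))) (s (G.src e)) :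
      Sp n) : EuclideanSpace ℝ (Fin n))
      ((isoS (rotIso hA hC (p (G.tgt e)) (ψ (G.tgt e))) (s (G.tgt e)) : Sp n) :
      EuclideanSpace ℝ (Fin n)) =
      inner ℝ (rot A C (p (G.src e)) (ψ (G.src e)) (s (G.src e)))
        (rot A C (p (G.tgt e)) (ψ (G.tgt e)) (s (G.tgt e))) := rfl
  rw [e1]
  nlinarith [mul_le_mul_of_nonneg_left h' hbe]

/-- `E exp(bracket) ≤ exp(En p + En ψ)` -/
lemma E_exp_Br [NeZero n] (G : Gr ι E) (hb : ∀ e, 0 ≤ G.b e) (hA : Skew A) (hB : Skew B)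
    (hC : Skew C) (nA : ‖A‖ ≤ 1) (nC : ‖C‖ ≤ 1) (h1 : C * A - A * C = B)
    (h2 : C * B - B * C = -A) {F0 : Set ι} {p ψ : ι → ℝ} (hp : ∀ v ∈ F0, p v = 0)
    (hψ : ∀ v ∈ F0, ψ v = 0) (τ : Cf ι n) :
    P G F0 (fun s => Real.exp (Br G A B C p ψ s)) τ ≤ Real.exp (G.En p + G.En ψ) := by
  have hg : ∀ v ∈ F0, rotIso hA hC (p v) (ψ v) = LinearIsometryEquiv.refl ℝ _ := by
    intro v hv
    rw [hp v hv, hψ v hv, rotIso_zero]
  have h3 := expI_one G (fun v => rotIso hA hC (p v) (ψ v)) hg τ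
  have hcont : Continuous fun s : Cf ι n =>
      Real.exp (G.I (fun v => isoS (rotIso hA hC (p v) (ψ v)) (s v)) - G.I s) := by
    refine Real.continuous_exp.comp (Continuous.sub ((continuous_I G).comp ?_) (continuous_I G))
    refine continuous_pi fun v => ?_
    refine Continuous.subtype_mk ?_ _
    exact (rotIso hA hC (p v) (ψ v)).continuous.comp (continuous_spin v)
  calc P G F0 (fun s => Real.exp (Br G A B C p ψ s)) τ
      ≤ P G F0 (fun s => Real.exp (G.En p + G.En ψ) *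
        Real.exp (G.I (fun v => isoS (rotIso hA hC (p v) (ψ v)) (s v)) - G.I s)) τ := by
        refine P_mono G (Real.continuous_exp.comp (continuous_Br G A B C p ψ))
          (continuous_const.mul hcont) (fun s => ?_) τ
        show Real.exp (Br G A B C p ψ s) ≤ Real.exp (G.En p + G.En ψ) *
          Real.exp (G.I (fun v => isoS (rotIso hA hC (p v) (ψ v)) (s v)) - G.I s)
        rw [← Real.exp_add]
        apply Real.exp_le_exp.2
        have := I_rot_ge G hb hA hB hC nA nC h1 h2 p ψ s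
        linarith
    _ = Real.exp (G.En p + G.En ψ) := by rw [P_const_mul, h3, mul_one]

/-- (M2) -/
lemma E_exp_KB [NeZero n] (G : Gr ι E) (hb : ∀ e, 0 ≤ G.b e) (hA : Skew A) (hB : Skew B)
    (hC : Skew C) (nA : ‖A‖ ≤ 1) (nC : ‖C‖ ≤ 1) (h1 : C * A - A * C = B)
    (h2 : C * B - B * C = -A) {F0 : Set ι} {p ψ : ι → ℝ} (hp : ∀ v ∈ F0, p v = 0)
    (hψ : ∀ v ∈ F0, ψ v = 0) (τ : Cf ι n) :
    P G F0 (fun s => Real.exp (KB G B p ψ s)) τ ≤ Real.exp (G.En p + G.En ψ) := by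
  have h3 := E_exp_Br G hb hA hB hC nA nC h1 h2 (F0 := F0) (p := fun v => - p v) (ψ := ψ)
    (fun v hv => by simp [hp v hv]) hψ τ
  have h4 := E_exp_Br G hb hA hB hC nA nC h1 h2 (F0 := F0) (p := p) (ψ := fun v => - ψ v)
    hp (fun v hv => by simp [hψ v hv]) τ
  rw [En_neg] at h3 h4
  have c1 : Continuous fun s => Real.exp (Br G A B C (fun v => - p v) ψ s) :=
    Real.continuous_exp.comp (continuous_Br G A B C _ _)
  have c2 : Continuous fun s => Real.exp (Br G A B C p (fun v => - ψ v) s) :=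
    Real.continuous_exp.comp (continuous_Br G A B C _ _)
  calc P G F0 (fun s => Real.exp (KB G B p ψ s)) τ
      ≤ P G F0 (fun s => (1 / 2) * (Real.exp (Br G A B C (fun v => - p v) ψ s) +
          Real.exp (Br G A B C p (fun v => - ψ v) s))) τ := by
        refine P_mono G (Real.continuous_exp.comp (continuous_KB G B p ψ))
          (continuous_const.mul (c1.add c2)) (fun s => ?_) τ
        show Real.exp (KB G B p ψ s) ≤ (1 / 2) * (Real.exp (Br G A B C (fun v => - p v) ψ s) +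
          Real.exp (Br G A B C p (fun v => - ψ v) s))
        rw [KB_eq (A := A) (C := C)]
        set u := Br G A B C (fun v => - p v) ψ s
        set w := Br G A B C p (fun v => - ψ v) s
        have e1 : Real.exp ((u + w) / 2) = Real.exp (u / 2) * Real.exp (w / 2) := by
          rw [← Real.exp_add]; congr 1; ring
        have e2 : Real.exp u = Real.exp (u / 2) ^ 2 := by
          rw [← Real.exp_nat_mul]; congr 1; push_cast; ring
        have e3 : Real.exp w = Real.exp (w / 2) ^ 2 := by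
          rw [← Real.exp_nat_mul]; congr 1; push_cast; ring
        rw [e1, e2, e3]
        nlinarith [sq_nonneg (Real.exp (u / 2) - Real.exp (w / 2))]
    _ = (1 / 2) * (P G F0 (fun s => Real.exp (Br G A B C (fun v => - p v) ψ s)) τ +
          P G F0 (fun s => Real.exp (Br G A B C p (fun v => - ψ v) s)) τ) := by
        rw [P_const_mul, P_add G c1 c2]
    _ ≤ _ := by linarith

lemma KB_neg (G : Gr ι E) (p ψ : ι → ℝ) (s : Cf ι n) :
    KB G B (fun v => - p v) ψ s = - KB G B p ψ s := by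
  unfold KB
  rw [← Finset.sum_neg_distrib]
  exact Finset.sum_congr rfl fun e _ => by ring

lemma sq_le_exp_of_nonneg {x : ℝ} (hx : 0 ≤ x) : x ^ 2 ≤ Real.exp x := by
  have h := Real.quadratic_le_exp_of_nonneg (x := x / 2) (by positivity)
  have e2 : Real.exp x = Real.exp (x / 2) ^ 2 := by
    rw [← Real.exp_nat_mul]; congr 1; push_cast; ring
  rw [e2]
  have h2 : x ≤ Real.exp (x / 2) := by nlinarith [sq_nonneg (x - 2)]
  exact pow_le_pow_left₀ hx h2 2

lemma sq_le_exp_add (x : ℝ) : x ^ 2 ≤ Real.exp x + Real.exp (-x) := by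
  rcases le_total 0 x with h | h
  · linarith [sq_le_exp_of_nonneg h, Real.exp_pos (-x)]
  · have h2 := sq_le_exp_of_nonneg (x := -x) (by linarith)
    rw [neg_sq] at h2
    linarith [Real.exp_pos x]

/-- second moment of the sine term -/
lemma E_sq_KB [NeZero n] (G : Gr ι E) (hb : ∀ e, 0 ≤ G.b e) (hA : Skew A) (hB : Skew B)
    (hC : Skew C) (nA : ‖A‖ ≤ 1) (nC : ‖C‖ ≤ 1) (h1 : C * A - A * C = B)
    (h2 : C * B - B * C = -A) {F0 : Set ι} {p ψ : ι → ℝ} (hp : ∀ v ∈ F0, p v = 0)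
    (hψ : ∀ v ∈ F0, ψ v = 0) (τ : Cf ι n) :
    P G F0 (fun s => KB G B p ψ s ^ 2) τ ≤ 2 * Real.exp (G.En p + G.En ψ) := by
  have h3 := E_exp_KB G hb hA hB hC nA nC h1 h2 (F0 := F0) (p := p) (ψ := ψ) hp hψ τ
  have h4 := E_exp_KB G hb hA hB hC nA nC h1 h2 (F0 := F0) (p := fun v => - p v) (ψ := ψ)
    (fun v hv => by simp [hp v hv]) hψ τ
  rw [En_neg] at h4
  have c0 := continuous_KB G B p ψ
  have c1 : Continuous fun s => Real.exp (KB G B p ψ s) := Real.continuous_exp.comp c0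
  have c2 : Continuous fun s => Real.exp (KB G B (fun v => - p v) ψ s) :=
    Real.continuous_exp.comp (continuous_KB G B _ ψ)
  calc P G F0 (fun s => KB G B p ψ s ^ 2) τ
      ≤ P G F0 (fun s => Real.exp (KB G B p ψ s) + Real.exp (KB G B (fun v => - p v) ψ s)) τ := by
        refine P_mono G (c0.pow 2) (c1.add c2) (fun s => ?_) τ
        show KB G B p ψ s ^ 2 ≤ Real.exp (KB G B p ψ s) + Real.exp (KB G B (fun v => - p v) ψ s)
        rw [KB_neg]
        exact sq_le_exp_add _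
    _ = _ := P_add G c1 c2 τ
    _ ≤ _ := by linarith

end Crest.Agent.R167.Mom
end

-- ▼ part R167/MomD
section

/-!
# Row 167 (S0253), node MOM, part D: (M3), (M4)
-/

set_option autoImplicit false
open NormedSpace MeasureTheory Crest.ProbabilityR.SpinModel

namespace Crest.Agent.R167.Mom

variable {ι E : Type} [Fintype ι] [Fintype E] {n : ℕ}

lemma arcsin_lip {a b : ℝ} (ha : |a| ≤ 1 / 2) (hb : |b| ≤ 1 / 2) :
    (Real.arcsin b - Real.arcsin a) ^ 2 ≤ 2 * (b - a) ^ 2 := by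
  have h := Convex.norm_image_sub_le_of_norm_deriv_le (f := Real.arcsin) (C := Real.sqrt 2)
    (s := Set.Icc (-(1/2)) (1/2)) (x := a) (y := b)
    (fun x hx => Real.differentiableAt_arcsin.2 ⟨by intro h; rw [h] at hx; norm_num at hx,
      by intro h; rw [h] at hx; norm_num at hx⟩)
    (fun x hx => by
      rw [Real.deriv_arcsin]
      have h1 : x ^ 2 ≤ 1 / 4 := by
        have := hx.1; have := hx.2
        nlinarith
      have h2 : (1:ℝ) / 2 ≤ 1 - x ^ 2 := by linarith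
      have h3 : 0 < Real.sqrt (1 - x ^ 2) := Real.sqrt_pos.2 (by linarith)
      rw [Real.norm_eq_abs, abs_of_pos (by positivity), div_le_iff₀ h3, ← Real.sqrt_mul (by norm_num)]
      rw [Real.one_le_sqrt]
      linarith)
    (convex_Icc _ _) (abs_le.1 ha) (abs_le.1 hb)
  rw [Real.norm_eq_abs, Real.norm_eq_abs] at h
  have h2 : |Real.arcsin b - Real.arcsin a| ^ 2 ≤ (Real.sqrt 2 * |b - a|) ^ 2 :=
    pow_le_pow_left₀ (abs_nonneg _) h 2
  rw [sq_abs, mul_pow, sq_abs, Real.sq_sqrt (by norm_num)] at h2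
  exact h2

lemma En_arcsin (G : Gr ι E) (hb : ∀ e, 0 ≤ G.b e) {q : ι → ℝ} (hq : ∀ v, |q v| ≤ 1 / 2) :
    G.En (fun v => Real.arcsin (q v)) ≤ 2 * G.En q := by
  unfold Gr.En
  rw [Finset.mul_sum]
  refine Finset.sum_le_sum fun e _ => ?_
  have := mul_le_mul_of_nonneg_left (arcsin_lip (hq (G.src e)) (hq (G.tgt e))) (hb e)
  linarith

lemma abs_cur_le (k l : Fin n) (h : k ≠ l) (x y : Sp n) :
    |cur k l (x : EuclideanSpace ℝ (Fin n)) y| ≤ 1 := by
  rw [← inner_Lop]
  calc |inner ℝ (x : EuclideanSpace ℝ (Fin n)) (Lop k l y)|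
      ≤ ‖(x : EuclideanSpace ℝ (Fin n))‖ * ‖Lop k l y‖ := abs_real_inner_le_norm _ _
    _ ≤ 1 * (1 * 1) := by
        have hx : ‖(x : EuclideanSpace ℝ (Fin n))‖ = 1 := by simp
        have hy : ‖(y : EuclideanSpace ℝ (Fin n))‖ = 1 := by simp
        rw [hx]
        gcongr
        calc ‖Lop k l y‖ ≤ ‖Lop k l‖ * ‖(y : EuclideanSpace ℝ (Fin n))‖ :=
              ContinuousLinearMap.le_opNorm _ _
          _ ≤ 1 * 1 := by rw [hy]; gcongr; exact norm_Lop_le h
    _ = 1 := by norm_num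

lemma abs_coord_le (x : Sp n) (i : Fin n) : |(x : EuclideanSpace ℝ (Fin n)) i| ≤ 1 := by
  have h := PiLp.norm_apply_le (x : EuclideanSpace ℝ (Fin n)) i
  have hx : ‖(x : EuclideanSpace ℝ (Fin n))‖ = 1 := by simp
  rw [hx] at h
  exact h

/-- sums `∑ b δψ δq c` with `|c| ≤ 1` -/
lemma abs_cross_le (G : Gr ι E) (hb : ∀ e, 0 ≤ G.b e) (ψ q : ι → ℝ) (c : E → ℝ)
    (hc : ∀ e, |c e| ≤ 1) :
    |∑ e, G.b e * (ψ (G.tgt e) - ψ (G.src e)) * ((q (G.tgt e) - q (G.src e)) * c e)| ≤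
      (G.En ψ + G.En q) / 2 := by
  unfold Gr.En
  rw [← Finset.sum_add_distrib, Finset.sum_div]
  refine (Finset.abs_sum_le_sum_abs _ _).trans (Finset.sum_le_sum fun e _ => ?_)
  rw [abs_mul, abs_mul, abs_mul, abs_of_nonneg (hb e)]
  set u := ψ (G.tgt e) - ψ (G.src e)
  set w := q (G.tgt e) - q (G.src e)
  have h1 : |u| * (|w| * |c e|) ≤ (u ^ 2 + w ^ 2) / 2 := by
    have h2 : |w| * |c e| ≤ |w| := by
      nlinarith [abs_nonneg w, hc e]
    have h3 : |u| * (|w| * |c e|) ≤ |u| * |w| := mul_le_mul_of_nonneg_left h2 (abs_nonneg u)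
    nlinarith [sq_nonneg (|u| - |w|), sq_abs u, sq_abs w]
  have := mul_le_mul_of_nonneg_left h1 (hb e)
  calc G.b e * |u| * (|w| * |c e|) = G.b e * (|u| * (|w| * |c e|)) := by ring
    _ ≤ _ := by linarith

lemma continuous_cur (k l : Fin n) (u v : ι) :
    Continuous fun s : Cf ι n => cur k l (s u : EuclideanSpace ℝ (Fin n)) (s v) := by
  simp only [← inner_Lop]
  exact (continuous_spin u).inner ((Lop k l).continuous.comp (continuous_spin v))

lemma continuous_XI (G : Gr ι E) (k l : Fin n) (f : ι → ℝ) :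
    Continuous (XI G k l f : Cf ι n → ℝ) := by
  unfold XI
  exact continuous_finset_sum _ fun e _ => continuous_const.mul (continuous_cur k l _ _)

lemma continuous_coord (i : Fin n) (v : ι) :
    Continuous fun s : Cf ι n => (s v : EuclideanSpace ℝ (Fin n)) i := by
  have := continuous_spin (n := n) v
  fun_prop

lemma continuous_XXA (G : Gr ι E) (k m : Fin n) (p ψ : ι → ℝ) :
    Continuous (XXA G k m p ψ : Cf ι n → ℝ) := by
  unfold XXA
  refine continuous_finset_sum _ fun e _ => continuous_const.mul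
    ((continuous_const.mul (continuous_cur m k _ _)).add (continuous_const.mul
    ((continuous_coord k _).mul (continuous_coord m _))))

/-- `J` -/
noncomputable def JJ (G : Gr ι E) (k m : Fin n) (q ψ : ι → ℝ) (s : Cf ι n) : ℝ :=
  ∑ e, G.b e * (ψ (G.tgt e) - ψ (G.src e)) *
    (q (G.src e) * cur m k (s (G.src e)) (s (G.tgt e)))

lemma continuous_JJ (G : Gr ι E) (k m : Fin n) (q ψ : ι → ℝ) :
    Continuous (JJ G k m q ψ : Cf ι n → ℝ) := by
  unfold JJ
  exact continuous_finset_sum _ fun e _ => continuous_const.mul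
    (continuous_const.mul (continuous_cur m k _ _))

lemma JJ_sub_KB (G : Gr ι E) (hb : ∀ e, 0 ≤ G.b e) {k m : Fin n} (hmk : m ≠ k) {q : ι → ℝ}
    (hq : ∀ v, |q v| ≤ 1 / 2) (ψ : ι → ℝ) (s : Cf ι n) :
    |JJ G k m q ψ s - KB G (Lop m k) ψ (fun v => Real.arcsin (q v)) s| ≤
      (G.En ψ + G.En q) / 2 := by
  have h := abs_cross_le G hb ψ q
    (fun e => - cur m k (s (G.src e) : EuclideanSpace ℝ (Fin n)) (s (G.tgt e)))
    (fun e => by rw [abs_neg]; exact abs_cur_le m k hmk _ _)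
  refine le_trans (le_of_eq ?_) h
  congr 1
  unfold JJ KB
  rw [← Finset.sum_sub_distrib]
  refine Finset.sum_congr rfl fun e _ => ?_
  rw [Real.sin_arcsin (by linarith [(abs_le.1 (hq (G.tgt e))).1])
    (by linarith [(abs_le.1 (hq (G.tgt e))).2]), inner_Lop]
  ring

/-- (M3) -/
lemma E_sq_JJ [NeZero n] (G : Gr ι E) (hb : ∀ e, 0 ≤ G.b e) {k l m : Fin n} (hkl : k ≠ l)
    (hlm : l ≠ m) (hmk : m ≠ k) {F0 : Set ι} {q ψ : ι → ℝ} (hψ : ∀ v ∈ F0, ψ v = 0)
    (hq0 : ∀ v ∈ F0, q v = 0) (hq : ∀ v, |q v| ≤ 1 / 2) {K : ℝ} (h1 : G.En ψ ≤ K)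
    (h2 : G.En q ≤ K) (τ : Cf ι n) :
    P G F0 (fun s => JJ G k m q ψ s ^ 2) τ ≤ 4 * Real.exp (3 * K) + 2 * K ^ 2 := by
  have n1 := En_nonneg G hb ψ
  have n2 := En_nonneg G hb q
  have hK := E_sq_KB G hb (skew_Lop l m) (skew_Lop m k) (skew_Lop k l) (norm_Lop_le hlm)
    (norm_Lop_le hkl) (Lop_comm_A hkl hlm hmk) (Lop_comm_B hkl hlm hmk) (F0 := F0) (p := ψ)
    (ψ := fun v => Real.arcsin (q v)) hψ (fun v hv => by simp [hq0 v hv]) τ
  have c0 := continuous_KB G (Lop m k) ψ (fun v => Real.arcsin (q v))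
  have hK2 : P G F0 (fun s => KB G (Lop m k) ψ (fun v => Real.arcsin (q v)) s ^ 2) τ ≤
      2 * Real.exp (3 * K) := by
    refine hK.trans ?_
    have := En_arcsin G hb hq
    have h3 : Real.exp (G.En ψ + G.En (fun v => Real.arcsin (q v))) ≤ Real.exp (3 * K) :=
      Real.exp_le_exp.2 (by linarith)
    linarith
  calc P G F0 (fun s => JJ G k m q ψ s ^ 2) τ
      ≤ P G F0 (fun s => 2 * KB G (Lop m k) ψ (fun v => Real.arcsin (q v)) s ^ 2 + 2 * K ^ 2) τ := by
        refine P_mono G ((continuous_JJ G k m q ψ).pow 2)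
          ((continuous_const.mul (c0.pow 2)).add continuous_const) (fun s => ?_) τ
        show JJ G k m q ψ s ^ 2 ≤
          2 * KB G (Lop m k) ψ (fun v => Real.arcsin (q v)) s ^ 2 + 2 * K ^ 2
        have h3 := JJ_sub_KB G hb hmk hq ψ s
        have h4 : |JJ G k m q ψ s - KB G (Lop m k) ψ (fun v => Real.arcsin (q v)) s| ≤ K := by
          linarith
        have h5 := abs_le.1 h4
        nlinarith [sq_nonneg (JJ G k m q ψ s - 2 * KB G (Lop m k) ψ
          (fun v => Real.arcsin (q v)) s), mul_nonneg (sub_nonneg.2 h5.2)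
          (by linarith [h5.1] : 0 ≤ K + (JJ G k m q ψ s -
            KB G (Lop m k) ψ (fun v => Real.arcsin (q v)) s))]
    _ = 2 * P G F0 (fun s => KB G (Lop m k) ψ (fun v => Real.arcsin (q v)) s ^ 2) τ + 2 * K ^ 2 := by
        rw [P_add G (F := fun s => 2 * KB G (Lop m k) ψ (fun v => Real.arcsin (q v)) s ^ 2)
          (H := fun _ => 2 * K ^ 2) (continuous_const.mul (c0.pow 2)) continuous_const,
          P_const_mul, P_const]
    _ ≤ _ := by linarith

/-- pointwise form of `GA` -/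
lemma GA_eq (G : Gr ι E) (k l m : Fin n) (lam : ℝ) (q ψ : ι → ℝ) (s : Cf ι n) :
    GA G k l m (fun v => lam * q v) ψ s = lam * (JJ G k m q ψ s +
      ∑ e, G.b e * (ψ (G.tgt e) - ψ (G.src e)) * ((q (G.tgt e) - q (G.src e)) *
        ((s (G.src e) : EuclideanSpace ℝ (Fin n)) k * (s (G.tgt e) : EuclideanSpace ℝ (Fin n)) m)) +
      XI G k l ψ s * XI G l m q s) := by
  have e1 : XI G l m (fun v => lam * q v) s = lam * XI G l m q s := by
    unfold XI
    rw [Finset.mul_sum]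
    exact Finset.sum_congr rfl fun e _ => by ring
  have e2 : XXA G k m (fun v => lam * q v) ψ s = lam * (JJ G k m q ψ s +
      ∑ e, G.b e * (ψ (G.tgt e) - ψ (G.src e)) * ((q (G.tgt e) - q (G.src e)) *
        ((s (G.src e) : EuclideanSpace ℝ (Fin n)) k *
          (s (G.tgt e) : EuclideanSpace ℝ (Fin n)) m))) := by
    unfold XXA JJ
    rw [← Finset.sum_add_distrib, Finset.mul_sum]
    exact Finset.sum_congr rfl fun e _ => by ring
  unfold GA
  rw [e1, e2]
  ring

lemma GB_eq_GA (G : Gr ι E) (k l m : Fin n) (p ψ : ι → ℝ) (s : Cf ι n) :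
    GB G k l m p ψ s = GA G l k m p ψ s := by
  have e1 : XI G l k ψ s = - XI G k l ψ s := by
    unfold XI
    rw [← Finset.sum_neg_distrib]
    exact Finset.sum_congr rfl fun e _ => by unfold cur; ring
  have e2 : XI G k m p s = - XI G m k p s := by
    unfold XI
    rw [← Finset.sum_neg_distrib]
    exact Finset.sum_congr rfl fun e _ => by unfold cur; ring
  have e3 : XXB G l m p ψ s = XXA G l m p ψ s := by
    unfold XXB XXA
    exact Finset.sum_congr rfl fun e _ => by unfold cur; ring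
  unfold GB GA
  rw [e1, e2, e3]
  ring

lemma E_sq_GA [NeZero n] (G : Gr ι E) (hb : ∀ e, 0 ≤ G.b e) {k l m : Fin n} (hkl : k ≠ l)
    (hlm : l ≠ m) (hmk : m ≠ k) {F0 : Set ι} {q ψ : ι → ℝ} (lam : ℝ) (hψ : ∀ v ∈ F0, ψ v = 0)
    (hq0 : ∀ v ∈ F0, q v = 0) (hq : ∀ v, |q v| ≤ 1 / 2) {K : ℝ} (h1 : G.En ψ ≤ K)
    (h2 : G.En q ≤ K) (τ : Cf ι n) :
    P G F0 (fun s => GA G k l m (fun v => lam * q v) ψ s ^ 2) τ ≤
      lam ^ 2 * (3 * (4 * Real.exp (3 * K) + 2 * K ^ 2 + K ^ 2 + 40 * K ^ 2)) := by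
  have n1 := En_nonneg G hb ψ
  have n2 := En_nonneg G hb q
  have hJ := E_sq_JJ G hb hkl hlm hmk hψ hq0 hq h1 h2 τ
  have hX1 := E_four_XI G hb hkl hψ τ
  have hX2 := E_four_XI G hb hlm hq0 τ
  have hX1' : P G F0 (fun s => XI G k l ψ s ^ 4) τ ≤ 40 * K ^ 2 := by nlinarith
  have hX2' : P G F0 (fun s => XI G l m q s ^ 4) τ ≤ 40 * K ^ 2 := by nlinarith
  have cJ := continuous_JJ G k m q ψ (n := n)
  have c1 := continuous_XI G k l ψ (n := n)
  have c2 := continuous_XI G l m q (n := n)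
  have cG : Continuous (fun s : Cf ι n => GA G k l m (fun v => lam * q v) ψ s) := by
    unfold GA
    exact (continuous_XXA G k m _ ψ).add (c1.mul (continuous_XI G l m _))
  calc P G F0 (fun s => GA G k l m (fun v => lam * q v) ψ s ^ 2) τ
      ≤ P G F0 (fun s => lam ^ 2 * (3 * ((JJ G k m q ψ s ^ 2 + K ^ 2) +
          ((1 / 2) * XI G k l ψ s ^ 4 + (1 / 2) * XI G l m q s ^ 4)))) τ := by
        refine P_mono G (cG.pow 2) (continuous_const.mul (continuous_const.mul
          (((cJ.pow 2).add continuous_const).add ((continuous_const.mul (c1.pow 4)).add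
            (continuous_const.mul (c2.pow 4)))))) (fun s => ?_) τ
        show GA G k l m (fun v => lam * q v) ψ s ^ 2 ≤ lam ^ 2 * (3 * ((JJ G k m q ψ s ^ 2 + K ^ 2) +
          ((1 / 2) * XI G k l ψ s ^ 4 + (1 / 2) * XI G l m q s ^ 4)))
        rw [GA_eq]
        have hT := abs_cross_le G hb ψ q
          (fun e => (s (G.src e) : EuclideanSpace ℝ (Fin n)) k *
            (s (G.tgt e) : EuclideanSpace ℝ (Fin n)) m)
          (fun e => by
            rw [abs_mul]
            exact mul_le_one₀ (abs_coord_le _ _) (abs_nonneg _) (abs_coord_le _ _))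
        set T := ∑ e, G.b e * (ψ (G.tgt e) - ψ (G.src e)) * ((q (G.tgt e) - q (G.src e)) *
          ((s (G.src e) : EuclideanSpace ℝ (Fin n)) k *
            (s (G.tgt e) : EuclideanSpace ℝ (Fin n)) m)) with hTdef
        have hT2 : |T| ≤ K := by linarith
        have hT3 : T ^ 2 ≤ K ^ 2 := sq_le_sq' (by linarith [(abs_le.1 hT2).1]) (abs_le.1 hT2).2
        set a := JJ G k m q ψ s
        set x := XI G k l ψ s
        set y := XI G l m q s
        rw [mul_pow]
        refine mul_le_mul_of_nonneg_left ?_ (sq_nonneg lam)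
        have e3 : (x * y) ^ 2 ≤ (1 / 2) * x ^ 4 + (1 / 2) * y ^ 4 := by
          nlinarith [sq_nonneg (x ^ 2 - y ^ 2)]
        nlinarith [sq_nonneg (a - T), sq_nonneg (a - x * y), sq_nonneg (T - x * y)]
    _ = lam ^ 2 * (3 * ((P G F0 (fun s => JJ G k m q ψ s ^ 2) τ + K ^ 2) +
          ((1 / 2) * P G F0 (fun s => XI G k l ψ s ^ 4) τ +
            (1 / 2) * P G F0 (fun s => XI G l m q s ^ 4) τ))) := by
        rw [P_const_mul, P_const_mul, P_add G (F := fun s => JJ G k m q ψ s ^ 2 + K ^ 2)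
          (H := fun s => (1 / 2) * XI G k l ψ s ^ 4 + (1 / 2) * XI G l m q s ^ 4)
          ((cJ.pow 2).add continuous_const)
          ((continuous_const.mul (c1.pow 4)).add (continuous_const.mul (c2.pow 4))),
          P_add G (F := fun s => JJ G k m q ψ s ^ 2) (H := fun _ => K ^ 2)
            (cJ.pow 2) continuous_const, P_const,
          P_add G (F := fun s => (1 / 2) * XI G k l ψ s ^ 4)
            (H := fun s => (1 / 2) * XI G l m q s ^ 4)
            (continuous_const.mul (c1.pow 4)) (continuous_const.mul (c2.pow 4)),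
          P_const_mul, P_const_mul]
    _ ≤ _ := by
        refine mul_le_mul_of_nonneg_left ?_ (sq_nonneg lam)
        linarith

end Crest.Agent.R167.Mom

namespace Crest.Agent.R167

/-- (M4): the constant depends only on `K0`. -/
theorem E_sq_G (K0 : ℝ) : ∃ C2 : ℝ, 0 ≤ C2 ∧ ∀ (ι E : Type) [Fintype ι] [Fintype E]
    (G : Gr ι E), (∀ e, 0 ≤ G.b e) → ∀ (n : ℕ) [NeZero n] (k l m : Fin n), k ≠ l → l ≠ m → m ≠ k →
    ∀ (F0 : Set ι) (ψ q : ι → ℝ) (lam : ℝ), (∀ v ∈ F0, ψ v = 0) → (∀ v ∈ F0, q v = 0) →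
    (∀ v, |q v| ≤ 1 / 2) → G.En ψ ≤ K0 → G.En q ≤ K0 → ∀ τ : Cf ι n,
      P G F0 (fun s => GA G k l m (fun v => lam * q v) ψ s ^ 2) τ ≤ (lam * C2) ^ 2 ∧
      P G F0 (fun s => GB G k l m (fun v => lam * q v) ψ s ^ 2) τ ≤ (lam * C2) ^ 2 := by
  refine ⟨Real.sqrt (3 * (4 * Real.exp (3 * K0) + 2 * K0 ^ 2 + K0 ^ 2 + 40 * K0 ^ 2)),
    Real.sqrt_nonneg _, ?_⟩
  intro ι E _ _ G hb n _ k l m hkl hlm hmk F0 ψ q lam hψ hq0 hq h1 h2 τ
  have hpos : 0 ≤ 3 * (4 * Real.exp (3 * K0) + 2 * K0 ^ 2 + K0 ^ 2 + 40 * K0 ^ 2) := by positivity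
  rw [mul_pow, Real.sq_sqrt hpos]
  refine ⟨Mom.E_sq_GA G hb hkl hlm hmk lam hψ hq0 hq h1 h2 τ, ?_⟩
  have h3 := Mom.E_sq_GA G hb hkl.symm hmk.symm hlm.symm lam hψ hq0 hq h1 h2 τ
  simp only [Mom.GB_eq_GA]
  exact h3

end Crest.Agent.R167
end

-- ▼ part R167/Mom
section

/-! # Row 167: node MOM = MomM1 (E_sq_XI, E_exp_XI, E_four_XI) and MomD (E_sq_G) -/
end

-- ▼ part R167/Key

set_option autoImplicit false
open MeasureTheory Crest.ProbabilityR.SpinModel

/-! Row 167 (S0253): NODE K, the one-cell inequality. -/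

namespace Crest.Agent.R167

variable {ι E : Type} [Fintype ι] [Fintype E] {n : ℕ}

namespace Key

/-- a flow with speed `0` on `A` does not change functions of the spins in `A`. -/
lemma flow_inv_of_dep {k l : Fin n} (h : k ≠ l) {A : Set ι} {f : ι → ℝ} (hf : ∀ v ∈ A, f v = 0)
    {F : Cf ι n → ℝ} (hd : Dep A F) (t : ℝ) (s : Cf ι n) : F (Flow h f t s) = F s := by
  refine hd _ _ fun v hv => ?_
  simp only [Flow, hf v hv, mul_zero, rotS_zero]

/-- general Ward computation: `E[g' X_ψ + g G] = 0`. -/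
lemma ward_mul [NeZero n] (G : Gr ι E) {a c k l : Fin n} (hac : a ≠ c) {F0 : Set ι}
    {p ψ : ι → ℝ} (hp : ∀ v ∈ F0, p v = 0) {g g' X' : Cf ι n → ℝ} (hg : DX hac p g g')
    (hX : DX hac p (XI G k l ψ : Cf ι n → ℝ) X') (τ : Cf ι n) :
    P G F0 (fun s => g' s * XI G k l ψ s) τ
      = - P G F0 (fun s => g s * (X' s + XI G k l ψ s * XI G a c p s)) τ := by
  have hXac : Continuous (XI G a c p : Cf ι n → ℝ) := continuous_XI G a c p
  have h1 := ward G hp (hg.mul hX) τ
  have h2 : (fun s => g' s * XI G k l ψ s + g s * X' s + g s * XI G k l ψ s * XI G a c p s)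
      = fun s => g' s * XI G k l ψ s + g s * (X' s + XI G k l ψ s * XI G a c p s) := by
    funext s
    ring
  rw [h2] at h1
  rw [P_add G (c_mul hg.cont' hX.cont)
    (c_mul hg.cont (c_add hX.cont' (c_mul hX.cont hXac)))] at h1
  linarith

end Key

/-- NODE K. -/
theorem keyIneq : KeyIneq := by
  intro n hn K0
  have : NeZero n := ⟨by omega⟩
  obtain ⟨C2, hC2, hG⟩ := E_sq_G K0
  refine ⟨C2, hC2, ?_⟩
  intro ι E _ _ G hb k l m hkl hlm hmk F0 S' S hF hS ψ q lam hlam hψ hq hq2 hEψ hEq τ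
  set p : ι → ℝ := fun v => lam * q v with hpdef
  have hp0 : ∀ v ∈ F0, p v = 0 := fun v hv => by simp [hpdef, hq v hv]
  have hψ0 : ∀ v ∈ F0, ψ v = 0 := fun v hv => hψ v (hF hv)
  have hFS : F0 ⊆ S := hF.trans hS
  obtain ⟨mA, mB⟩ := hG ι E G hb n k l m hkl hlm hmk F0 ψ q lam hψ0 hq hq2 hEψ hEq τ
  -- the three fields
  obtain ⟨FA, FB, hFA, hFB, hcomm⟩ := commutator (n := n) G hkl hlm hmk p
  have hXψA := DX_XI_A (n := n) G hkl hlm hmk p ψ
  have hXψB := DX_XI_B (n := n) G hkl hlm hmk p ψ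
  have cψ : Continuous (XI G k l ψ : Cf ι n → ℝ) := continuous_XI G k l ψ
  have cA : Continuous (XI G l m p : Cf ι n → ℝ) := continuous_XI G l m p
  have cB : Continuous (XI G m k p : Cf ι n → ℝ) := continuous_XI G m k p
  have cp2 : Continuous (XI G k l (fun v => p v ^ 2) : Cf ι n → ℝ) := continuous_XI G k l _
  have cGA : Continuous (GA G k l m p ψ : Cf ι n → ℝ) := hXψA.cont'.add (cψ.mul cA)
  have cGB : Continuous (GB G k l m p ψ : Cf ι n → ℝ) := hXψB.cont'.add (cψ.mul cB)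
  -- derivatives of the conditional torques
  have dgB := DX_P G S hFA
  have dgA := DX_P G S hFB
  have dgB' := DX_P G S' hFA
  have dgA' := DX_P G S' hFB
  -- Ward identities
  have w1 := Key.ward_mul G hlm hp0 dgB hXψA τ
  have w2 := Key.ward_mul G hmk hp0 dgA hXψB τ
  have w3 := Key.ward_mul G hlm hp0 dgB' hXψA τ
  have w4 := Key.ward_mul G hmk hp0 dgA' hXψB τ
  have z3 := ward_inv (h := hkl) G (A := F0) hψ0 dgB'.cont'
    (Key.flow_inv_of_dep hkl hψ (dgB'.dep (dep_P G S' _))) τ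
  have z4 := ward_inv (h := hkl) G (A := F0) hψ0 dgA'.cont'
    (Key.flow_inv_of_dep hkl hψ (dgA'.dep (dep_P G S' _))) τ
  rw [z3] at w3
  rw [z4] at w4
  -- the commutator identity for the conditional torques
  have hc : ∀ s, P G S (XI G k l (fun v => p v ^ 2)) s
      = (P G S FB s + P G S (fun s => XI G l m p s * XI G m k p s) s
          - P G S (XI G l m p) s * P G S (XI G m k p) s)
        - (P G S FA s + P G S (fun s => XI G m k p s * XI G l m p s) s
          - P G S (XI G m k p) s * P G S (XI G l m p) s) := by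
    intro s
    have e1 : P G S (XI G k l (fun v => p v ^ 2)) s = P G S FB s - P G S FA s := by
      rw [← P_sub G hFB.cont' hFA.cont' s]
      congr 1
      funext s'
      have := hcomm s'
      linarith
    have e2 : (fun s => XI G l m p s * XI G m k p s : Cf ι n → ℝ)
        = fun s => XI G m k p s * XI G l m p s := by
      funext s'
      ring
    rw [e1, e2]
    ring
  -- LHS
  have e0 : P G F0 (fun s => P G S (XI G k l ψ) s * P G S (XI G k l (fun v => p v ^ 2)) s) τ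
      = P G F0 (fun s => (P G S FB s + P G S (fun s => XI G l m p s * XI G m k p s) s
          - P G S (XI G l m p) s * P G S (XI G m k p) s) * XI G k l ψ s) τ
        - P G F0 (fun s => (P G S FA s + P G S (fun s => XI G m k p s * XI G l m p s) s
          - P G S (XI G m k p) s * P G S (XI G l m p) s) * XI G k l ψ s) τ := by
    have s1 : P G F0 (fun s => P G S (XI G k l ψ) s * P G S (XI G k l (fun v => p v ^ 2)) s) τ
        = P G F0 (fun s => P G S (XI G k l (fun v => p v ^ 2)) s * XI G k l ψ s) τ := by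
      rw [P_selfadj G hFS cp2 cψ τ]
      congr 1
      funext s
      ring
    rw [s1, ← P_sub G (c_mul dgA.cont' cψ) (c_mul dgB.cont' cψ) τ]
    congr 1
    funext s
    rw [hc s]
    ring
  have eGA : (fun s => XXA G k m p ψ s + XI G k l ψ s * XI G l m p s : Cf ι n → ℝ)
      = GA G k l m p ψ := rfl
  have eGB : (fun s => XXB G l m p ψ s + XI G k l ψ s * XI G m k p s : Cf ι n → ℝ)
      = GB G k l m p ψ := rfl
  have cPB := continuous_P (A := S) G cB
  have cPA := continuous_P (A := S) G cA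
  have cPB' := continuous_P (A := S') G cB
  have cPA' := continuous_P (A := S') G cA
  have e1 : P G F0 (fun s => P G S (XI G k l ψ) s * P G S (XI G k l (fun v => p v ^ 2)) s) τ
      = P G F0 (fun s => (P G S (XI G m k p) s - P G S' (XI G m k p) s) * GA G k l m p ψ s) τ
        - P G F0 (fun s => (P G S (XI G l m p) s - P G S' (XI G l m p) s) * GB G k l m p ψ s) τ := by
    have t1 : P G F0 (fun s => (P G S (XI G m k p) s - P G S' (XI G m k p) s) *
        GA G k l m p ψ s) τ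
        = P G F0 (fun s => P G S (XI G m k p) s * GA G k l m p ψ s) τ
          - P G F0 (fun s => P G S' (XI G m k p) s * GA G k l m p ψ s) τ := by
      rw [← P_sub G (c_mul cPB cGA) (c_mul cPB' cGA) τ]
      congr 1
      funext s
      ring
    have t2 : P G F0 (fun s => (P G S (XI G l m p) s - P G S' (XI G l m p) s) *
        GB G k l m p ψ s) τ
        = P G F0 (fun s => P G S (XI G l m p) s * GB G k l m p ψ s) τ
          - P G F0 (fun s => P G S' (XI G l m p) s * GB G k l m p ψ s) τ := by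
      rw [← P_sub G (c_mul cPA cGB) (c_mul cPA' cGB) τ]
      congr 1
      funext s
      ring
    have w3' : P G F0 (fun s => P G S' (XI G m k p) s * GA G k l m p ψ s) τ = 0 := by
      have : (0 : ℝ) = - P G F0 (fun s => P G S' (XI G m k p) s * GA G k l m p ψ s) τ := w3
      linarith
    have w4' : P G F0 (fun s => P G S' (XI G l m p) s * GB G k l m p ψ s) τ = 0 := by
      have : (0 : ℝ) = - P G F0 (fun s => P G S' (XI G l m p) s * GB G k l m p ψ s) τ := w4
      linarith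
    rw [e0, w1, w2, t1, t2, w3', w4']
    change - P G F0 (fun s => P G S (XI G l m p) s * GB G k l m p ψ s) τ
      - - P G F0 (fun s => P G S (XI G m k p) s * GA G k l m p ψ s) τ = _
    ring
  have hlC : 0 ≤ lam * C2 := mul_nonneg hlam hC2
  have b1 := P_abs_mul_le (A := F0) G (c_sub cPB cPB') cGA τ
  have b2 := P_abs_mul_le (A := F0) G (c_sub cPA cPA') cGB τ
  have r1 : Real.sqrt (P G F0 (fun s => GA G k l m p ψ s ^ 2) τ) ≤ lam * C2 :=
    Real.sqrt_le_iff.mpr ⟨hlC, mA⟩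
  have r2 : Real.sqrt (P G F0 (fun s => GB G k l m p ψ s ^ 2) τ) ≤ lam * C2 :=
    Real.sqrt_le_iff.mpr ⟨hlC, mB⟩
  have q1 := Real.sqrt_nonneg
    (P G F0 (fun s => (P G S (XI G m k p) s - P G S' (XI G m k p) s) ^ 2) τ)
  have q2 := Real.sqrt_nonneg
    (P G F0 (fun s => (P G S (XI G l m p) s - P G S' (XI G l m p) s) ^ 2) τ)
  have B1 : |P G F0 (fun s => (P G S (XI G m k p) s - P G S' (XI G m k p) s) *
      GA G k l m p ψ s) τ|
      ≤ Real.sqrt (P G F0 (fun s => (P G S (XI G m k p) s - P G S' (XI G m k p) s) ^ 2) τ)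
        * (lam * C2) := b1.trans (mul_le_mul_of_nonneg_left r1 q1)
  have B2 : |P G F0 (fun s => (P G S (XI G l m p) s - P G S' (XI G l m p) s) *
      GB G k l m p ψ s) τ|
      ≤ Real.sqrt (P G F0 (fun s => (P G S (XI G l m p) s - P G S' (XI G l m p) s) ^ 2) τ)
        * (lam * C2) := b2.trans (mul_le_mul_of_nonneg_left r2 q2)
  rw [e1]
  refine (abs_sub _ _).trans ?_
  calc _ ≤ _ := add_le_add B1 B2
    _ = _ := by ring

end Crest.Agent.R167
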